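import Vale.Agent.P166.Par.Cascade
import Vale.Agent.P157.Par.Defs
import Vale.Agent.P166.Pattern.Signed.Quad

/-! Inequalities between flat functionals `E log ∑ w exp f(u)` pass to nested functionals; in particular
`E log nest` of `exp (b u ^ 2 / 2)`, `|b| ≤ 1 / 10`, is concave between covariances with unit diagonal. -/

open MeasureTheory Filter Finset
open scoped Topology
open Vale.Agent.P150 (gauss dot)
open Vale.Agent.P168.MP (Ok nest)
open Vale.Agent.P157.Lim (cvec)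
open Vale.Agent.P157.Par (fac cv)

namespace Vale.Agent.P166.Par

variable {Ω : Type} [Fintype Ω] [Nonempty Ω] {R : ℕ} {m : ℕ → ℝ} {w : List Ω → ℝ}

/-- one flat functional of a Gaussian field indexed by the leaves -/
noncomputable def flat {κ : Type} [Fintype κ] (f : ℝ → ℝ) (π : (Fin R → Ω) → ℝ) (a : List Ω → κ → ℝ) : ℝ :=
  ∫ g, Real.log (∑ p, π p * Real.exp (f (dot (a (List.ofFn p)) g))) ∂gauss κ

omit [Nonempty Ω] in
/-- a weighted log-sum-exp is bounded by the absolute values -/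
lemma abs_log_flat_le {π : (Fin R → Ω) → ℝ} (hπ : ∀ p, 0 < π p) (h1 : ∑ p, π p = 1) (x : (Fin R → Ω) → ℝ) :
    |Real.log (∑ p, π p * Real.exp (x p))| ≤ ∑ p, |x p| := by
  set M := ∑ p, |x p|
  have hM : ∀ p, |x p| ≤ M := fun p =>
    single_le_sum (f := fun p => |x p|) (fun _ _ => abs_nonneg _) (mem_univ p)
  have up : ∑ p, π p * Real.exp (x p) ≤ Real.exp M := by
    refine (sum_le_sum fun p _ => mul_le_mul_of_nonneg_left
      (Real.exp_le_exp.2 ((le_abs_self _).trans (hM p))) (hπ p).le).trans ?_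
    rw [← sum_mul, h1, one_mul]
  have low : Real.exp (-M) ≤ ∑ p, π p * Real.exp (x p) := by
    refine le_trans ?_ (sum_le_sum fun p _ => mul_le_mul_of_nonneg_left
      (Real.exp_le_exp.2 (abs_le.1 (hM p)).1) (hπ p).le)
    rw [← sum_mul, h1, one_mul]
  have h0 := (Real.exp_pos (-M)).trans_le low
  rw [abs_le]
  exact ⟨(Real.le_log_iff_exp_le h0).2 low, (Real.log_le_iff_le_exp h0).2 up⟩

/-- expectations of nested functionals are limits of mixtures of flat ones -/
theorem nest_lim (hR : 1 ≤ R) (hm : Ok R m w) :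
    ∃ (J : ℕ → Type) (_ : ∀ n, Fintype (J n)) (c : ∀ n, J n → ℝ) (π : ∀ n, J n → (Fin R → Ω) → ℝ),
      (∀ n j, 0 ≤ c n j) ∧ (∀ n j p, 0 < π n j p) ∧ (∀ n j, ∑ p, π n j p = 1) ∧
      Tendsto (fun n => ∑ j, c n j) atTop (𝓝 1) ∧
      ∀ {κ : Type} [Fintype κ] (f : ℝ → ℝ) (a : List Ω → κ → ℝ), Continuous f →
        (∀ p, Integrable (fun g => f (dot (a p) g)) (gauss κ)) →
        Tendsto (fun n => ∑ j, c n j * flat f (π n j) a) atTop
          (𝓝 (∫ g, Real.log (nest m w (fac f a g) R []) ∂gauss κ)) := by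
  obtain ⟨J, inst, c, π, hc, hπ, h1, ⟨C, hC⟩, hlim⟩ := cascade hR hm
  refine ⟨J, inst, c, π, hc, hπ, h1, ?_, fun {κ} _ f a hf hint => ?_⟩
  · have h := hlim (fun _ => Real.exp 1) fun _ => Real.exp_pos 1
    have e : nest m w (fun _ => Real.exp 1) R [] = Real.exp 1 := by
      have := Vale.Agent.P168.MP.nest_mem (Y := fun _ => Real.exp 1) hm (b := Real.exp 1) (Real.exp_pos 1)
        (fun _ _ => ⟨le_rfl, le_rfl⟩) R [] (by simp)
      exact le_antisymm this.2 this.1
    simpa [e, ← sum_mul, h1] using h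
  have hmeas : ∀ n j, Continuous fun g => Real.log (∑ p, π n j p * Real.exp (f (dot (a (List.ofFn p)) g))) :=
    fun n j => Continuous.log (by unfold dot; fun_prop)
      fun g => (sum_pos (fun p _ => mul_pos (hπ n j p) (Real.exp_pos _)) univ_nonempty).ne'
  have hB : Integrable (fun g => ∑ p : Fin R → Ω, |f (dot (a (List.ofFn p)) g)|) (gauss κ) :=
    integrable_finsetSum _ fun p _ => (hint _).abs
  have hi : ∀ n j, Integrable (fun g => c n j * Real.log (∑ p, π n j p * Real.exp (f (dot (a (List.ofFn p)) g))))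
      (gauss κ) := fun n j => (hB.mono' (hmeas n j).aestronglyMeasurable
        (Eventually.of_forall fun g => abs_log_flat_le (hπ n j) (h1 n j) _)).const_mul _
  simp only [flat, ← integral_const_mul, ← integral_finsetSum _ fun j _ => hi _ j]
  refine tendsto_integral_of_dominated_convergence (fun g => C * ∑ p : Fin R → Ω, |f (dot (a (List.ofFn p)) g)|)
    (fun n => (continuous_finsetSum _ fun j _ => (hmeas n j).const_mul _).aestronglyMeasurable)
    (hB.const_mul _) (fun n => Eventually.of_forall fun g => ?_)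
    (Eventually.of_forall fun g => hlim (fac f a g) fun p => Real.exp_pos _)
  rw [Real.norm_eq_abs]
  refine (abs_sum_le_sum_abs _ _).trans ((sum_le_sum fun j _ => ?_).trans
    (le_of_eq_of_le (sum_mul _ _ _).symm (mul_le_mul_of_nonneg_right (hC n) (sum_nonneg fun _ _ => abs_nonneg _))))
  rw [abs_mul, abs_of_nonneg (hc n j)]
  exact mul_le_mul_of_nonneg_left (abs_log_flat_le (hπ n j) (h1 n j) _) (hc n j)

/-- a uniform comparison of flat functionals holds for nested ones -/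
theorem nest_stab (hR : 1 ≤ R) (hm : Ok R m w) {κ : Type} [Fintype κ] {f h : ℝ → ℝ} (a : List Ω → κ → ℝ)
    (hf : Continuous f) (hh : Continuous h) (hfi : ∀ p, Integrable (fun g => f (dot (a p) g)) (gauss κ))
    (hhi : ∀ p, Integrable (fun g => h (dot (a p) g)) (gauss κ)) {ε : ℝ}
    (hflat : ∀ π : (Fin R → Ω) → ℝ, (∀ p, 0 < π p) → ∑ p, π p = 1 → |flat f π a - flat h π a| ≤ ε) :
    |(∫ g, Real.log (nest m w (fac f a g) R []) ∂gauss κ) -
      ∫ g, Real.log (nest m w (fac h a g) R []) ∂gauss κ| ≤ ε := by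
  obtain ⟨J, inst, c, π, hc, hπ, h1, hs, hlim⟩ := nest_lim hR hm
  refine le_of_tendsto_of_tendsto' ((hlim f a hf hfi).sub (hlim h a hh hhi)).abs
    (show Tendsto (fun n => (∑ j, c n j) * ε) atTop (𝓝 ε) by simpa using hs.mul_const ε) fun n => ?_
  rw [← sum_sub_distrib, sum_mul]
  refine (abs_sum_le_sum_abs _ _).trans (sum_le_sum fun j _ => ?_)
  rw [← mul_sub, abs_mul, abs_of_nonneg (hc n j)]
  exact mul_le_mul_of_nonneg_left (hflat _ (hπ n j) (h1 n j)) (hc n j)

/-- `E log nest` along the interpolation of two covariances -/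
noncomputable def Gn {ι κ : Type} [Fintype ι] [Fintype κ] (f : ℝ → ℝ) (R : ℕ) (m : ℕ → ℝ) (w : List Ω → ℝ)
    (a : List Ω → ι → ℝ) (b : List Ω → κ → ℝ) (u : ℝ) : ℝ :=
  ∫ g, Real.log (nest m w (fac f (fun p => cvec a b u p) g) R []) ∂gauss (ι ⊕ κ)

omit [Fintype Ω] [Nonempty Ω] in
lemma cv_cvec {ι κ : Type} [Fintype ι] [Fintype κ] (a : List Ω → ι → ℝ) (b : List Ω → κ → ℝ) {u : ℝ}
    (h0 : 0 ≤ u) (h1 : u ≤ 1) (p q : List Ω) :
    cv (fun p => cvec a b u p) p q = u * cv a p q + (1 - u) * cv b p q := by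
  have s0 := Real.mul_self_sqrt h0
  have s1 := Real.mul_self_sqrt (sub_nonneg.2 h1)
  simp only [cv, dot, cvec, Fintype.sum_sum_type, Sum.elim_inl, Sum.elim_inr, mul_sum]
  congr 1 <;> refine sum_congr rfl fun k _ => ?_
  · linear_combination (a p k * a q k) * s0
  · linear_combination (b p k * b q k) * s1

/-- nested concavity from two-point positivity of the flat functional -/
theorem nest_concave (P : Pattern.Pot) (hR : 1 ≤ R) (hm : Ok R m w)
    (hpair : ∀ {κ : Type} [Fintype κ] (π : (Fin R → Ω) → ℝ), (∀ p, 0 < π p) → ∑ p, π p = 1 →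
      ∀ e : (Fin R → Ω) → κ → ℝ, (∀ p, Pattern.cov e p p = 1) → ∀ p q,
        0 ≤ ∫ x, P.pair π p q (Pattern.lin e x) ∂Pattern.gauss κ)
    {ι κ : Type} [Fintype ι] [Fintype κ] (a : List Ω → ι → ℝ) (b : List Ω → κ → ℝ)
    (ha : ∀ p : List Ω, p.length = R → cv a p p = 1) (hb : ∀ p : List Ω, p.length = R → cv b p p = 1) {t : ℝ} (h0 : 0 ≤ t) (h1 : t ≤ 1) :
    t * Gn P.f R m w a b 1 + (1 - t) * Gn P.f R m w a b 0 ≤ Gn P.f R m w a b t := by
  obtain ⟨J, inst, c, π, hc, hπ, hπ1, -, hlim⟩ := nest_lim hR hm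
  have hi : ∀ u p, Integrable (fun g => P.f (dot (cvec a b u p) g)) (gauss (ι ⊕ κ)) := fun u p =>
    Pattern.integrable_lin (F := fun y => P.f (y ())) (fun _ : Unit => cvec a b u p)
      (P.c0.comp (continuous_apply _)) (Pattern.Pot.poly_eval P.p0 ())
  have L := fun u => hlim P.f (fun p => cvec a b u p) P.c0 (hi u)
  refine le_of_tendsto_of_tendsto' (((L 1).const_mul t).add ((L 0).const_mul (1 - t))) (L t) fun n => ?_
  simp only [mul_sum, ← sum_add_distrib]
  refine sum_le_sum fun j _ => ?_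
  rw [mul_left_comm t, mul_left_comm (1 - t), ← mul_add]
  refine mul_le_mul_of_nonneg_left ?_ (hc n j)
  set e : ℝ → (Fin R → Ω) → ι ⊕ κ → ℝ := fun u p => cvec a b u (List.ofFn p)
  have cov_e : ∀ u, 0 ≤ u → u ≤ 1 → ∀ p q, Pattern.cov (e u) p q =
      u * cv a (List.ofFn p) (List.ofFn q) + (1 - u) * cv b (List.ofFn p) (List.ofFn q) :=
    fun u hu hu' p q => cv_cvec a b hu hu' _ _
  have hdiag : ∀ u, 0 ≤ u → u ≤ 1 → ∀ p, Pattern.cov (e u) p p = 1 := fun u hu hu' p => by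
    rw [cov_e u hu hu', ha _ (by simp), hb _ (by simp)]; ring
  have h := P.concave (π n j) (hπ n j) (hπ1 n j) (e 0) (e 1) (hdiag 0 le_rfl zero_le_one)
    (hdiag 1 zero_le_one le_rfl) (fun s hs p q => hpair (π n j) (hπ n j) (hπ1 n j) _ (fun r => by
      have d0 := hdiag 0 le_rfl zero_le_one r
      have d1 := hdiag 1 zero_le_one le_rfl r
      have a0 := Real.mul_self_sqrt (sub_nonneg.2 hs.2.le)
      have a1 := Real.mul_self_sqrt hs.1.le
      simp only [Pattern.cov, Pattern.ct, Fintype.sum_sum_type, Sum.elim_inl, Sum.elim_inr] at d0 d1 ⊢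
      simp only [mul_mul_mul_comm, ← mul_sum, a0, a1]
      linear_combination (1 - s) * d0 + s * d1) p q) (e t) (show t ∈ Set.Icc (0:ℝ) 1 from ⟨h0, h1⟩)
    (fun p q => by rw [cov_e t h0 h1, cov_e 0 le_rfl zero_le_one, cov_e 1 zero_le_one le_rfl]; ring)
  refine (le_of_eq_of_le ?_ h)
  show t * (∫ x, P.H (π n j) (Pattern.lin (e 1) x) ∂Pattern.gauss _) +
    (1 - t) * (∫ x, P.H (π n j) (Pattern.lin (e 0) x) ∂Pattern.gauss _) = _
  ring

/-- nested concavity for `exp (b u ^ 2 / 2)` -/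
theorem quad_nest_concave {b₀ : ℝ} (hb₀ : |b₀| ≤ 1 / 10) (hR : 1 ≤ R) (hm : Ok R m w)
    {ι κ : Type} [Fintype ι] [Fintype κ] (a : List Ω → ι → ℝ) (b : List Ω → κ → ℝ)
    (ha : ∀ p : List Ω, p.length = R → cv a p p = 1) (hb : ∀ p : List Ω, p.length = R → cv b p p = 1) {t : ℝ} (h0 : 0 ≤ t) (h1 : t ≤ 1) :
    t * Gn (fun x => b₀ * x ^ 2 / 2) R m w a b 1 + (1 - t) * Gn (fun x => b₀ * x ^ 2 / 2) R m w a b 0 ≤
      Gn (fun x => b₀ * x ^ 2 / 2) R m w a b t := by
  refine nest_concave (Pattern.quad b₀) hR hm (fun π hπ hπ1 e he p q => ?_) a b ha hb h0 h1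
  rcases le_total 0 b₀ with h | h
  · exact Pattern.quad_pair_nonneg h (by linarith [(abs_le.1 hb₀).2]) π hπ hπ1 e he p q
  · exact Pattern.Signed.quad_pair_nonneg_neg h (by linarith [(abs_le.1 hb₀).1]) π hπ hπ1 e he p q

end Vale.Agent.P166.Par
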