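import Vale.Agent.P166.Par.Cut
import Vale.Agent.P166.Pattern.Signed.FreeID

/-! From a pattern model with finitely many jump sizes to Haar rotated spectra of the free infinitely
divisible law with these jumps; the one-species pressure as a perceptron pressure with quadratic
potential. -/

open MeasureTheory ProbabilityTheory Filter Matrix
open scoped Topology

noncomputable section

namespace Vale.Agent.P166.Par

open Pattern (Simplex unif w0)
open Pattern.Signed (Carried Ka Ra fC sFw sLw sen)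
open Pattern.Multi (Ks cs Rk dom edgeR cauchy Law can)

variable {r : ℕ}

/-- the jump measure of species with sizes `a` and rates `α` -/
def jumpMeas (a α : Fin r → ℝ) : Measure ℝ :=
  ∑ j, ENNReal.ofReal (α j * a j ^ 2) • Measure.dirac (a j)

/-- a bound for the jump sizes -/
def jumpBd (a : Fin r → ℝ) : ℝ := ∑ j, |a j|

lemma abs_le_jumpBd (a : Fin r → ℝ) (j : Fin r) : |a j| ≤ jumpBd a :=
  Finset.single_le_sum (f := fun j => |a j|) (fun _ _ => abs_nonneg _) (Finset.mem_univ j)

lemma carried (a α : Fin r → ℝ) : Carried (jumpMeas a α) (jumpBd a) := by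
  refine ⟨⟨?_⟩, Finset.sum_nonneg fun j _ => abs_nonneg _, ?_⟩
  · simp only [jumpMeas, Measure.coe_finsetSum, Finset.sum_apply, Measure.smul_apply, measure_univ,
      smul_eq_mul, mul_one]
    exact ENNReal.sum_lt_top.2 fun j _ => ENNReal.ofReal_lt_top
  · rw [ae_iff]
    simp only [jumpMeas, Measure.coe_finsetSum, Finset.sum_apply, Measure.smul_apply]
    refine Finset.sum_eq_zero fun j _ => ?_
    have hnot : a j ∉ {x | ¬x ∈ Set.Icc (-jumpBd a) (jumpBd a)} := fun h =>
      h (abs_le.1 (abs_le_jumpBd a j))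
    rw [Measure.dirac_apply, Set.indicator_of_notMem hnot, smul_zero]

lemma dom_lt {a α : Fin r → ℝ} (hα : ∀ j, 0 < α j) {y : ℝ} (hy : y ∈ dom (jumpMeas a α)) (j : Fin r) :
    y * a j < 1 := by
  rcases eq_or_ne (a j) 0 with h0 | h0
  · rw [h0, mul_zero]; exact one_pos
  have hmem : a j ∈ (jumpMeas a α).support := by
    rw [Measure.mem_support_iff_forall]
    intro U hU
    have hpos : 0 < ENNReal.ofReal (α j * a j ^ 2) := ENNReal.ofReal_pos.2 (by have := hα j; positivity)
    have h1 : ENNReal.ofReal (α j * a j ^ 2) • Measure.dirac (a j) U ≤ jumpMeas a α U := by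
      simp only [jumpMeas, Measure.coe_finsetSum, Finset.sum_apply, Measure.smul_apply]
      exact Finset.single_le_sum (f := fun i => ENNReal.ofReal (α i * a i ^ 2) • Measure.dirac (a i) U)
        (fun i _ => bot_le) (Finset.mem_univ j)
    rw [Measure.dirac_apply_of_mem (mem_of_mem_nhds hU), smul_eq_mul, mul_one] at h1
    exact hpos.trans_le h1
  refine lt_of_le_of_lt (mul_le_mul_of_nonneg_left ?_ hy.1.le) hy.2
  exact le_csSup (bddAbove_Icc.mono (carried a α).support_subset) hmem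

/-- the kernel of the jump measure -/
lemma Rk_jump {a α : Fin r → ℝ} (hα : ∀ j, 0 < α j) (c0 : ℝ) {y : ℝ} (hy : ∀ j, y * a j < 1) :
    Rk (c0 + ∑ j, α j * a j) (jumpMeas a α) y = Ra a α y + c0 := by
  have hw : ∀ j, 0 ≤ α j * a j ^ 2 := fun j => mul_nonneg (hα j).le (sq_nonneg _)
  simp only [Rk, jumpMeas, Ra]
  rw [integral_finsetSum_measure fun j _ =>
    (integrable_dirac (by finiteness)).smul_measure ENNReal.ofReal_ne_top]
  simp only [integral_smul_measure, integral_dirac, ENNReal.toReal_ofReal (hw _), smul_eq_mul]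
  rw [add_assoc, ← Finset.sum_add_distrib, add_comm c0]
  congr 1
  refine Finset.sum_congr rfl fun j _ => ?_
  have hd : 1 - y * a j ≠ 0 := (sub_pos.2 (hy j)).ne'
  rw [show 1 - a j * y = 1 - y * a j by ring]
  generalize hD : 1 - y * a j = D at hd ⊢
  field_simp
  rw [← hD]
  ring

/-- a law with the kernel, and spectra near it along which the pressure converges -/
theorem species_core (hr : 0 < r) {a α : Fin r → ℝ} (hα : ∀ j, 0 < α j) (c0 : ℝ) {β : ℝ} (_hβ : 0 ≤ β)
    (ha : ∀ j, |β * a j| ≤ 1 / 10) {p : ℝ}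
    (hp : Tendsto (fun N : ℕ => fC (fun j => β * a j) N (Ks α N) / N) atTop (𝓝 p))
    {ν : ∀ N : ℕ, Measure (Mat N)} (hν : ∀ N, IsHaarOrthogonal (ν N)) :
    ∃ (μ : Measure ℝ) (X : ∀ N : ℕ, Fin N → ℝ) (L : ℝ), Law μ (-L) L ∧ IsCompact μ.support ∧
      (∀ᶠ w in atTop, 0 < cauchy μ w ∧
        w = 1 / cauchy μ w + Rk (c0 + ∑ j, α j * a j) (jumpMeas a α) (cauchy μ w)) ∧
      Near μ L X ∧
      Tendsto (fun N : ℕ => ∫ U, min |pressure β (X N) U - (p + β * c0 / 2)| 1 ∂ν N) atTop (𝓝 0) := by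
  set γ := c0 + ∑ j, α j * a j
  set ρ := jumpMeas a α
  set A := jumpBd a
  have hc := carried a α
  have hA : 0 ≤ A := hc.nonneg
  obtain ⟨Ψ, hm, h01, hlim, hid⟩ := Pattern.Signed.good_functional_at ha hα hp ν hν
  obtain ⟨g, lam, hS, -, ⟨L₀, hL₀⟩, hΨ, hdiag⟩ := Pattern.Signed.exists_spec hr (a := a) hα Ψ hm h01 hlim
  set L := |L₀| + |c0|
  set S := ∑ j, α j * a j ^ 2
  have hS0 : 0 ≤ S := Finset.sum_nonneg fun j _ => mul_nonneg (hα j).le (sq_nonneg _)
  set X : ∀ N : ℕ, Fin N → ℝ := fun N i => lam N i + c0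
  have hbdd : ∀ᶠ N : ℕ in atTop, ∀ i, |X N i| ≤ L := hL₀.mono fun N hN i =>
    (abs_add_le _ _).trans (add_le_add ((hN i).trans (le_abs_self _)) le_rfl)
  have hF : Tendsto (fun N : ℕ => ∫ U, min |pressure β (X N) U - (p + β * c0 / 2)| 1 ∂ν N) atTop (𝓝 0) := by
    refine hΨ.congr' ?_
    filter_upwards [eventually_gt_atTop 0] with N hN
    obtain ⟨Q, hQ, hW⟩ := hdiag N
    rw [← hid N (g N) (lam N) Q hQ hW]
    refine integral_congr_ae ((hν N).2.1.mono fun U hU => ?_)
    simp only [X, pressure_shift hN β c0 (lam N) hU]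
    congr 2
    ring
  have htop : ∀ ε : ℝ, 0 < ε → ∀ᶠ N : ℕ in atTop, ∀ i, X N i ≤ edgeR γ ρ + ε := fun ε hε => by
    have hne : ((fun y => 1 / y + Rk γ ρ y) '' dom ρ).Nonempty := by
      refine Set.Nonempty.image _ ⟨1 / (A + 1), by positivity, ?_⟩
      rw [one_div_mul_eq_div, div_lt_one (by linarith)]
      linarith [hc.top_le]
    obtain ⟨_, ⟨y, hy, rfl⟩, hlt⟩ := exists_lt_of_csInf_lt hne
      (show sInf ((fun y => 1 / y + Rk γ ρ y) '' dom ρ) < edgeR γ ρ + ε / 2 by simp only [edgeR]; linarith)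
    have hya := dom_lt hα hy
    filter_upwards [Pattern.Signed.top_le hα hS hL₀ hy.1 hya (half_pos hε)] with N hN i
    simp only [Rk_jump hα c0 hya, γ, ρ] at hlt
    have := hN i
    simp only [Ka] at this
    simp only [X]
    linarith
  set W0 := L + A + S + 2
  have htr : ∀ w, W0 ≤ w → ∃ y, 0 < y ∧ y ≤ 1 / (w - L) ∧ w = 1 / y + Rk γ ρ y ∧
      Tendsto (fun N : ℕ => (∑ i, 1 / (w - X N i)) / (N:ℝ)) atTop (𝓝 y) := fun w hw => by
    simp only [W0] at hw
    have hc0 : c0 ≤ |c0| := le_abs_self c0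
    obtain ⟨y, hy, hyb, hya, hyK, hlimy⟩ := Pattern.Signed.transform hα hS hL₀ (c := |L₀|) (A := A)
      (fun d hd => hL₀.mono fun N hN i => by
        linarith [(abs_le.1 (hN i)).2, le_abs_self L₀])
      (fun j => (le_abs_self _).trans (abs_le_jumpBd a j)) hA
      (w := w - c0) (by simp only [L] at hw; linarith) (by
        refine lt_of_lt_of_le (show S < S + 1 by linarith)
          (le_trans ?_ (pow_le_pow_left₀ (by linarith) (show S + 1 ≤ w - c0 - |L₀| - A by
            simp only [L] at hw; linarith) 2))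
        nlinarith)
    refine ⟨y, hy, hyb.trans (one_div_le_one_div_of_le (by linarith) (by simp only [L]; linarith)), ?_, ?_⟩
    · simp only [γ, ρ, Rk_jump hα c0 hya]
      simp only [Ka] at hyK
      linarith
    · refine hlimy.congr fun N => ?_
      congr 1
      exact Finset.sum_congr rfl fun i _ => by simp only [X]; congr 1; ring
  obtain ⟨μ, κ, hμ, hμc, heq, -, hnear, -, hF'⟩ := Pattern.Signed.diag_law hc γ (L := L) (W0 := W0)
    (by simp only [W0]; linarith) (by simp only [W0]; linarith) (fun _ => X) (fun _ => Rk γ ρ)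
    (fun _ => edgeR γ ρ) (fun _ N => ∫ U, min |pressure β (X N) U - (p + β * c0 / 2)| 1 ∂ν N)
    (fun _ => hbdd) (fun _ => htop) (fun ε hε => .of_forall fun _ => by linarith) (fun _ => htr)
    (fun y0 hy => (Pattern.Signed.analytic_Rk hc γ hy).continuousAt.tendsto.comp tendsto_snd)
    (fun _ => hF)
  exact ⟨μ, X, L, hμ, hμc, heq, hnear, hF'⟩

/-- **the law of finitely many species and the limit of the pressure on it** -/
theorem species_haar (hr : 0 < r) {a α : Fin r → ℝ} (hα : ∀ j, 0 < α j) (c0 : ℝ) :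
    ∃ μ : Measure ℝ, IsProbabilityMeasure μ ∧ IsCompact μ.support ∧
      (∀ᶠ w in atTop, 0 < cauchy μ w ∧ w = 1 / cauchy μ w + (Ra a α (cauchy μ w) + c0)) ∧
      (∃ lam, Admissible μ lam) ∧
      ∀ β : ℝ, 0 ≤ β → (∀ j, |β * a j| ≤ 1 / 10) → ∀ p : ℝ,
        Tendsto (fun N : ℕ => fC (fun j => β * a j) N (Ks α N) / N) atTop (𝓝 p) →
        ∀ lam : ∀ N : ℕ, Fin N → ℝ, Admissible μ lam →
        ∀ ν : ∀ N : ℕ, Measure (Mat N), (∀ N, IsHaarOrthogonal (ν N)) → ∀ ε : ℝ, 0 < ε →
          Tendsto (fun N : ℕ => (ν N).real {U | ε ≤ |pressure β (lam N) U - (p + β * c0 / 2)|})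
            atTop (𝓝 0) := by
  choose ν0 hν0 using exists_haar
  set γ := c0 + ∑ j, α j * a j
  set ρ := jumpMeas a α
  have hc := carried a α
  obtain ⟨p0, hp0⟩ := Pattern.Signed.exists_limit (b := fun j => (0:ℝ) * a j)
    (fun j => by simp) hα
  obtain ⟨μ, X0, L1, hμ, hμc, heq, hX0, -⟩ := species_core hr hα c0 le_rfl (fun j => by simp) hp0 hν0
  have := hμ.prob
  refine ⟨μ, hμ.prob, hμc, ?_, Pattern.exists_admissible hμc hX0.weak, ?_⟩
  · obtain ⟨M, hM⟩ := eventually_atTop.1 heq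
    filter_upwards [eventually_ge_atTop (max M (L1 + jumpBd a + 2))] with w hw
    obtain ⟨h1, h2⟩ := hM w (le_trans (le_max_left _ _) hw)
    refine ⟨h1, ?_⟩
    rwa [Rk_jump hα c0 fun j => ?_] at h2
    have hw' : L1 + jumpBd a + 2 ≤ w := le_trans (le_max_right _ _) hw
    have hb := (Pattern.Multi.cauchy_bounds hμ (show L1 < w by linarith [hc.nonneg])).2
    have hj := (le_abs_self _).trans (abs_le_jumpBd a j)
    calc cauchy μ w * a j ≤ cauchy μ w * jumpBd a := mul_le_mul_of_nonneg_left hj h1.le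
      _ ≤ 1 / (w - L1) * jumpBd a := mul_le_mul_of_nonneg_right hb hc.nonneg
      _ < 1 := by rw [one_div_mul_eq_div, div_lt_one (by linarith [hc.nonneg])]; linarith
  intro β hβ ha p hp lam hlam ν hν ε hε
  obtain ⟨μ', X, L2, hμ', -, heq', hX, hS⟩ := species_core hr hα c0 hβ ha hp hν
  have := hμ'.prob
  set L0 := max L1 L2
  have h1' : Law μ' (-L0) L0 := Pattern.Signed.law_mono (le_max_right _ _) hμ'
  have h2' : Law μ (-L0) L0 := Pattern.Signed.law_mono (le_max_left _ _) hμ
  have he : μ' = μ := ext_of_forall_integral_eq_of_IsFiniteMeasure fun g =>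
    Pattern.Multi.integral_unique h1' h2'
      (Pattern.Signed.cauchy_unique hc γ h1' h2' (heq'.mono fun _ hw => hw.2) (heq.mono fun _ hw => hw.2)) g
  subst he
  set L := max L2 (|sSup μ'.support| + |sInf μ'.support| + 1)
  have hbL : |sSup μ'.support| ≤ L := le_trans (by linarith [abs_nonneg (sInf μ'.support)]) (le_max_right _ _)
  set φ := fun x : ℝ => min |x - (p + β * c0 / 2)| 1
  have hφ : Continuous φ := by fun_prop
  have h1 : Tendsto (fun N : ℕ => ∫ U, φ (pressure β (lam N) U) ∂ν N) atTop (𝓝 0) := by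
    simpa [φ] using (near_phi_diff hμc hbL (Pattern.Signed.near_mono (le_max_left _ _) hX)
      (Pattern.Signed.near_mono (le_max_right _ _) (hlam.near hμc)) hβ hν hφ).add hS
  have hmin : 0 < min ε 1 := lt_min hε one_pos
  refine squeeze_zero' (Eventually.of_forall fun N => measureReal_nonneg) ?_
    (by simpa using h1.div_const (min ε 1))
  filter_upwards [eventually_gt_atTop 0] with N hN
  have := (hν N).1
  rw [le_div_iff₀ hmin, mul_comm]
  refine le_trans ?_ (mul_meas_ge_le_integral_of_nonneg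
    (.of_forall fun U => le_min (abs_nonneg _) zero_le_one)
    (integrable_of_continuous (hν N) hN hβ (lam N) hφ) (min ε 1))
  exact mul_le_mul_of_nonneg_left
    (measureReal_mono fun U (hU : ε ≤ |pressure β (lam N) U - (p + β * c0 / 2)|) => min_le_min hU le_rfl)
    hmin.le

/-! ### one species -/

lemma sFw_const {N : ℕ} (M : ℕ) (b : ℝ) :
    sFw (fun _ : Fin M => b) (w0 (Fin N)) (fun _ => unif (Fin N)) =
      ∫ g, Real.log (∑ σ, Vale.Agent.P157.Lim.wt N σ * Vale.Agent.P157.Par.ham (qf b) g σ)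
        ∂Vale.Agent.P157.Par.pats N M := by
  have e : ∀ g : Fin M → Fin N → ℝ, sLw (fun _ : Fin M => b) (w0 (Fin N)) (fun _ => unif (Fin N)) g =
      Real.log (∑ σ, Vale.Agent.P157.Lim.wt N σ * Vale.Agent.P157.Par.ham (qf b) g σ) := fun g => by
    refine congrArg Real.log (Finset.sum_congr rfl fun σ _ => ?_)
    congr 1
    · simp [w0, Vale.Agent.P157.Lim.wt]
    · refine congrArg Real.exp (Finset.sum_congr rfl fun k _ => ?_)
      have hX : Pattern.X (unif (Fin N)) (g k) σ =
          Vale.Agent.P150.dot (Vale.Agent.P157.Lim.xv N σ) (g k) := by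
        simp only [Pattern.X, Pattern.lin, Vale.Agent.P150.dot]
        refine Finset.sum_congr rfl fun i _ => ?_
        simp only [Pattern.co, unif, Fintype.card_fin, Vale.Agent.P157.Lim.xv, Real.sqrt_inv,
          Pattern.sg, Vale.Agent.P157.Lim.sgn]
        ring
      rw [hX, qf]
      ring
  simp only [sFw, e]
  rfl

lemma fC_one (b α : ℝ) {N : ℕ} :
    fC (fun _ : Fin 1 => b) N (Ks (fun _ : Fin 1 => α) N) / N =
      Vale.Agent.P157.pressure (Vale.Agent.P157.isingUniform N) (qf b) ⌊α * (N:ℝ)⌋₊ := by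
  rw [pressure_eq_pats (continuous_qf b)]
  congr 1
  show sFw (fun _ : Fin (∑ j : Fin 1, Ks (fun _ : Fin 1 => α) N j) => b) _ _ = _
  rw [sFw_const, show (∑ j : Fin 1, Ks (fun _ : Fin 1 => α) N j) = ⌊α * (N:ℝ)⌋₊ by simp [Ks]]

/-- **one species**: the free Poisson law with rate `α` and jump `t`, shifted so that the first
moment is `γ`, and the limit of the pressure on it -/
theorem single_haar (γ t : ℝ) {α : ℝ} (hα : 0 < α) :
    ∃ μ : Measure ℝ, IsProbabilityMeasure μ ∧ IsCompact μ.support ∧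
      (∀ᶠ w : ℝ in atTop, 0 < ∫ x, 1 / (w - x) ∂μ ∧
        w = 1 / (∫ x, 1 / (w - x) ∂μ) +
          (γ + α * t ^ 2 * (∫ x, 1 / (w - x) ∂μ) / (1 - t * ∫ x, 1 / (w - x) ∂μ))) ∧
      (∃ lam, Admissible μ lam) ∧
      ∀ β : ℝ, 0 ≤ β → |β * t| ≤ 1 / 10 → ∀ p : ℝ,
        Tendsto (fun N : ℕ => Vale.Agent.P157.pressure (Vale.Agent.P157.isingUniform N) (qf (β * t))
          ⌊α * (N:ℝ)⌋₊) atTop (𝓝 p) →
        ∀ lam : ∀ N : ℕ, Fin N → ℝ, Admissible μ lam →
        ∀ ν : ∀ N : ℕ, Measure (Mat N), (∀ N, IsHaarOrthogonal (ν N)) → ∀ ε : ℝ, 0 < ε →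
          Tendsto (fun N : ℕ => (ν N).real {U | ε ≤ |pressure β (lam N) U - (p + β * (γ - α * t) / 2)|})
            atTop (𝓝 0) := by
  obtain ⟨μ, hμ, hμc, heq, hadm, hlim⟩ := species_haar (a := fun _ : Fin 1 => t) (α := fun _ => α)
    one_pos (fun _ => hα) (γ - α * t)
  refine ⟨μ, hμ, hμc, ?_, hadm, fun β hβ hb p hp => hlim β hβ (fun _ => hb) p (hp.congr' ?_)⟩
  · -- the shift makes the first moment equal to γ
    obtain ⟨M, hM⟩ := eventually_atTop.1 heq
    have := hμ
    have hb : ∀ᶠ w : ℝ in atTop, t * cauchy μ w < 1 := by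
      obtain ⟨B, hB⟩ := hμc.bddAbove
      have hL : Law μ (sInf μ.support) (sSup μ.support) :=
        ⟨hμ, Filter.Eventually.mono Measure.support_mem_ae fun x hx =>
          ⟨csInf_le hμc.bddBelow hx, le_csSup hμc.bddAbove hx⟩⟩
      filter_upwards [eventually_ge_atTop (max M (sSup μ.support + |t| + 1))] with w hw
      have hw' : sSup μ.support + |t| + 1 ≤ w := le_trans (le_max_right _ _) hw
      have hw1 : sSup μ.support < w := by linarith [abs_nonneg t]
      calc t * cauchy μ w ≤ |t| * cauchy μ w :=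
            mul_le_mul_of_nonneg_right (le_abs_self t) (hM w (le_trans (le_max_left _ _) hw)).1.le
        _ ≤ |t| * (1 / (w - sSup μ.support)) :=
            mul_le_mul_of_nonneg_left (Pattern.Multi.cauchy_bounds hL hw1).2 (abs_nonneg t)
        _ < 1 := by rw [mul_one_div, div_lt_one (by linarith)]; linarith [abs_nonneg t]
    filter_upwards [heq, hb] with w hw hwb
    refine ⟨hw.1, hw.2.trans ?_⟩
    show _ = 1 / cauchy μ w + (γ + α * t ^ 2 * cauchy μ w / (1 - t * cauchy μ w))
    simp only [Ra, Finset.univ_unique, Finset.sum_singleton]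
    rw [show 1 - cauchy μ w * t = 1 - t * cauchy μ w by ring]
    have hd : 1 - t * cauchy μ w ≠ 0 := (sub_pos.2 hwb).ne'
    generalize hD : 1 - t * cauchy μ w = D at hd ⊢
    congr 1
    field_simp
    rw [← hD]
    ring
  · refine .of_forall fun N => ?_
    exact (fC_one (β * t) α).symm

end Vale.Agent.P166.Par
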