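import Vale.Agent.P157.Par.Basics
import Vale.Agent.P166.Pattern.Gauss

/-! A smooth cut of the quadratic potential `c u²/2`, and its stability in a flat structure and in
the pressure. -/

open MeasureTheory ProbabilityTheory Real Finset
open Vale.Agent.P150 (gauss dot)
open Vale.Agent.P157 (pressure isingUniform patterns partition)
open Vale.Agent.P157.Par (Sm ham pats ins)

namespace Vale.Agent.P166.Par

/-! ### shapes -/

/-- derivative of a power of the positive part -/
lemma hasDerivAt_pp (n : ℕ) (y : ℝ) :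
    HasDerivAt (fun y : ℝ => max y 0 ^ (n + 2)) ((n + 2 : ℕ) * max y 0 ^ (n + 1)) y := by
  rcases lt_trichotomy y 0 with h | h | h
  · rw [max_eq_right h.le, zero_pow n.succ_ne_zero, mul_zero]
    refine (hasDerivAt_const y (0:ℝ)).congr_of_eventuallyEq ?_
    filter_upwards [Iio_mem_nhds h] with z hz
    rw [max_eq_right (le_of_lt hz), zero_pow (by omega)]
  · subst h
    rw [max_self, zero_pow n.succ_ne_zero, mul_zero, hasDerivAt_iff_isLittleO]
    simp only [max_self, zero_pow (show n + 2 ≠ 0 by omega), sub_zero, smul_zero]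
    refine Asymptotics.IsLittleO.of_bound fun c hc => ?_
    filter_upwards [Metric.ball_mem_nhds (0:ℝ) (lt_min hc one_pos)] with z hz
    rw [Metric.mem_ball, Real.dist_eq, sub_zero, lt_min_iff] at hz
    rw [Real.norm_eq_abs, Real.norm_eq_abs, abs_of_nonneg (by positivity)]
    have h1 : max z 0 ≤ |z| := max_le (le_abs_self z) (abs_nonneg z)
    calc max z 0 ^ (n + 2) ≤ |z| ^ (n + 2) := pow_le_pow_left₀ (le_max_right _ _) h1 _
      _ ≤ |z| ^ 2 := pow_le_pow_of_le_one (abs_nonneg z) hz.2.le (by omega)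
      _ ≤ c * |z| := by rw [sq]; exact mul_le_mul_of_nonneg_right hz.1.le (abs_nonneg z)
  · rw [max_eq_left h.le]
    refine ((hasDerivAt_pow (n + 2) y).congr_deriv (by simp)).congr_of_eventuallyEq ?_
    filter_upwards [Ioi_mem_nhds h] with z hz
    rw [max_eq_left (le_of_lt hz)]

/-- `(1 - t₊³)₊` -/
noncomputable def ka (t : ℝ) : ℝ := max (1 - max t 0 ^ 3) 0

/-- a `C²` step from `1` to `0` -/
noncomputable def kk (t : ℝ) : ℝ := ka t ^ 4

/-- derivative of `kk` -/
noncomputable def kk1 (t : ℝ) : ℝ := -(12 * (ka t ^ 3 * max t 0 ^ 2))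

/-- second derivative of `kk` -/
noncomputable def kk2 (t : ℝ) : ℝ := 108 * (ka t ^ 2 * max t 0 ^ 4) - 24 * (ka t ^ 3 * max t 0)

lemma hasDerivAt_ka_pow (n : ℕ) (t : ℝ) :
    HasDerivAt (fun t => ka t ^ (n + 2))
      (-((n + 2 : ℕ) * ka t ^ (n + 1) * (3 * max t 0 ^ 2))) t := by
  have h := (hasDerivAt_pp n (1 - max t 0 ^ 3)).comp t ((hasDerivAt_pp 1 t).const_sub 1)
  exact h.congr_deriv (by simp only [ka]; push_cast; ring)

lemma hasDerivAt_kk (t : ℝ) : HasDerivAt kk (kk1 t) t :=
  (hasDerivAt_ka_pow 2 t).congr_deriv (by simp only [kk1]; push_cast; ring)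

lemma hasDerivAt_kk1 (t : ℝ) : HasDerivAt kk1 (kk2 t) t :=
  ((((hasDerivAt_ka_pow 1 t).fun_mul (hasDerivAt_pp 0 t)).const_mul (12:ℝ)).fun_neg).congr_deriv
    (by simp only [kk2]; push_cast; ring)

lemma continuous_ka : Continuous ka := by unfold ka; fun_prop
lemma continuous_kk : Continuous kk := continuous_ka.pow 4
lemma continuous_kk2 : Continuous kk2 := by
  have := continuous_ka
  unfold kk2; fun_prop

lemma ka_nonneg (t : ℝ) : 0 ≤ ka t := le_max_right _ _

lemma ka_le_one (t : ℝ) : ka t ≤ 1 :=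
  max_le (by linarith [pow_nonneg (le_max_right t 0) 3]) zero_le_one

lemma kk_mem (t : ℝ) : 0 ≤ kk t ∧ kk t ≤ 1 :=
  ⟨pow_nonneg (ka_nonneg t) 4, pow_le_one₀ (ka_nonneg t) (ka_le_one t)⟩

lemma kk_eq_one {t : ℝ} (h : t ≤ 0) : kk t = 1 := by simp [kk, ka, max_eq_right h]

lemma ka_eq_zero {t : ℝ} (h : 1 ≤ t) : ka t = 0 := by
  rw [ka, max_eq_left (show (0:ℝ) ≤ t by linarith), max_eq_right]
  linarith [one_le_pow₀ h (n := 3)]

lemma kk_eq_zero {t : ℝ} (h : 1 ≤ t) : kk t = 0 := by simp [kk, ka_eq_zero h]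

lemma kk12_bound (t : ℝ) : |kk1 t| ≤ 12 ∧ |kk2 t| ≤ 132 := by
  rcases le_or_gt 1 t with h | h
  · simp [kk1, kk2, ka_eq_zero h]
  have a0 := ka_nonneg t
  have a1 := ka_le_one t
  have m0 : (0:ℝ) ≤ max t 0 := le_max_right _ _
  have m1 : max t 0 ≤ 1 := max_le h.le zero_le_one
  have p : ∀ i j : ℕ, 0 ≤ ka t ^ i * max t 0 ^ j ∧ ka t ^ i * max t 0 ^ j ≤ 1 := fun i j =>
    ⟨by positivity, mul_le_one₀ (pow_le_one₀ a0 a1) (by positivity) (pow_le_one₀ m0 m1)⟩
  have p1 := p 3 1
  rw [pow_one] at p1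
  simp only [kk1, kk2]
  constructor <;> rw [abs_le] <;> constructor <;>
    linarith [(p 3 2).1, (p 3 2).2, (p 2 4).1, (p 2 4).2, p1.1, p1.2]

/-- the saturation: `G v = v` for `v ≤ 1`, constant from `2` on -/
noncomputable def sat (v : ℝ) : ℝ := ∫ x in (0:ℝ)..v, kk (x - 1)

lemma ii_kk (a b : ℝ) : IntervalIntegrable (fun x => kk (x - 1)) volume a b :=
  (continuous_kk.comp (continuous_id.sub continuous_const)).intervalIntegrable a b

lemma hasDerivAt_sat (v : ℝ) : HasDerivAt sat (kk (v - 1)) v := by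
  have hc : Continuous fun x : ℝ => kk (x - 1) := continuous_kk.comp (continuous_id.sub continuous_const)
  exact intervalIntegral.integral_hasDerivAt_right (ii_kk 0 v)
    hc.stronglyMeasurable.stronglyMeasurableAtFilter hc.continuousAt

lemma sat_of_le_one {v : ℝ} (h0 : 0 ≤ v) (h : v ≤ 1) : sat v = v := by
  rw [sat, intervalIntegral.integral_congr (g := fun _ => (1:ℝ)) fun x hx => ?_]
  · simp
  rw [Set.uIcc_of_le h0] at hx
  exact kk_eq_one (by linarith [hx.2])

lemma sat_mem {v : ℝ} (h : 0 ≤ v) : 0 ≤ sat v ∧ sat v ≤ v ∧ sat v ≤ 2 := by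
  have up : ∀ w : ℝ, 0 ≤ w → sat w ≤ w := fun w hw => by
    refine (intervalIntegral.integral_mono_on hw (ii_kk 0 w) intervalIntegrable_const
      fun x _ => (kk_mem _).2).trans (le_of_eq ?_)
    simp
  refine ⟨intervalIntegral.integral_nonneg h fun x _ => (kk_mem _).1, up v h, ?_⟩
  rcases le_or_gt v 2 with h2 | h2
  · linarith [up v h]
  rw [sat, ← intervalIntegral.integral_add_adjacent_intervals (ii_kk 0 2) (ii_kk 2 v),
    intervalIntegral.integral_congr (g := fun _ => (0:ℝ)) (a := (2:ℝ)) (b := v) fun x hx => ?_]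
  · simpa [sat] using up 2 zero_le_two
  rw [Set.uIcc_of_le h2.le] at hx
  exact kk_eq_zero (by linarith [hx.1])

/-! ### the cut -/

/-- the quadratic potential -/
noncomputable def qf (c : ℝ) (u : ℝ) : ℝ := c * u ^ 2 / 2

/-- the cut potential, equal to `qf c` on `[-L, L]` -/
noncomputable def fL (c L u : ℝ) : ℝ := c / 2 * L ^ 2 * sat (u ^ 2 / L ^ 2)

/-- first derivative -/
noncomputable def fL1 (c L u : ℝ) : ℝ := c * u * kk (u ^ 2 / L ^ 2 - 1)

/-- second derivative -/
noncomputable def fL2 (c L u : ℝ) : ℝ :=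
  c * (kk (u ^ 2 / L ^ 2 - 1) + 2 * u ^ 2 / L ^ 2 * kk1 (u ^ 2 / L ^ 2 - 1))

/-- third derivative -/
noncomputable def fL3 (c L u : ℝ) : ℝ :=
  c * (6 * u / L ^ 2 * kk1 (u ^ 2 / L ^ 2 - 1) + 4 * u ^ 3 / L ^ 4 * kk2 (u ^ 2 / L ^ 2 - 1))

/-- bound on the derivatives -/
noncomputable def cutD (c L : ℝ) : ℝ := |c| * (3 / 2 * L + 2000)

variable {c L : ℝ}

lemma hasDerivAt_arg (L u : ℝ) : HasDerivAt (fun u : ℝ => u ^ 2 / L ^ 2) (2 * u / L ^ 2) u :=
  ((hasDerivAt_pow 2 u).div_const _).congr_deriv (by simp)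

lemma continuous_qf (c : ℝ) : Continuous (qf c) := by unfold qf; fun_prop

lemma fL_eq (hL : 0 < L) {u : ℝ} (hu : |u| ≤ L) : fL c L u = qf c u := by
  rw [fL, qf, sat_of_le_one (by positivity) (by
    rw [div_le_one (by positivity)]; exact sq_le_sq' (abs_le.1 hu).1 (abs_le.1 hu).2)]
  field_simp

lemma fL_abs_le (hL : 0 < L) (u : ℝ) : |fL c L u| ≤ |qf c u| ∧ |fL c L u| ≤ |c| * L ^ 2 := by
  obtain ⟨h0, h1, h2⟩ := sat_mem (show 0 ≤ u ^ 2 / L ^ 2 by positivity)
  have e : |fL c L u| = |c| / 2 * L ^ 2 * sat (u ^ 2 / L ^ 2) := by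
    rw [fL, abs_mul, abs_mul, abs_div, abs_two, abs_of_nonneg (sq_nonneg L), abs_of_nonneg h0]
  rw [e]
  constructor
  · refine (mul_le_mul_of_nonneg_left h1 (by positivity)).trans (le_of_eq ?_)
    rw [qf, abs_div, abs_mul, abs_two, abs_of_nonneg (sq_nonneg u)]
    field_simp
  · refine (mul_le_mul_of_nonneg_left h2 (by positivity)).trans (le_of_eq ?_)
    ring

lemma fL_le (hL : 0 < L) (u : ℝ) : fL c L u ≤ |c| * L ^ 2 :=
  (le_abs_self _).trans (fL_abs_le hL u).2

lemma fL_sign (hL : 0 < L) (u : ℝ) :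
    (0 ≤ c → 0 ≤ fL c L u ∧ fL c L u ≤ qf c u) ∧ (c ≤ 0 → fL c L u ≤ 0 ∧ qf c u ≤ fL c L u) := by
  obtain ⟨h0, h1, -⟩ := sat_mem (show 0 ≤ u ^ 2 / L ^ 2 by positivity)
  have e : qf c u = c / 2 * L ^ 2 * (u ^ 2 / L ^ 2) := by rw [qf]; field_simp
  rw [fL, e]
  refine ⟨fun hc => ⟨by positivity, mul_le_mul_of_nonneg_left h1 (by positivity)⟩, fun hc => ?_⟩
  have hn : c / 2 * L ^ 2 ≤ 0 := mul_nonpos_of_nonpos_of_nonneg (by linarith) (sq_nonneg L)
  exact ⟨mul_nonpos_of_nonpos_of_nonneg hn h0, mul_le_mul_of_nonpos_left h1 hn⟩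

theorem cut_sm (c : ℝ) (hL : 1 ≤ L) :
    Sm (fL c L) (fL1 c L) (fL2 c L) (fL3 c L) (|c| * L ^ 2) (cutD c L) := by
  have hL0 : 0 < L := by linarith
  have hL2 : L ≠ 0 := hL0.ne'
  have key : ∀ u : ℝ, (|u / L| ≤ 3 / 2) ∨ (kk (u ^ 2 / L ^ 2 - 1) = 0 ∧
      kk1 (u ^ 2 / L ^ 2 - 1) = 0 ∧ kk2 (u ^ 2 / L ^ 2 - 1) = 0) := fun u => by
    rcases le_or_gt 1 (u ^ 2 / L ^ 2 - 1) with h | h
    · right
      simp [kk1, kk2, ka_eq_zero h, kk_eq_zero h]
    · left
      rw [← div_pow] at h
      exact abs_le_of_sq_le_sq (by nlinarith) (by norm_num)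
  have hc : 0 ≤ |c| := abs_nonneg c
  refine ⟨fun u => ?_, fun u => ?_, fun u => ?_, ?_, fun u => ?_, fun u => ?_, fun u => ?_, fun u => ?_⟩
  · exact (((hasDerivAt_sat _).comp u (hasDerivAt_arg L u)).const_mul (c / 2 * L ^ 2)).congr_deriv
      (by simp only [fL1]; field_simp)
  · exact (((hasDerivAt_id u).const_mul c).fun_mul
      ((hasDerivAt_kk _).comp u ((hasDerivAt_arg L u).sub_const 1))).congr_deriv
      (by simp only [fL2, Function.comp, id]; ring)
  · exact ((((hasDerivAt_kk _).comp u ((hasDerivAt_arg L u).sub_const 1)).fun_add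
      ((((hasDerivAt_pow 2 u).const_mul 2).div_const (L ^ 2)).fun_mul
        ((hasDerivAt_kk1 _).comp u ((hasDerivAt_arg L u).sub_const 1)))).const_mul c).congr_deriv
      (by simp only [fL3, Function.comp]; field_simp; ring)
  · have := continuous_kk2
    have h1 : Continuous kk1 := continuous_iff_continuousAt.2 fun x => (hasDerivAt_kk1 x).continuousAt
    unfold fL3
    fun_prop
  · linarith [(abs_le.1 (fL_abs_le (c := c) hL0 u).2).1]
  · have hk := kk_mem (u ^ 2 / L ^ 2 - 1)
    rw [fL1, mul_assoc, abs_mul, cutD]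
    refine mul_le_mul_of_nonneg_left ?_ hc
    rcases key u with h | ⟨h, -, -⟩
    · rw [abs_div, abs_of_pos hL0, div_le_iff₀ hL0] at h
      rw [abs_mul, abs_of_nonneg hk.1]
      linarith [mul_le_of_le_one_right (abs_nonneg u) hk.2]
    · rw [h, mul_zero, abs_zero]; linarith
  · have hk := kk_mem (u ^ 2 / L ^ 2 - 1)
    have hb := kk12_bound (u ^ 2 / L ^ 2 - 1)
    rw [fL2, abs_mul, cutD]
    refine mul_le_mul_of_nonneg_left ((abs_add_le _ _).trans ?_) hc
    rw [abs_of_nonneg hk.1, show 2 * u ^ 2 / L ^ 2 = 2 * |u / L| ^ 2 by rw [sq_abs, div_pow]; ring]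
    rcases key u with h | ⟨h, h', -⟩
    · rw [abs_mul, abs_of_nonneg (show (0:ℝ) ≤ 2 * |u / L| ^ 2 by positivity)]
      have h3 := mul_le_mul (pow_le_pow_left₀ (abs_nonneg _) h 2) hb.1 (abs_nonneg _) (by norm_num)
      linarith [hk.2]
    · rw [h, h', mul_zero, abs_zero]; linarith
  · have hb := kk12_bound (u ^ 2 / L ^ 2 - 1)
    rw [fL3, abs_mul, cutD]
    refine mul_le_mul_of_nonneg_left ((abs_add_le _ _).trans ?_) hc
    rw [show 6 * u / L ^ 2 = 6 * (u / L) * L⁻¹ by field_simp,
      show 4 * u ^ 3 / L ^ 4 = 4 * (u / L) ^ 3 * L⁻¹ by field_simp]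
    simp only [abs_mul, abs_pow, abs_inv, abs_of_pos hL0]
    rcases key u with h | ⟨-, h', h''⟩
    · have i1 : L⁻¹ ≤ 1 := inv_le_one_of_one_le₀ hL
      have h6 : |(6:ℝ)| = 6 := by norm_num
      have h4 : |(4:ℝ)| = 4 := by norm_num
      rw [h6, h4]
      have t1 : 6 * |u / L| * L⁻¹ * |kk1 (u ^ 2 / L ^ 2 - 1)| ≤ 6 * (3 / 2) * 1 * 12 := by
        gcongr
        exact hb.1
      have t2 : 4 * |u / L| ^ 3 * L⁻¹ * |kk2 (u ^ 2 / L ^ 2 - 1)| ≤ 4 * (3 / 2) ^ 3 * 1 * 132 := by
        gcongr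
        exact hb.2
      linarith
    · rw [h', h'', abs_zero, mul_zero, mul_zero]; linarith

/-! ### stability in a flat structure -/

/-- the error of the cut -/
noncomputable def cutErr (L : ℝ) : ℝ := 4 * exp (-(2 / 5) * L ^ 2)

/-- pointwise stability -/
lemma abs_log_cut_le {S : Type*} [Fintype S] [Nonempty S] (hc : |c| ≤ 1 / 10) (hL : 0 < L)
    {w : S → ℝ} (hw : ∀ s, 0 < w s) (hw1 : ∑ s, w s = 1) (u : S → ℝ) :
    |log (∑ s, w s * exp (qf c (u s))) - log (∑ s, w s * exp (fL c L (u s)))| ≤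
      exp (-(2 / 5) * L ^ 2) * ∑ s, w s * exp (9 / 20 * u s ^ 2) := by
  set A := ∑ s, w s * exp (qf c (u s))
  set B := ∑ s, w s * exp (fL c L (u s))
  set θ : ℝ := exp (-(2 / 5) * L ^ 2)
  have hA : 0 < A := sum_pos (fun s _ => mul_pos (hw s) (exp_pos _)) univ_nonempty
  have hB : 0 < B := sum_pos (fun s _ => mul_pos (hw s) (exp_pos _)) univ_nonempty
  have hq : ∀ x, |qf c x| ≤ x ^ 2 / 20 := fun x => by
    rw [qf, abs_div, abs_mul, abs_two, abs_of_nonneg (sq_nonneg x)]
    nlinarith [mul_le_mul_of_nonneg_right hc (sq_nonneg x)]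
  have hout : ∀ x, ¬|x| ≤ L → 1 ≤ θ * exp (2 / 5 * x ^ 2) := fun x hx => by
    rw [← exp_add]
    refine one_le_exp ?_
    have : L ^ 2 ≤ x ^ 2 := by rw [← sq_abs x]; exact pow_le_pow_left₀ hL.le (lt_of_not_ge hx).le 2
    linarith
  rcases le_total 0 c with h | h
  · have hs := fun x => (fL_sign (L := L) hL x).1 h
    have hle : B ≤ A := sum_le_sum fun s _ => mul_le_mul_of_nonneg_left (exp_le_exp.2 (hs _).2) (hw s).le
    have hB1 : 1 ≤ B := by
      calc (1:ℝ) = ∑ s, w s * 1 := by simp [hw1]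
        _ ≤ B := sum_le_sum fun s _ => mul_le_mul_of_nonneg_left (one_le_exp (hs _).1) (hw s).le
    rw [abs_of_nonneg (sub_nonneg.2 (log_le_log hB hle)), ← log_div hA.ne' hB.ne']
    calc log (A / B) ≤ A / B - 1 := log_le_sub_one_of_pos (by positivity)
      _ = (A - B) / B := by rw [sub_div, div_self hB.ne']
      _ ≤ A - B := div_le_self (sub_nonneg.2 hle) hB1
      _ = ∑ s, w s * (exp (qf c (u s)) - exp (fL c L (u s))) := by
          simp only [A, B, mul_sub, sum_sub_distrib]
      _ ≤ θ * ∑ s, w s * exp (9 / 20 * u s ^ 2) := by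
          rw [mul_sum]
          refine sum_le_sum fun s _ => ?_
          rw [mul_left_comm]
          refine mul_le_mul_of_nonneg_left ?_ (hw s).le
          by_cases hu : |u s| ≤ L
          · rw [fL_eq hL hu, sub_self]; positivity
          calc exp (qf c (u s)) - exp (fL c L (u s)) ≤ 1 * exp (1 / 20 * u s ^ 2) := by
                have := exp_le_exp.2 ((le_abs_self (qf c (u s))).trans ((hq (u s)).trans
                  (le_of_eq (show u s ^ 2 / 20 = 1 / 20 * u s ^ 2 by ring))))
                linarith [exp_pos (fL c L (u s))]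
            _ ≤ θ * exp (2 / 5 * u s ^ 2) * exp (1 / 20 * u s ^ 2) :=
                mul_le_mul_of_nonneg_right (hout _ hu) (exp_pos _).le
            _ = _ := by rw [mul_assoc, ← exp_add]; ring_nf
  · have hs := fun x => (fL_sign (L := L) hL x).2 h
    have hle : A ≤ B := sum_le_sum fun s _ => mul_le_mul_of_nonneg_left (exp_le_exp.2 (hs _).2) (hw s).le
    have hinv : A⁻¹ ≤ ∑ s, w s * exp (1 / 20 * u s ^ 2) := by
      have j : ∀ p : S → ℝ, exp (∑ s, w s * p s) ≤ ∑ s, w s * exp (p s) := fun p => by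
        simpa using convexOn_exp.map_sum_le (t := univ) (w := w) (p := p) (fun s _ => (hw s).le) hw1
          (fun s _ => Set.mem_univ _)
      calc A⁻¹ ≤ (exp (∑ s, w s * qf c (u s)))⁻¹ := by gcongr; exact j _
        _ = exp (∑ s, w s * -qf c (u s)) := by
            rw [← exp_neg]; congr 1; rw [← sum_neg_distrib]
            exact sum_congr rfl fun s _ => by ring
        _ ≤ ∑ s, w s * exp (-qf c (u s)) := j _
        _ ≤ _ := by
            refine sum_le_sum fun s _ => mul_le_mul_of_nonneg_left (exp_le_exp.2 ?_) (hw s).le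
            linarith [neg_abs_le (qf c (u s)), hq (u s)]
    rw [abs_sub_comm, abs_of_nonneg (sub_nonneg.2 (log_le_log hA hle)), ← log_div hB.ne' hA.ne']
    calc log (B / A) ≤ B / A - 1 := log_le_sub_one_of_pos (by positivity)
      _ = (B - A) * A⁻¹ := by rw [sub_mul, mul_inv_cancel₀ hA.ne', div_eq_mul_inv]
      _ ≤ (∑ s, w s * (θ * exp (2 / 5 * u s ^ 2))) * ∑ s, w s * exp (1 / 20 * u s ^ 2) := by
          refine mul_le_mul ?_ hinv (inv_nonneg.2 hA.le) (sum_nonneg fun s _ => ?_)
          · simp only [A, B, ← sum_sub_distrib, ← mul_sub]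
            refine sum_le_sum fun s _ => mul_le_mul_of_nonneg_left ?_ (hw s).le
            by_cases hu : |u s| ≤ L
            · rw [fL_eq hL hu, sub_self]; positivity
            · have h1 : exp (fL c L (u s)) ≤ 1 := exp_le_one_iff.2 (hs _).1
              linarith [exp_pos (qf c (u s)), hout _ hu]
          · have := hw s; positivity
      _ ≤ ∑ s, ∑ r, w s * w r * (θ * (8 / 9 * exp (9 / 20 * u s ^ 2) + 1 / 9 * exp (9 / 20 * u r ^ 2))) := by
          rw [sum_mul_sum]
          refine sum_le_sum fun s _ => sum_le_sum fun r _ => ?_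
          have h1 := convexOn_exp.2 (Set.mem_univ (9 / 20 * u s ^ 2)) (Set.mem_univ (9 / 20 * u r ^ 2))
            (show (0:ℝ) ≤ 8 / 9 by norm_num) (show (0:ℝ) ≤ 1 / 9 by norm_num) (by norm_num)
          simp only [smul_eq_mul] at h1
          rw [show 8 / 9 * (9 / 20 * u s ^ 2) + 1 / 9 * (9 / 20 * u r ^ 2) =
            2 / 5 * u s ^ 2 + 1 / 20 * u r ^ 2 by ring, exp_add] at h1
          refine le_trans (le_of_eq ?_) (mul_le_mul_of_nonneg_left
            (mul_le_mul_of_nonneg_left h1 (exp_pos _).le) (mul_nonneg (hw s).le (hw r).le))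
          ring
      _ = θ * ∑ s, w s * exp (9 / 20 * u s ^ 2) := by
          have e1 : ∑ s, ∑ r, w s * w r * (θ * (8 / 9 * exp (9 / 20 * u s ^ 2) + 1 / 9 * exp (9 / 20 * u r ^ 2))) =
              8 / 9 * θ * ((∑ s, w s * exp (9 / 20 * u s ^ 2)) * ∑ r, w r) +
              1 / 9 * θ * ((∑ s, w s) * ∑ r, w r * exp (9 / 20 * u r ^ 2)) := by
            rw [sum_mul_sum, sum_mul_sum]
            simp only [mul_sum, ← sum_add_distrib]
            exact sum_congr rfl fun s _ => sum_congr rfl fun r _ => by ring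
          rw [e1, hw1]; ring

lemma abs_log_le {S : Type*} [Fintype S] [Nonempty S] {w : S → ℝ} (hw : ∀ s, 0 < w s) (p : S → ℝ) :
    |log (∑ s, w s * exp (p s))| ≤ |log (∑ s, w s)| + ∑ s, |p s| := by
  set M := ∑ s, |p s|
  have hM : ∀ s, |p s| ≤ M := fun s =>
    single_le_sum (f := fun s => |p s|) (fun _ _ => abs_nonneg _) (mem_univ s)
  have hW : 0 < ∑ s, w s := sum_pos (fun s _ => hw s) univ_nonempty
  have hZ : 0 < ∑ s, w s * exp (p s) := sum_pos (fun s _ => mul_pos (hw s) (exp_pos _)) univ_nonempty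
  have up : log (∑ s, w s * exp (p s)) ≤ log (∑ s, w s) + M := by
    rw [← log_exp M, ← log_mul hW.ne' (exp_pos M).ne', sum_mul]
    exact log_le_log hZ (sum_le_sum fun s _ =>
      mul_le_mul_of_nonneg_left (exp_le_exp.2 ((le_abs_self _).trans (hM s))) (hw s).le)
  have lo : log (∑ s, w s) + -M ≤ log (∑ s, w s * exp (p s)) := by
    rw [← log_exp (-M), ← log_mul hW.ne' (exp_pos (-M)).ne', sum_mul]
    exact log_le_log (sum_pos (fun s _ => mul_pos (hw s) (exp_pos _)) univ_nonempty)
      (sum_le_sum fun s _ => mul_le_mul_of_nonneg_left (exp_le_exp.2 (abs_le.1 (hM s)).1) (hw s).le)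
  rw [abs_le]
  constructor
  · linarith [neg_abs_le (log (∑ s, w s))]
  · linarith [le_abs_self (log (∑ s, w s))]

variable {S ι : Type*} [Fintype S] [Fintype ι]

lemma unit_sq {v : ι → ℝ} (h : dot v v = 1) : ∑ i, v i ^ 2 = 1 := by
  rw [← h]; exact sum_congr rfl fun i _ => sq (v i)

/-- a function of a standard field -/
lemma integrable_field {v : ι → ℝ} (h : dot v v = 1) {F : ℝ → ℝ} (hF : Integrable F (gaussianReal 0 1)) :
    Integrable (fun g => F (dot v g)) (gauss ι) :=
  Pattern.integrable_linear v (unit_sq h) hF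

lemma exp_field {v : ι → ℝ} (h : dot v v = 1) :
    Integrable (fun g => exp (9 / 20 * dot v g ^ 2)) (gauss ι) ∧
      ∫ g, exp (9 / 20 * dot v g ^ 2) ∂gauss ι ≤ 4 := by
  obtain ⟨hi, hv⟩ := Vale.Agent.P150.integral_exp_mul_sq (s := 9 / 20) (by norm_num)
  refine ⟨integrable_field h hi, le_of_eq_of_le
    ((Pattern.integral_linear v (unit_sq h) (F := fun t => exp (9 / 20 * t ^ 2)) (by fun_prop)).trans hv) ?_⟩
  rw [inv_le_comm₀ (sqrt_pos.2 (by norm_num)) (by norm_num), le_sqrt (by norm_num) (by norm_num)]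
  norm_num

lemma integrable_sq : Integrable (fun t : ℝ => t ^ 2) (gaussianReal 0 1) :=
  Pattern.integrable_poly1 (by fun_prop) ⟨1, 2, fun x => by
    rw [one_mul, abs_pow, Real.norm_eq_abs]
    exact pow_le_pow_left₀ (abs_nonneg x) (by linarith) 2⟩

/-- **Flat stability of the cut** -/
theorem flat_stab [Nonempty S] (hc : |c| ≤ 1 / 10) (hL : 0 < L) {w : S → ℝ} (hw : ∀ s, 0 < w s)
    {a : S → ι → ℝ} (ha : ∀ s, dot (a s) (a s) = 1) :
    |∫ g, log (∑ s, w s * exp (qf c (dot (a s) g))) ∂gauss ι -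
      ∫ g, log (∑ s, w s * exp (fL c L (dot (a s) g))) ∂gauss ι| ≤ cutErr L := by
  have hW : 0 < ∑ s, w s := sum_pos (fun s _ => hw s) univ_nonempty
  set v := fun s => w s / ∑ r, w r
  have hv : ∀ s, 0 < v s := fun s => div_pos (hw s) hW
  have hv1 : ∑ s, v s = 1 := by simp only [v, ← sum_div]; exact div_self hW.ne'
  have hd : ∀ s, Continuous fun g : ι → ℝ => dot (a s) g := fun s => by unfold dot; fun_prop
  have hcL : Continuous (fL c L) := by
    have : Continuous sat := continuous_iff_continuousAt.2 fun x => (hasDerivAt_sat x).continuousAt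
    unfold fL; fun_prop
  have hint : ∀ f : ℝ → ℝ, Continuous f → (∀ x, |f x| ≤ x ^ 2) →
      Integrable (fun g => log (∑ s, w s * exp (f (dot (a s) g)))) (gauss ι) := fun f hf hb => by
    refine ((integrable_const (|log (∑ s, w s)|)).add (integrable_finsetSum univ fun s _ =>
      integrable_field (ha s) integrable_sq)).mono' ?_ (.of_forall fun g => ?_)
    · exact (Continuous.log (by fun_prop) fun g =>
        (sum_pos (fun s _ => mul_pos (hw s) (exp_pos _)) univ_nonempty).ne').aestronglyMeasurable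
    · rw [Real.norm_eq_abs]
      exact (abs_log_le hw _).trans (add_le_add le_rfl (sum_le_sum fun s _ => hb _))
  have hq : ∀ x, |qf c x| ≤ x ^ 2 := fun x => by
    rw [qf, abs_div, abs_mul, abs_two, abs_of_nonneg (sq_nonneg x)]
    nlinarith [mul_le_mul_of_nonneg_right hc (sq_nonneg x), sq_nonneg x]
  have i1 := hint _ (continuous_qf c) hq
  have i2 := hint _ hcL fun x => (fL_abs_le hL x).1.trans (hq x)
  rw [← integral_sub i1 i2]
  refine abs_integral_le_integral_abs.trans ?_
  have i3 : Integrable (fun g => exp (-(2 / 5) * L ^ 2) * ∑ s, v s * exp (9 / 20 * dot (a s) g ^ 2))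
      (gauss ι) :=
    (integrable_finsetSum univ fun s _ => (exp_field (ha s)).1.const_mul (v s)).const_mul _
  refine (integral_mono (i1.sub i2).abs i3 fun g => ?_).trans ?_
  · have h := abs_log_cut_le hc hL hv hv1 (fun s => dot (a s) g)
    have e : ∀ p : S → ℝ, log (∑ s, w s * exp (p s)) = log (∑ s, w s) + log (∑ s, v s * exp (p s)) :=
      fun p => by
        rw [← log_mul hW.ne' (sum_pos (fun s _ => mul_pos (hv s) (exp_pos _)) univ_nonempty).ne', mul_sum]
        refine congrArg log (sum_congr rfl fun s _ => ?_)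
        simp only [v]; field_simp
    simp only [e, add_sub_add_left_eq_sub, Pi.sub_apply]
    exact h
  · rw [integral_const_mul, integral_finsetSum univ fun s _ => (exp_field (ha s)).1.const_mul (v s),
      cutErr, mul_comm 4]
    refine mul_le_mul_of_nonneg_left ?_ (exp_pos _).le
    simp only [integral_const_mul]
    calc ∑ s, v s * ∫ g, exp (9 / 20 * dot (a s) g ^ 2) ∂gauss ι ≤ ∑ s, v s * 4 :=
          sum_le_sum fun s _ => mul_le_mul_of_nonneg_left (exp_field (ha s)).2 (hv s).le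
      _ = 4 := by rw [← sum_mul, hv1, one_mul]

section fubini
variable {α β : Type*} [MeasurableSpace α] [MeasurableSpace β] {μ : Measure α} {ν : Measure β}
  [IsProbabilityMeasure μ] [IsProbabilityMeasure ν] {F G : α × β → ℝ} {C : ℝ}

lemma abs_integral_sub_le_right (hF : Integrable F (μ.prod ν)) (hG : Integrable G (μ.prod ν))
    (h : ∀ a, |∫ b, F (a, b) ∂ν - ∫ b, G (a, b) ∂ν| ≤ C) :
    |∫ p, F p ∂μ.prod ν - ∫ p, G p ∂μ.prod ν| ≤ C := by
  rw [integral_prod _ hF, integral_prod _ hG, ← integral_sub hF.integral_prod_left hG.integral_prod_left,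
    ← Real.norm_eq_abs]
  exact (norm_integral_le_of_norm_le_const (.of_forall fun a => (Real.norm_eq_abs _).trans_le (h a))).trans_eq
    (by simp)

lemma abs_integral_sub_le_left (hF : Integrable F (μ.prod ν)) (hG : Integrable G (μ.prod ν))
    (h : ∀ b, |∫ a, F (a, b) ∂μ - ∫ a, G (a, b) ∂μ| ≤ C) :
    |∫ p, F p ∂μ.prod ν - ∫ p, G p ∂μ.prod ν| ≤ C := by
  rw [integral_prod_symm _ hF, integral_prod_symm _ hG,
    ← integral_sub hF.integral_prod_right hG.integral_prod_right, ← Real.norm_eq_abs]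
  exact (norm_integral_le_of_norm_le_const (.of_forall fun a => (Real.norm_eq_abs _).trans_le (h a))).trans_eq
    (by simp)

end fubini

lemma continuous_fL (c L : ℝ) : Continuous (fL c L) := by
  have : Continuous sat := continuous_iff_continuousAt.2 fun x => (hasDerivAt_sat x).continuousAt
  unfold fL; fun_prop

lemma abs_qf_le (hc : |c| ≤ 1 / 10) (x : ℝ) : |qf c x| ≤ x ^ 2 := by
  rw [qf, abs_div, abs_mul, abs_two, abs_of_nonneg (sq_nonneg x)]
  nlinarith [mul_le_mul_of_nonneg_right hc (sq_nonneg x), sq_nonneg x]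

/-! ### stability of the pressure -/

variable {N M : ℕ}

/-- the pressure on the cube as a Gaussian integral -/
lemma pressure_eq_pats {f : ℝ → ℝ} (hf : Continuous f) (M : ℕ) :
    pressure (isingUniform N) f M =
      (∫ g, log (∑ σ, Vale.Agent.P157.Lim.wt N σ * ham f g σ) ∂pats N M) / N := by
  have hpart : ∀ g : Fin M → Fin N → ℝ,
      partition (isingUniform N) f (fun a => WithLp.toLp 2 (g a)) =
        ∑ σ, Vale.Agent.P157.Lim.wt N σ * ham f g σ := by
    intro g
    set ν : Measure Bool := (2 : ENNReal)⁻¹ • Measure.count with hν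
    have hmapν : ν.map Vale.Agent.P157.Lim.sgn =
        (2 : ENNReal)⁻¹ • (Measure.dirac (-1 : ℝ) + Measure.dirac 1) := by
      have : (Measure.count : Measure Bool) = Measure.dirac false + Measure.dirac true := by
        ext s hs
        rw [Measure.count, Measure.sum_apply _ hs, tsum_fintype, Fintype.sum_bool,
          Measure.add_apply, add_comm]
      rw [hν, this, Measure.map_smul, Measure.map_add _ _ (measurable_of_finite _),
        Measure.map_dirac' (measurable_of_finite _), Measure.map_dirac' (measurable_of_finite _)]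
      simp [Vale.Agent.P157.Lim.sgn]
    have hfin : IsFiniteMeasure ν := ⟨by simp [hν, ENNReal.mul_lt_top_iff]⟩
    have hiso : isingUniform N = (Measure.pi fun _ : Fin N => ν).map
        (fun σ => WithLp.toLp 2 (fun i => Vale.Agent.P157.Lim.sgn (σ i))) := by
      rw [isingUniform, ← hmapν, ← Measure.pi_map_pi (fun _ => (measurable_of_finite _).aemeasurable),
        Measure.map_map (by fun_prop) (measurable_of_finite _)]
      rfl
    rw [partition, hiso, integral_map (measurable_of_finite _).aemeasurable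
      (Continuous.aestronglyMeasurable (by fun_prop)), integral_fintype (Integrable.of_finite)]
    refine sum_congr rfl fun σ _ => ?_
    congr 1
    · simp [Vale.Agent.P157.Lim.wt, measureReal_def, Measure.pi_singleton, hν]
    · refine congrArg Real.exp (sum_congr rfl fun a _ => congrArg f ?_)
      simp only [PiLp.inner_apply, RCLike.inner_apply, conj_trivial, dot, Vale.Agent.P157.Lim.xv, sum_div]
      exact sum_congr rfl fun i _ => by ring
  have hpat : patterns N M = (Measure.pi fun _ : Fin M => gauss (Fin N)).map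
      (fun g a => WithLp.toLp 2 (g a)) := by
    rw [Measure.pi_map_pi (f := fun _ => WithLp.toLp 2) (fun _ => Measurable.aemeasurable (by fun_prop))]
    simp only [patterns, gauss, map_pi_eq_stdGaussian]
  have hsf : IsProbabilityMeasure (isingUniform N) := (Vale.Agent.P157.carried_ising N).prob
  have hme : Measurable fun g : Fin M → Vale.Agent.P157.Vec N => log (partition (isingUniform N) f g) :=
    measurable_log.comp (Vale.Agent.P157.measurable_partition hf.measurable)
  rw [pressure, hpat, integral_map (Measurable.aemeasurable (by fun_prop)) hme.aestronglyMeasurable,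
    one_div_mul_eq_div]
  simp only [hpart, pats]

/-- the log partition function with one pattern singled out -/
noncomputable def kf (W : (Fin N → Bool) → ℝ) (f f' : ℝ → ℝ)
    (p : (Fin N → ℝ) × (Fin M → Fin N → ℝ)) : ℝ :=
  log (∑ σ, W σ * exp (f (dot (Vale.Agent.P157.Lim.xv N σ) p.1)) * ham f' p.2 σ)

lemma dot_sq_unit [NeZero N] (σ : Fin N → Bool) :
    dot (Vale.Agent.P157.Lim.xv N σ) (Vale.Agent.P157.Lim.xv N σ) = 1 :=
  Vale.Agent.P157.Lim.dot_xv (NeZero.pos N) σ

lemma kf_pos {W : (Fin N → Bool) → ℝ} (hW : ∀ σ, 0 < W σ) (f f' : ℝ → ℝ)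
    (p : (Fin N → ℝ) × (Fin M → Fin N → ℝ)) :
    0 < ∑ σ, W σ * exp (f (dot (Vale.Agent.P157.Lim.xv N σ) p.1)) * ham f' p.2 σ :=
  sum_pos (fun σ _ => mul_pos (mul_pos (hW σ) (exp_pos _)) (exp_pos _)) univ_nonempty

lemma kf_integrable [NeZero N] {W : (Fin N → Bool) → ℝ} (hW : ∀ σ, 0 < W σ) {f f' : ℝ → ℝ}
    (hf : Continuous f) (hf' : Continuous f') (hb : ∀ t, |f t| ≤ t ^ 2) (hb' : ∀ t, |f' t| ≤ t ^ 2) :
    Integrable (kf (M := M) W f f') ((gauss (Fin N)).prod (pats N M)) := by
  have s1 : ∀ σ, Integrable (fun p : (Fin N → ℝ) × (Fin M → Fin N → ℝ) =>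
      dot (Vale.Agent.P157.Lim.xv N σ) p.1 ^ 2 + ∑ a, dot (Vale.Agent.P157.Lim.xv N σ) (p.2 a) ^ 2)
      ((gauss (Fin N)).prod (pats N M)) := fun σ =>
    ((integrable_field (dot_sq_unit σ) integrable_sq).comp_fst _).add
      (Integrable.comp_snd (integrable_finsetSum univ fun a _ =>
        (measurePreserving_eval _ a).integrable_comp_of_integrable
          (integrable_field (dot_sq_unit σ) integrable_sq)) _)
  refine ((integrable_const (|log (∑ σ, W σ)|)).add (integrable_finsetSum univ fun σ _ => s1 σ)).mono'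
    ?_ (.of_forall fun p => ?_)
  · refine (Continuous.log ?_ fun p => (kf_pos hW f f' p).ne').aestronglyMeasurable
    refine continuous_finsetSum _ fun σ _ => (continuous_const.mul
      (continuous_exp.comp (hf.comp ((Vale.Agent.P157.Par.continuous_dot_left _).comp continuous_fst)))).mul
      ((Vale.Agent.P157.Par.continuous_ham hf' σ).comp continuous_snd)
  · rw [Real.norm_eq_abs]
    simp only [kf, ham, mul_assoc, ← exp_add]
    refine (abs_log_le hW _).trans (add_le_add le_rfl (sum_le_sum fun σ _ => ?_))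
    exact (abs_add_le _ _).trans (add_le_add (hb _)
      ((abs_sum_le_sum_abs _ _).trans (sum_le_sum fun a _ => hb' _)))

lemma pats_split {W : (Fin N → Bool) → ℝ} {f : ℝ → ℝ} (hf : Continuous f) :
    ∫ g, log (∑ σ, W σ * ham f g σ) ∂pats N (M + 1) =
      ∫ p, kf W f f p ∂(gauss (Fin N)).prod (pats N M) := by
  have hmp := Vale.Agent.P157.Par.measurePreserving_ins (N := N) (M := M) 0
  have hm : Measurable fun g : Fin (M + 1) → Fin N → ℝ => log (∑ σ, W σ * ham f g σ) := by
    refine measurable_log.comp (Continuous.measurable (continuous_finsetSum _ fun σ _ => ?_))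
    exact continuous_const.mul (Vale.Agent.P157.Par.continuous_ham hf σ)
  rw [← hmp.map_eq, integral_map hmp.measurable.aemeasurable hm.aestronglyMeasurable]
  refine integral_congr_ae (.of_forall fun p => ?_)
  simp only [kf, Vale.Agent.P157.Par.ham_ins]
  exact congrArg log (sum_congr rfl fun σ _ => by ring)

/-- patterns with any weights -/
theorem pats_stab [NeZero N] (hc : |c| ≤ 1 / 10) (hL : 0 < L) :
    ∀ (M : ℕ) (W : (Fin N → Bool) → ℝ), (∀ σ, 0 < W σ) →
      |∫ g, log (∑ σ, W σ * ham (qf c) g σ) ∂pats N M -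
        ∫ g, log (∑ σ, W σ * ham (fL c L) g σ) ∂pats N M| ≤ M * cutErr L := by
  have hcL := continuous_fL c L
  have hq := abs_qf_le hc
  have hl : ∀ x, |fL c L x| ≤ x ^ 2 := fun x => (fL_abs_le hL x).1.trans (hq x)
  intro M
  induction M with
  | zero => intro W _; simp [ham]
  | succ M ih =>
    intro W hW
    rw [pats_split (continuous_qf c), pats_split hcL]
    have k1 := kf_integrable (M := M) hW (continuous_qf c) (continuous_qf c) hq hq
    have k2 := kf_integrable (M := M) hW (continuous_qf c) hcL hq hl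
    have k3 := kf_integrable (M := M) hW hcL hcL hl hl
    have a1 := abs_integral_sub_le_right k1 k2 (C := M * cutErr L) fun y => by
      have h := ih (fun σ => W σ * exp (qf c (dot (Vale.Agent.P157.Lim.xv N σ) y)))
        fun σ => mul_pos (hW σ) (exp_pos _)
      simpa only [kf] using h
    have a2 := abs_integral_sub_le_left k2 k3 (C := cutErr L) fun g => by
      have e : ∀ (f : ℝ → ℝ) (y : Fin N → ℝ), kf W f (fL c L) (y, g) =
          log (∑ σ, W σ * ham (fL c L) g σ * exp (f (dot (Vale.Agent.P157.Lim.xv N σ) y))) := fun f y => by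
        simp only [kf]
        exact congrArg log (sum_congr rfl fun σ _ => by ring)
      simp only [e]
      exact flat_stab hc hL (fun σ => mul_pos (hW σ) (exp_pos _)) dot_sq_unit
    refine (abs_sub_le _ (∫ p, kf W (qf c) (fL c L) p ∂(gauss (Fin N)).prod (pats N M)) _).trans ?_
    push_cast
    linarith

/-- **Stability of the pressure under the cut** -/
theorem pressure_stab [NeZero N] (hc : |c| ≤ 1 / 10) (hL : 0 < L) (M : ℕ) :
    |pressure (isingUniform N) (qf c) M - pressure (isingUniform N) (fL c L) M| ≤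
      (M : ℝ) / N * cutErr L := by
  have hcL := continuous_fL c L
  rw [pressure_eq_pats (continuous_qf c), pressure_eq_pats hcL, ← sub_div, abs_div, Nat.abs_cast,
    div_mul_eq_mul_div]
  exact div_le_div_of_nonneg_right
    (pats_stab hc hL M _ fun σ => by unfold Vale.Agent.P157.Lim.wt; positivity) (Nat.cast_nonneg N)

end Vale.Agent.P166.Par
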