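import Mathlib

/-! Functions on a finite orthant that are pointwise limits of positive mixtures of exponentials, and the
closure properties of their exponents (Bernstein functions). -/

open Filter Topology Finset

namespace Vale.Agent.P166.Par

variable {ι : Type} [Fintype ι]

/-- the closed orthant -/
abbrev Orth (ι : Type) := {y : ι → ℝ // ∀ i, 0 ≤ y i}

/-- finite positive mixtures of exponentials -/
def Sums (ι : Type) [Fintype ι] : Set (Orth ι → ℝ) :=
  {f | ∃ (J : Type) (_ : Fintype J) (c : J → ℝ) (a : J → ι → ℝ), (∀ j, 0 ≤ c j) ∧ (∀ j i, 0 < a j i) ∧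
    f = fun y => ∑ j, c j * Real.exp (-∑ i, a j i * y.1 i)}

/-- pointwise limits of mixtures of exponentials -/
def CM (ι : Type) [Fintype ι] : Set (Orth ι → ℝ) := closure (Sums ι)

lemma sums_add {f g : Orth ι → ℝ} (hf : f ∈ Sums ι) (hg : g ∈ Sums ι) :
    (fun y => f y + g y) ∈ Sums ι := by
  obtain ⟨J, _, c, a, hc, ha, rfl⟩ := hf
  obtain ⟨K, _, d, b, hd, hb, rfl⟩ := hg
  refine ⟨J ⊕ K, inferInstance, Sum.elim c d, Sum.elim a b, fun j => ?_, fun j => ?_, ?_⟩
  · cases j <;> simp [hc, hd]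
  · cases j <;> simp [ha, hb]
  · funext y; simp [Fintype.sum_sum_type]

lemma sums_mul {f g : Orth ι → ℝ} (hf : f ∈ Sums ι) (hg : g ∈ Sums ι) :
    (fun y => f y * g y) ∈ Sums ι := by
  obtain ⟨J, _, c, a, hc, ha, rfl⟩ := hf
  obtain ⟨K, _, d, b, hd, hb, rfl⟩ := hg
  refine ⟨J × K, inferInstance, fun j => c j.1 * d j.2, fun j i => a j.1 i + b j.2 i,
    fun j => mul_nonneg (hc _) (hd _), fun j i => add_pos (ha _ i) (hb _ i), ?_⟩
  funext y
  rw [Fintype.sum_prod_type, Finset.sum_mul_sum]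
  refine sum_congr rfl fun j _ => sum_congr rfl fun k _ => ?_
  simp only [add_mul, sum_add_distrib, neg_add, Real.exp_add]
  ring

lemma cm_add {f g : Orth ι → ℝ} (hf : f ∈ CM ι) (hg : g ∈ CM ι) : (fun y => f y + g y) ∈ CM ι :=
  map_mem_closure₂ (f := fun (f g : Orth ι → ℝ) => f + g) continuous_add hf hg
    fun _ ha _ hb => sums_add ha hb

lemma cm_mul {f g : Orth ι → ℝ} (hf : f ∈ CM ι) (hg : g ∈ CM ι) : (fun y => f y * g y) ∈ CM ι :=
  map_mem_closure₂ (f := fun (f g : Orth ι → ℝ) => f * g) continuous_mul hf hg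
    fun _ ha _ hb => sums_mul ha hb

lemma cm_lim {α : Type*} {l : Filter α} [l.NeBot] {F : α → Orth ι → ℝ} {f : Orth ι → ℝ}
    (hF : ∀ᶠ n in l, F n ∈ CM ι) (h : ∀ y, Tendsto (fun n => F n y) l (𝓝 (f y))) : f ∈ CM ι :=
  isClosed_closure.mem_of_tendsto (tendsto_pi_nhds.2 h) hF

/-- exponentials of linear forms with nonnegative coefficients -/
lemma cm_exp {c : ℝ} (hc : 0 ≤ c) {a : ι → ℝ} (ha : ∀ i, 0 ≤ a i) :
    (fun y : Orth ι => c * Real.exp (-∑ i, a i * y.1 i)) ∈ CM ι := by
  refine cm_lim (l := atTop) (F := fun (n : ℕ) y => c * Real.exp (-∑ i, (a i + 1 / (n + 1)) * y.1 i))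
    (Eventually.of_forall fun n => subset_closure ⟨Unit, inferInstance, fun _ => c,
      fun _ i => a i + 1 / (n + 1), fun _ => hc, fun _ i => add_pos_of_nonneg_of_pos (ha i) (by positivity),
      by funext y; simp⟩) fun y => ?_
  have h : Continuous fun t : ℝ => c * Real.exp (-∑ i, (a i + t) * y.1 i) := by fun_prop
  simpa [Function.comp_def] using (h.tendsto 0).comp (tendsto_one_div_add_atTop_nhds_zero_nat (𝕜 := ℝ))

lemma cm_const {c : ℝ} (hc : 0 ≤ c) : (fun _ : Orth ι => c) ∈ CM ι := by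
  simpa using cm_exp (ι := ι) hc (a := fun _ => 0) fun _ => le_rfl

lemma cm_sum {J : Type*} (s : Finset J) {F : J → Orth ι → ℝ} (h : ∀ j ∈ s, F j ∈ CM ι) :
    (fun y => ∑ j ∈ s, F j y) ∈ CM ι := by
  classical
  induction s using Finset.induction_on with
  | empty => simpa using cm_const (ι := ι) le_rfl
  | @insert j s hj ih =>
    simp only [sum_insert hj]
    exact cm_add (h j (mem_insert_self j s)) (ih fun i hi => h i (mem_insert_of_mem hi))

lemma cm_pow {f : Orth ι → ℝ} (hf : f ∈ CM ι) : ∀ n : ℕ, (fun y => f y ^ n) ∈ CM ι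
  | 0 => by simpa using cm_const (ι := ι) zero_le_one
  | n + 1 => by simp only [pow_succ]; exact cm_mul (cm_pow hf n) hf

lemma cm_series {f g : Orth ι → ℝ} (hf : f ∈ CM ι) {c : ℕ → ℝ} (hc : ∀ n, 0 ≤ c n)
    (h : ∀ y, HasSum (fun n => c n * f y ^ n) (g y)) : g ∈ CM ι :=
  cm_lim (l := atTop) (F := fun N y => ∑ n ∈ range N, c n * f y ^ n)
    (Eventually.of_forall fun _ => cm_sum _ fun n _ => cm_mul (cm_const (hc n)) (cm_pow hf n))
    fun y => (h y).tendsto_sum_nat

lemma cm_exp_comp {f : Orth ι → ℝ} (hf : f ∈ CM ι) {s : ℝ} (hs : 0 ≤ s) :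
    (fun y => Real.exp (s * f y)) ∈ CM ι := by
  refine cm_series hf (c := fun n => s ^ n / n.factorial) (fun n => by positivity) fun y => ?_
  have h := NormedSpace.exp_series_hasSum_exp' (𝕂 := ℝ) (s * f y)
  rw [← Real.exp_eq_exp_ℝ] at h
  refine h.congr_fun fun n => ?_
  rw [smul_eq_mul, mul_pow]; ring

/-- the coefficients of `1 - (1 - x) ^ a` -/
noncomputable def bco (a : ℝ) (n : ℕ) : ℝ := -((-1) ^ (n + 1) * Ring.choose a (n + 1))

lemma bco_nonneg {a : ℝ} (h0 : 0 ≤ a) (h1 : a ≤ 1) (n : ℕ) : 0 ≤ bco a n := by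
  have key : ∀ n, (-1 : ℝ) ^ (n + 1) * (descPochhammer ℤ (n + 1)).smeval a ≤ 0 := by
    intro n
    induction n with
    | zero => simp [h0]
    | succ n ih =>
      rw [descPochhammer_succ_right, Polynomial.smeval_mul, Polynomial.smeval_sub, Polynomial.smeval_X,
        Polynomial.smeval_natCast, pow_succ]
      have : 0 ≤ ((n : ℝ) + 1) - a := by linarith [(Nat.cast_nonneg n : (0:ℝ) ≤ n)]
      simp only [npow_one, pow_zero, nsmul_eq_mul, mul_one]
      push_cast
      nlinarith [mul_nonpos_of_nonpos_of_nonneg ih this]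
  rw [bco, Ring.choose_eq_smul, smul_eq_mul, neg_nonneg, mul_left_comm]
  exact mul_nonpos_of_nonneg_of_nonpos (by positivity) (key n)

lemma hasSum_bco {a : ℝ} {x : ℝ} (hx : |x| < 1) :
    HasSum (fun n => bco a n * x ^ (n + 1)) (1 - (1 - x) ^ a) := by
  have h := (Real.one_add_rpow_hasFPowerSeriesOnBall_zero (a := a)).hasSum
    (y := -x) (by simpa [Metric.mem_eball, edist_zero_right, ← ofReal_norm] using hx)
  simp only [binomialSeries_apply, List.ofFn_const, List.prod_replicate, smul_eq_mul, zero_add] at h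
  rw [← hasSum_nat_add_iff' 1] at h
  simp only [sum_range_one, Ring.choose_zero_right, pow_zero, one_mul, ← sub_eq_add_neg] at h
  have h2 := h.neg
  rw [neg_sub] at h2
  refine h2.congr_fun fun n => ?_
  rw [bco, neg_pow x (n + 1)]
  ring

/-- `B` is nonnegative and every `exp (-s B)` is completely monotone -/
def CB (B : Orth ι → ℝ) : Prop :=
  (∀ y, 0 ≤ B y) ∧ ∀ s : ℝ, 0 ≤ s → (fun y => Real.exp (-(s * B y))) ∈ CM ι

lemma cb_linear {a : ι → ℝ} (ha : ∀ i, 0 ≤ a i) : CB fun y : Orth ι => ∑ i, a i * y.1 i := by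
  refine ⟨fun y => sum_nonneg fun i _ => mul_nonneg (ha i) (y.2 i), fun s hs => ?_⟩
  simpa [mul_sum, mul_assoc] using cm_exp (ι := ι) zero_le_one (a := fun i => s * a i)
    fun i => mul_nonneg hs (ha i)

lemma cb_congr {B C : Orth ι → ℝ} (hB : CB B) (h : ∀ y, B y = C y) : CB C := funext h ▸ hB

lemma cb_smul {B : Orth ι → ℝ} (hB : CB B) {c : ℝ} (hc : 0 ≤ c) : CB fun y => c * B y :=
  ⟨fun y => mul_nonneg hc (hB.1 y), fun s hs => by
    simpa [mul_assoc] using hB.2 (s * c) (mul_nonneg hs hc)⟩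

lemma cb_sum {J : Type*} (s : Finset J) {B : J → Orth ι → ℝ} (h : ∀ j ∈ s, CB (B j)) :
    CB fun y => ∑ j ∈ s, B j y := by
  refine ⟨fun y => sum_nonneg fun j hj => (h j hj).1 y, fun t ht => ?_⟩
  classical
  induction s using Finset.induction_on with
  | empty => simpa using cm_const (ι := ι) zero_le_one
  | @insert j s hj ih =>
    simp only [sum_insert hj, mul_add, neg_add, Real.exp_add]
    exact cm_mul ((h j (mem_insert_self j s)).2 t ht) (ih fun i hi => h i (mem_insert_of_mem hi))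

lemma cb_rpow {B : Orth ι → ℝ} (hB : CB B) {a : ℝ} (h0 : 0 < a) (h1 : a ≤ 1) :
    CB fun y => B y ^ a := by
  refine ⟨fun y => Real.rpow_nonneg (hB.1 y) _, fun s hs => ?_⟩
  -- `P = 1 - (1 - exp (-e B)) ^ a`
  have hP : ∀ e : ℝ, 0 ≤ e →
      (fun y => 1 - (1 - Real.exp (-(e * B y))) ^ a) ∈ CM ι := fun e he => by
    refine cm_lim (l := atTop)
      (F := fun (n : ℕ) y => 1 - (1 - (1 - 1 / ((n : ℝ) + 1)) * Real.exp (-(e * B y))) ^ a)
      (Eventually.of_forall fun n => ?_) fun y => ?_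
    · set q : Orth ι → ℝ := fun y => (1 - 1 / ((n : ℝ) + 1)) * Real.exp (-(e * B y))
      have r0 : 0 ≤ 1 - 1 / ((n : ℝ) + 1) := by
        rw [sub_nonneg, div_le_one (by positivity)]; linarith [(Nat.cast_nonneg n : (0:ℝ) ≤ n)]
      have hq : q ∈ CM ι := cm_mul (cm_const r0) (hB.2 e he)
      have hlt : ∀ y, |q y| < 1 := fun y => by
        rw [abs_of_nonneg (by positivity)]
        calc q y ≤ (1 - 1 / ((n : ℝ) + 1)) * 1 := mul_le_mul_of_nonneg_left
              (Real.exp_le_one_iff.2 (by nlinarith [mul_nonneg he (hB.1 y)])) r0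
          _ < 1 := by
              have : (0:ℝ) < 1 / ((n : ℝ) + 1) := by positivity
              linarith
      refine cm_lim (l := atTop) (F := fun N y => ∑ k ∈ range N, bco a k * q y ^ (k + 1))
        (Eventually.of_forall fun _ => cm_sum _ fun k _ =>
          cm_mul (cm_const (bco_nonneg h0.le h1 k)) (cm_pow hq _))
        fun y => (hasSum_bco (hlt y)).tendsto_sum_nat
    · have h : Continuous fun t : ℝ => 1 - (1 - (1 - t) * Real.exp (-(e * B y))) ^ a := by
        refine continuous_const.sub (Continuous.rpow_const (by fun_prop) fun _ => Or.inr h0.le)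
      simpa [Function.comp_def] using (h.tendsto 0).comp (tendsto_one_div_add_atTop_nhds_zero_nat (𝕜 := ℝ))
  refine cm_lim (l := atTop) (F := fun (n : ℕ) y => Real.exp
      (-(s * ((1 - Real.exp (-((1 / ((n : ℝ) + 1)) * B y))) / (1 / ((n : ℝ) + 1))) ^ a)))
    (Eventually.of_forall fun n => ?_) fun y => ?_
  · set e := 1 / ((n : ℝ) + 1)
    have he : 0 < e := by positivity
    set t := s / e ^ a
    have ht : 0 ≤ t := by positivity
    have h := cm_mul (cm_const (Real.exp_pos (-t)).le) (cm_exp_comp (hP e he.le) ht)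
    convert h using 2 with y
    have hu : 0 ≤ 1 - Real.exp (-(e * B y)) := by
      rw [sub_nonneg, Real.exp_le_one_iff]; nlinarith [mul_nonneg he.le (hB.1 y)]
    rw [Real.div_rpow hu he.le, ← Real.exp_add]
    congr 1
    simp only [t]; ring
  · have hd : HasDerivAt (fun e : ℝ => 1 - Real.exp (-(e * B y))) (B y) 0 := by
      simpa using ((((hasDerivAt_id (0:ℝ)).mul_const (B y)).fun_neg).exp).const_sub 1
    have hs0 := hd.tendsto_slope_zero_right.comp (f := fun n : ℕ => 1 / ((n : ℝ) + 1))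
      (tendsto_nhdsWithin_iff.2 ⟨tendsto_one_div_add_atTop_nhds_zero_nat,
        Eventually.of_forall fun n => show (0:ℝ) < 1 / ((n : ℝ) + 1) by positivity⟩)
    simp only [Function.comp_def, zero_add, zero_mul, neg_zero, Real.exp_zero, sub_self, sub_zero,
      smul_eq_mul] at hs0
    refine (Real.continuous_exp.tendsto _).comp (((Tendsto.rpow_const (hs0.congr fun n => ?_)
      (Or.inr h0.le)).const_mul s).neg)
    rw [inv_mul_eq_div]

end Vale.Agent.P166.Par
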