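import Vale.Agent.P166.Par.Bernstein
import Vale.Agent.P168.MP.Upper.ZBase
import Vale.Agent.P168.MP.Prod

/-! The nested functional of a hierarchical structure is a limit of positive mixtures of flat functionals
`Y ↦ log ∑ wt Y`. -/

open MeasureTheory Filter Topology Finset Real
open Vale.Agent.P168.MP (Ok Z avg nest logZ0 logZ0_mul)

namespace Vale.Agent.P166.Par

variable {ι : Type} [Fintype ι]

/-- a point of the orthant -/
def pt (u : ι → ℝ) (hu : ∀ i, 0 ≤ u i) : Orth ι := ⟨u, hu⟩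

/-- a mixture of exponentials -/
noncomputable def mix {J : Type} [Fintype J] (c : J → ℝ) (a : J → ι → ℝ) (u : ι → ℝ) : ℝ :=
  ∑ j, c j * exp (-∑ i, a j i * u i)

/-- an approximating sequence which converges at every point of the orthant -/
lemma exists_seq {f : Orth ι → ℝ} (hf : f ∈ CM ι) (hc : Continuous f) :
    ∃ (J : ℕ → Type) (_ : ∀ n, Fintype (J n)) (c : ∀ n, J n → ℝ) (a : ∀ n, J n → ι → ℝ),
      (∀ n j, 0 ≤ c n j) ∧ (∀ n j i, 0 < a n j i) ∧
      ∀ u (hu : ∀ i, 0 ≤ u i), Tendsto (fun n => mix (c n) (a n) u) atTop (𝓝 (f (pt u hu))) := by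
  classical
  let g : ∀ n : ℕ, (ι → Fin (n ^ 2 + 2 * n + 2)) → Orth ι :=
    fun n k => pt (fun i => ((k i : ℕ) : ℝ) / (n + 1)) fun i => by positivity
  have hs : ∀ n : ℕ, ∃ s ∈ Sums ι, ∀ k, |s (g n k) - f (g n k)| < 1 / ((n : ℝ) + 1) := by
    intro n
    have ho : IsOpen {s : Orth ι → ℝ | ∀ k, |s (g n k) - f (g n k)| < 1 / ((n : ℝ) + 1)} := by
      simp only [Set.ofPred_forall]
      exact isOpen_iInter_of_finite fun k => isOpen_lt (by fun_prop) continuous_const
    obtain ⟨s, hs, hs'⟩ := mem_closure_iff.1 hf _ ho fun k => by rw [sub_self, abs_zero]; positivity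
    exact ⟨s, hs', hs⟩
  choose s hs hsg using hs
  choose J inst c a hc0 ha0 heq using hs
  refine ⟨J, inst, c, a, hc0, ha0, fun u hu => ?_⟩
  have hmix : ∀ n (p : Orth ι), s n p = mix (c n) (a n) p.1 := fun n p => congrFun (heq n) p
  obtain ⟨N, hN⟩ := exists_nat_ge (∑ i, u i)
  have hb : ∀ n, N ≤ n → ∀ i, ⌈u i * ((n : ℝ) + 1)⌉₊ < n ^ 2 + 2 * n + 2 := by
    intro n hn i
    have h1 : u i ≤ n := (Finset.single_le_sum (fun j _ => hu j) (mem_univ i)).trans
      (hN.trans (by exact_mod_cast hn))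
    have h2 : ⌈u i * ((n : ℝ) + 1)⌉₊ ≤ n * (n + 1) := by
      rw [Nat.ceil_le]; push_cast; exact mul_le_mul_of_nonneg_right h1 (by positivity)
    nlinarith
  set lo : ℕ → Orth ι := fun n => pt (fun i => (⌊u i * ((n : ℝ) + 1)⌋₊ : ℝ) / (n + 1)) fun i => by
    positivity
  set hi : ℕ → Orth ι := fun n => pt (fun i => (⌈u i * ((n : ℝ) + 1)⌉₊ : ℝ) / (n + 1)) fun i => by
    positivity
  have h0 := tendsto_one_div_add_atTop_nhds_zero_nat (𝕜 := ℝ)
  have hlo : Tendsto lo atTop (𝓝 (pt u hu)) := by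
    rw [tendsto_subtype_rng, tendsto_pi_nhds]
    refine fun i => tendsto_of_tendsto_of_tendsto_of_le_of_le (by simpa [pt] using h0.const_sub (u i))
      tendsto_const_nhds (fun n => ?_) fun n => ?_
    · have := Nat.lt_floor_add_one (u i * ((n : ℝ) + 1))
      simp only [lo, pt]
      rw [← sub_nonneg]
      field_simp
      nlinarith
    · simp only [lo, pt]
      rw [div_le_iff₀ (by positivity)]
      exact Nat.floor_le (mul_nonneg (hu i) (by positivity))
  have hhi : Tendsto hi atTop (𝓝 (pt u hu)) := by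
    rw [tendsto_subtype_rng, tendsto_pi_nhds]
    refine fun i => tendsto_of_tendsto_of_tendsto_of_le_of_le tendsto_const_nhds
      (by simpa [pt] using h0.const_add (u i)) (fun n => ?_) fun n => ?_
    · simp only [hi, pt]
      rw [le_div_iff₀ (by positivity)]
      exact Nat.le_ceil _
    · simp only [hi, pt]
      rw [div_le_iff₀ (by positivity), add_mul, inv_mul_cancel₀ (by positivity)]
      exact (Nat.ceil_lt_add_one (mul_nonneg (hu i) (by positivity))).le
  refine tendsto_of_tendsto_of_tendsto_of_le_of_le'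
    (by simpa using ((hc.tendsto _).comp hhi).sub h0) (by simpa using ((hc.tendsto _).comp hlo).add h0) ?_ ?_
  · filter_upwards [eventually_ge_atTop N] with n hn
    have h := (abs_lt.1 (hsg n fun i => ⟨_, hb n hn i⟩)).1
    rw [hmix] at h
    have hle : mix (c n) (a n) (g n fun i => ⟨_, hb n hn i⟩).1 ≤ mix (c n) (a n) u := by
      refine sum_le_sum fun j _ => mul_le_mul_of_nonneg_left (exp_le_exp.2 (neg_le_neg
        (sum_le_sum fun i _ => mul_le_mul_of_nonneg_left ?_ (ha0 n j i).le))) (hc0 n j)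
      simp only [g, pt]
      rw [le_div_iff₀ (by positivity)]
      exact Nat.le_ceil _
    simp only [hi, g, one_div] at h hle ⊢
    linarith
  · filter_upwards [eventually_ge_atTop N] with n hn
    have hb' : ∀ i, ⌊u i * ((n : ℝ) + 1)⌋₊ < n ^ 2 + 2 * n + 2 := fun i =>
      (Nat.floor_le_ceil _).trans_lt (hb n hn i)
    have h := (abs_lt.1 (hsg n fun i => ⟨_, hb' i⟩)).2
    rw [hmix] at h
    have hle : mix (c n) (a n) u ≤ mix (c n) (a n) (g n fun i => ⟨_, hb' i⟩).1 := by
      refine sum_le_sum fun j _ => mul_le_mul_of_nonneg_left (exp_le_exp.2 (neg_le_neg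
        (sum_le_sum fun i _ => mul_le_mul_of_nonneg_left ?_ (ha0 n j i).le))) (hc0 n j)
      simp only [g, pt]
      rw [div_le_iff₀ (by positivity)]
      exact Nat.floor_le (mul_nonneg (hu i) (by positivity))
    simp only [lo, g, one_div] at h hle ⊢
    linarith

/-- the profile of `exp (-B)` on a ray, `B` homogeneous of degree `M` -/
noncomputable def G (M x : ℝ) : ℝ := exp (-exp (M * x))

lemma shift_bound {M : ℝ} (hM : 0 < M) (T U₀ U₁ : ℝ) :
    |(∫ τ in (-T)..T, G M (τ + U₀)) - (∫ τ in (-T)..T, G M (τ + U₁)) - (U₁ - U₀)| ≤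
      |U₁ - U₀| * (1 - G M (-T + max U₀ U₁) + G M (T + min U₀ U₁)) := by
  have hc : Continuous (G M) := by unfold G; fun_prop
  have anti : ∀ x y, x ≤ y → G M y ≤ G M x := fun x y h =>
    exp_le_exp.2 (neg_le_neg (exp_le_exp.2 (mul_le_mul_of_nonneg_left h hM.le)))
  have hG0 : ∀ x, 0 ≤ G M x := fun x => (exp_pos _).le
  have hG1 : ∀ x, G M x ≤ 1 := fun x => exp_le_one_iff.2 (neg_nonpos.2 (exp_pos _).le)
  have hi : ∀ a b : ℝ, IntervalIntegrable (G M) volume a b := fun a b => hc.intervalIntegrable a b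
  rw [intervalIntegral.integral_comp_add_right (f := G M) U₀,
    intervalIntegral.integral_comp_add_right (f := G M) U₁,
    intervalIntegral.integral_interval_sub_interval_comm (hi _ _) (hi _ _) (hi _ _)]
  have h1 := intervalIntegral.norm_integral_le_of_norm_le_const (f := fun x => G M x - 1)
    (a := -T + U₀) (b := -T + U₁) (C := 1 - G M (-T + max U₀ U₁)) fun x hx => by
    rw [Real.norm_eq_abs, abs_sub_comm, abs_of_nonneg (sub_nonneg.2 (hG1 x))]
    have : x ≤ max (-T + U₀) (-T + U₁) := (Set.uIoc_subset_uIcc hx).2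
    rw [max_add_add_left] at this
    linarith [anti x _ this]
  have h2 := intervalIntegral.norm_integral_le_of_norm_le_const (f := G M)
    (a := T + U₀) (b := T + U₁) (C := G M (T + min U₀ U₁)) fun x hx => by
    rw [Real.norm_eq_abs, abs_of_nonneg (hG0 x)]
    have : min (T + U₀) (T + U₁) ≤ x := (Set.uIoc_subset_uIcc hx).1
    rw [min_add_add_left] at this
    exact anti _ x this
  rw [intervalIntegral.integral_sub (hi _ _) intervalIntegrable_const] at h1
  simp only [intervalIntegral.integral_const, smul_eq_mul, mul_one, Real.norm_eq_abs,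
    show -T + U₁ - (-T + U₀) = U₁ - U₀ by ring] at h1
  rw [show T + U₁ - (T + U₀) = U₁ - U₀ by ring, Real.norm_eq_abs] at h2
  rw [abs_le] at h1 h2 ⊢
  rw [mul_add]
  constructor <;> linarith [h1.1, h1.2, h2.1, h2.2,
    mul_comm |U₁ - U₀| (1 - G M (-T + max U₀ U₁)), mul_comm |U₁ - U₀| (G M (T + min U₀ U₁))]

lemma abs_log_sum_sub_le [Nonempty ι] {a u₀ u₁ : ι → ℝ} (ha : ∀ i, 0 < a i) (h₀ : ∀ i, 0 < u₀ i)
    (h₁ : ∀ i, 0 < u₁ i) :
    |log (∑ i, a i * u₁ i) - log (∑ i, a i * u₀ i)| ≤ ∑ i, |log (u₁ i) - log (u₀ i)| := by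
  set Λ := ∑ i, |log (u₁ i) - log (u₀ i)|
  have key : ∀ u v : ι → ℝ, (∀ i, 0 < u i) → (∀ i, 0 < v i) → (∀ i, log (u i) - log (v i) ≤ Λ) →
      log (∑ i, a i * u i) - log (∑ i, a i * v i) ≤ Λ := by
    intro u v hu hv h
    have pu : ∀ u : ι → ℝ, (∀ i, 0 < u i) → 0 < ∑ i, a i * u i := fun u hu =>
      sum_pos (fun i _ => mul_pos (ha i) (hu i)) univ_nonempty
    rw [← log_div (pu u hu).ne' (pu v hv).ne', log_le_iff_le_exp (div_pos (pu u hu) (pu v hv)),
      div_le_iff₀ (pu v hv), mul_sum]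
    refine sum_le_sum fun i _ => ?_
    rw [mul_left_comm (exp Λ)]
    refine mul_le_mul_of_nonneg_left ?_ (ha i).le
    rw [← exp_log (hu i), ← exp_log (hv i), ← exp_add]
    exact exp_le_exp.2 (by linarith [h i])
  have hle : ∀ i, |log (u₁ i) - log (u₀ i)| ≤ Λ := fun i =>
    single_le_sum (f := fun i => |log (u₁ i) - log (u₀ i)|) (fun _ _ => abs_nonneg _) (mem_univ i)
  rw [abs_le]
  constructor
  · linarith [key u₀ u₁ h₀ h₁ fun i => by linarith [(abs_le.1 (hle i)).1]]
  · exact key u₁ u₀ h₁ h₀ fun i => (abs_le.1 (hle i)).2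

/-- a function equal to `exp (-exp (M (τ + F u)))` on rays determines the mixtures of `log (a · u)` -/
lemma mixture [Nonempty ι] {f : Orth ι → ℝ} (hf : f ∈ CM ι) (hc : Continuous f)
    (h0 : f (pt 0 fun _ => le_rfl) = 1) {M : ℝ} (hM : 0 < M) {F : (ι → ℝ) → ℝ}
    (hray : ∀ u (hu : ∀ i, 0 < u i) τ,
      f (pt (fun i => exp τ * u i) fun i => (mul_pos (exp_pos τ) (hu i)).le) = G M (τ + F u)) :
    ∃ (J : ℕ → Type) (_ : ∀ n, Fintype (J n)) (c : ∀ n, J n → ℝ) (a : ∀ n, J n → ι → ℝ),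
      (∀ n j, 0 ≤ c n j) ∧ (∀ n j i, 0 < a n j i) ∧ (∃ C, ∀ n, ∑ j, c n j ≤ C) ∧
      ∀ u₀ u₁ : ι → ℝ, (∀ i, 0 < u₀ i) → (∀ i, 0 < u₁ i) →
        Tendsto (fun n => ∑ j, c n j * (log (∑ i, a n j i * u₁ i) - log (∑ i, a n j i * u₀ i)))
          atTop (𝓝 (F u₁ - F u₀)) := by
  obtain ⟨J, inst, c, a, hc0, ha, hlim⟩ := exists_seq hf hc
  have hz : Tendsto (fun n => ∑ j, c n j) atTop (𝓝 1) := by
    simpa [mix, h0] using hlim 0 fun _ => le_rfl
  obtain ⟨C, hC⟩ := hz.bddAbove_range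
  refine ⟨J, inst, c, a, hc0, ha, ⟨C, fun n => hC ⟨n, rfl⟩⟩, fun u₀ u₁ h₀ h₁ => ?_⟩
  set Λ := ∑ i, |log (u₁ i) - log (u₀ i)| + |F u₁ - F u₀|
  have hΛ : 0 ≤ Λ := by positivity
  have pos : ∀ n j (u : ι → ℝ), (∀ i, 0 < u i) → 0 < ∑ i, a n j i * u i := fun n j u hu =>
    sum_pos (fun i _ => mul_pos (ha n j i) (hu i)) univ_nonempty
  have atom : ∀ n j (u : ι → ℝ), (∀ i, 0 < u i) → ∀ τ,
      G 1 (τ + log (∑ i, a n j i * u i)) = exp (-∑ i, a n j i * (exp τ * u i)) := fun n j u hu τ => by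
    rw [G, one_mul, exp_add, exp_log (pos n j u hu), mul_sum]
    simp only [mul_left_comm (exp τ)]
  have hfn : ∀ n (u : ι → ℝ), (∀ i, 0 < u i) → ∀ T, ∫ τ in (-T)..T, mix (c n) (a n) (fun i => exp τ * u i) =
      ∑ j, c n j * ∫ τ in (-T)..T, G 1 (τ + log (∑ i, a n j i * u i)) := fun n u hu T => by
    simp only [mix, ← atom n _ u hu]
    rw [intervalIntegral.integral_finsetSum fun j _ => ?_]
    · simp only [intervalIntegral.integral_const_mul]
    · exact (Continuous.intervalIntegrable (by unfold G; fun_prop) _ _)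
  -- error at the two ends
  have key : ∀ T : ℝ, ∀ n, |(∑ j, c n j * (log (∑ i, a n j i * u₁ i) - log (∑ i, a n j i * u₀ i))) -
      ((∫ τ in (-T)..T, mix (c n) (a n) (fun i => exp τ * u₀ i)) -
        ∫ τ in (-T)..T, mix (c n) (a n) (fun i => exp τ * u₁ i))| ≤
      Λ * ((∑ j, c n j) - mix (c n) (a n) (fun i => exp (-T) * (u₀ i + u₁ i)) +
        mix (c n) (a n) (fun i => exp T * u₀ i) + mix (c n) (a n) (fun i => exp T * u₁ i)) := by
    intro T n
    rw [hfn n u₀ h₀, hfn n u₁ h₁]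
    simp only [mix, ← sum_sub_distrib, ← sum_add_distrib, mul_sum]
    refine (abs_sum_le_sum_abs _ _).trans (sum_le_sum fun j _ => ?_)
    set U₀ := log (∑ i, a n j i * u₀ i) with hU₀
    set U₁ := log (∑ i, a n j i * u₁ i) with hU₁
    rw [← mul_sub, ← mul_sub, abs_mul, abs_of_nonneg (hc0 n j), abs_sub_comm]
    calc c n j * |(∫ τ in (-T)..T, G 1 (τ + U₀)) - (∫ τ in (-T)..T, G 1 (τ + U₁)) - (U₁ - U₀)|
        ≤ c n j * (|U₁ - U₀| * (1 - G 1 (-T + max U₀ U₁) + G 1 (T + min U₀ U₁))) :=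
          mul_le_mul_of_nonneg_left (shift_bound one_pos T U₀ U₁) (hc0 n j)
      _ ≤ c n j * (Λ * (1 - exp (-∑ i, a n j i * (exp (-T) * (u₀ i + u₁ i))) +
            exp (-∑ i, a n j i * (exp T * u₀ i)) + exp (-∑ i, a n j i * (exp T * u₁ i)))) := by
          have hadd : ∀ i, 0 < u₀ i + u₁ i := fun i => add_pos (h₀ i) (h₁ i)
          have anti : ∀ x y : ℝ, x ≤ y → G 1 y ≤ G 1 x := fun x y h => by
            simp only [G, one_mul]; exact exp_le_exp.2 (neg_le_neg (exp_le_exp.2 h))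
          have le1 : ∀ x, G 1 x ≤ 1 := fun x => exp_le_one_iff.2 (neg_nonpos.2 (exp_pos _).le)
          have h2 : max U₀ U₁ ≤ log (∑ i, a n j i * (u₀ i + u₁ i)) := max_le
            (log_le_log (pos n j u₀ h₀) (sum_le_sum fun i _ =>
              mul_le_mul_of_nonneg_left (by linarith [h₁ i]) (ha n j i).le))
            (log_le_log (pos n j u₁ h₁) (sum_le_sum fun i _ =>
              mul_le_mul_of_nonneg_left (by linarith [h₀ i]) (ha n j i).le))
          have h3 : G 1 (T + min U₀ U₁) ≤ G 1 (T + U₀) + G 1 (T + U₁) := by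
            rcases min_choice U₀ U₁ with h | h <;> rw [h] <;>
              linarith [(exp_pos (-exp (1 * (T + U₀)))), (exp_pos (-exp (1 * (T + U₁)))),
                show G 1 (T + U₀) = exp (-exp (1 * (T + U₀))) from rfl,
                show G 1 (T + U₁) = exp (-exp (1 * (T + U₁))) from rfl]
          rw [← atom n j _ hadd, ← atom n j _ h₀, ← atom n j _ h₁]
          refine mul_le_mul_of_nonneg_left (mul_le_mul
            ((abs_log_sum_sub_le (ha n j) h₀ h₁).trans (le_add_of_nonneg_right (abs_nonneg _)))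
            ?_ (add_nonneg (sub_nonneg.2 (le1 _)) (exp_pos _).le) hΛ) (hc0 n j)
          have h4 := anti (-T + max U₀ U₁) (-T + log (∑ i, a n j i * (u₀ i + u₁ i))) (by linarith)
          simp only [hU₀, hU₁] at h3 h4 ⊢
          linarith
      _ = _ := by ring
  have hR : ∀ v : ι → ℝ, (∀ i, 0 < v i) → ∀ τ, Tendsto (fun n => mix (c n) (a n) fun i => exp τ * v i)
      atTop (𝓝 (G M (τ + F v))) := fun v hv τ => hray v hv τ ▸ hlim _ _
  have hint : ∀ v : ι → ℝ, (∀ i, 0 < v i) → ∀ T,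
      Tendsto (fun n => ∫ τ in (-T)..T, mix (c n) (a n) fun i => exp τ * v i) atTop
        (𝓝 (∫ τ in (-T)..T, G M (τ + F v))) := fun v hv T => by
    refine intervalIntegral.tendsto_integral_filter_of_dominated_convergence (fun _ => C)
      (Eventually.of_forall fun n => Continuous.aestronglyMeasurable (by unfold mix; fun_prop))
      (Eventually.of_forall fun n => Eventually.of_forall fun τ _ => ?_) intervalIntegrable_const
      (Eventually.of_forall fun τ _ => hR v hv τ)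
    rw [Real.norm_eq_abs, abs_of_nonneg (show 0 ≤ mix (c n) (a n) _ from sum_nonneg fun j _ => mul_nonneg (hc0 n j) (exp_pos _).le)]
    exact (sum_le_sum fun j _ => mul_le_of_le_one_right (hc0 n j) (exp_le_one_iff.2 (neg_nonpos.2
      (sum_nonneg fun i _ => mul_nonneg (ha n j i).le (mul_pos (exp_pos τ) (hv i)).le)))).trans
      (hC ⟨n, rfl⟩)
  set r : ℝ → ℝ := fun T => Λ * (1 - G M (-T + F (fun i => u₀ i + u₁ i)) + G M (T + F u₀) + G M (T + F u₁)) +
    Λ * (1 - G M (-T + max (F u₀) (F u₁)) + G M (T + min (F u₀) (F u₁)))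
  have hr : Tendsto r atTop (𝓝 0) := by
    have hp : ∀ x, Tendsto (fun T => G M (T + x)) atTop (𝓝 0) := fun x => by
      refine tendsto_exp_neg_atTop_nhds_zero.comp (tendsto_exp_atTop.comp ?_)
      exact (tendsto_atTop_add_const_right _ x tendsto_id).const_mul_atTop hM
    have hn : ∀ x, Tendsto (fun T => G M (-T + x)) atTop (𝓝 1) := fun x => by
      have : Tendsto (fun T : ℝ => exp (M * (-T + x))) atTop (𝓝 0) := tendsto_exp_atBot.comp
        ((tendsto_atBot_add_const_right _ x tendsto_neg_atTop_atBot).const_mul_atBot hM)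
      simpa [G, Function.comp_def] using (continuous_exp.tendsto _).comp this.neg
    simpa [r] using (((((hn (F fun i => u₀ i + u₁ i)).const_sub 1).add (hp (F u₀))).add (hp (F u₁))).const_mul Λ).add
      ((((hn (max (F u₀) (F u₁))).const_sub 1).add (hp (min (F u₀) (F u₁)))).const_mul Λ)
  rw [Metric.tendsto_nhds]
  intro ε hε
  obtain ⟨T, hT⟩ := (hr.eventually (eventually_lt_nhds hε)).exists
  have h1 := (hint u₀ h₀ T).sub (hint u₁ h₁ T)
  have h2 := (((hz.sub (hR (fun i => u₀ i + u₁ i) (fun i => add_pos (h₀ i) (h₁ i)) (-T))).add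
    (hR u₀ h₀ T)).add (hR u₁ h₁ T)).const_mul Λ
  have hs := shift_bound hM T (F u₀) (F u₁)
  have hsd : |F u₁ - F u₀| * (1 - G M (-T + max (F u₀) (F u₁)) + G M (T + min (F u₀) (F u₁))) ≤
      Λ * (1 - G M (-T + max (F u₀) (F u₁)) + G M (T + min (F u₀) (F u₁))) := by
    refine mul_le_mul_of_nonneg_right (le_add_of_nonneg_left (by positivity)) ?_
    exact add_nonneg (sub_nonneg.2 (exp_le_one_iff.2 (neg_nonpos.2 (exp_pos _).le))) (exp_pos _).le
  simp only [r] at hT
  have h3 := ((h1.sub_const (F u₁ - F u₀)).abs.add h2).eventually (eventually_lt_nhds (show _ < ε by linarith))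
  filter_upwards [h3] with n hn
  rw [Real.dist_eq]
  have := key T n
  have t := abs_sub_le (∑ j, c n j * (log (∑ i, a n j i * u₁ i) - log (∑ i, a n j i * u₀ i)))
    ((∫ τ in (-T)..T, mix (c n) (a n) (fun i => exp τ * u₀ i)) -
      ∫ τ in (-T)..T, mix (c n) (a n) (fun i => exp τ * u₁ i)) (F u₁ - F u₀)
  linarith

section nested

variable {Ω : Type} [Fintype Ω] [Nonempty Ω] {R : ℕ} {m : ℕ → ℝ}

/-- leaf values as a weight on paths -/
noncomputable def leaf (y : (Fin R → Ω) → ℝ) (p : List Ω) : ℝ :=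
  y fun i => p.getD i (Classical.arbitrary Ω)

lemma leaf_ofFn (u : List Ω → ℝ) {p : List Ω} (hp : p.length = R) :
    leaf (fun i : Fin R → Ω => u (List.ofFn i)) p = u p := by
  subst hp
  simp only [leaf]
  congr 1
  exact List.ext_getElem (by simp) fun i h1 h2 => by simp [List.getD_eq_getElem _ _ h2]

lemma key_Z (hpos : ∀ l, 1 ≤ l → l ≤ R → 0 < m l) (hmono : ∀ l, 1 ≤ l → l < R → m l ≤ m (l + 1))
    (htop : m R = 1) : ∀ (k : ℕ) (pre : List Ω), pre.length + k = R →
    (∀ e, 0 < e → e ≤ m (min (pre.length + 1) R) →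
      CB (fun y : Orth (Fin R → Ω) => Z m (leaf y.1) k pre ^ e)) ∧
    Continuous (fun y : Orth (Fin R → Ω) => Z m (leaf y.1) k pre) ∧
    (∀ y : Orth (Fin R → Ω), 0 ≤ Z m (leaf y.1) k pre) ∧
    ∀ (c : ℝ), 0 ≤ c → ∀ y : (Fin R → Ω) → ℝ, (∀ p, 0 ≤ y p) →
      Z m (leaf fun p => c * y p) k pre = c * Z m (leaf y) k pre
  | 0, pre, hk => by
    classical
    set i₀ : Fin R → Ω := fun i => pre.getD i (Classical.arbitrary Ω)
    have hZ : ∀ y : (Fin R → Ω) → ℝ, Z m (leaf y) 0 pre = y i₀ := fun y => by rw [Z]; rfl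
    refine ⟨fun e he he' => ?_, by simp only [hZ]; exact (continuous_apply i₀).comp continuous_subtype_val, fun y => (hZ y.1).symm ▸ y.2 i₀,
      fun c _ y _ => by simp only [hZ]⟩
    rw [show min (pre.length + 1) R = R by omega, htop] at he'
    refine cb_rpow (cb_congr (cb_linear (a := Pi.single i₀ 1) fun i => ?_) fun y => ?_) he he'
    · by_cases h : i = i₀ <;> simp [h]
    · rw [hZ]; simp [Pi.single_apply]
  | k + 1, pre, hk => by
    have ih := fun o : Ω => key_Z hpos hmono htop k (pre ++ [o]) (by simp; omega)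
    set M := m (pre.length + 1) with hMd
    have hM : 0 < M := hpos _ (by omega) (by omega)
    have hZ : ∀ y : (Fin R → Ω) → ℝ, Z m (leaf y) (k + 1) pre =
        (avg fun o => Z m (leaf y) k (pre ++ [o]) ^ M) ^ (1 / M) := fun y => by rw [Z]
    have hle : M ≤ m (min ((pre.length + 1) + 1) R) := by
      rcases Nat.lt_or_ge (pre.length + 1) R with h | h
      · rw [min_eq_left (by omega)]; exact hmono _ (by omega) h
      · rw [show min (pre.length + 1 + 1) R = pre.length + 1 by omega]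
    have hav : ∀ y : Orth (Fin R → Ω), 0 ≤ avg fun o => Z m (leaf y.1) k (pre ++ [o]) ^ M := fun y =>
      div_nonneg (sum_nonneg fun o _ => rpow_nonneg ((ih o).2.2.1 y) _) (Nat.cast_nonneg _)
    refine ⟨fun e he he' => ?_, ?_, fun y => (hZ y.1).symm ▸ rpow_nonneg (hav y) _, fun c hc y hy => ?_⟩
    · rw [min_eq_left (show pre.length + 1 ≤ R by omega)] at he'
      refine cb_congr (cb_rpow (cb_smul (cb_sum univ fun o _ => (ih o).1 M hM
        (by simpa using hle)) (c := 1 / (Fintype.card Ω : ℝ)) (by positivity))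
        (div_pos he hM) ((div_le_one hM).2 he')) fun y => ?_
      rw [hZ, ← rpow_mul (hav y), one_div_mul_eq_div, avg, one_div_mul_eq_div]
    · simp only [hZ]
      refine Continuous.rpow_const ?_ fun _ => Or.inr (by positivity)
      unfold avg
      exact (continuous_finsetSum _ fun o _ => (ih o).2.1.rpow_const fun _ => Or.inr hM.le).div_const _
    · have hy' : ∀ o, 0 ≤ Z m (leaf y) k (pre ++ [o]) := fun o => (ih o).2.2.1 ⟨y, hy⟩
      simp only [hZ, fun o => (ih o).2.2.2 c hc y hy, mul_rpow hc (hy' _)]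
      rw [Vale.Agent.P168.MP.Upper.avg_mul_left, mul_rpow (rpow_nonneg hc _) (hav ⟨y, hy⟩),
        ← rpow_mul hc, mul_one_div_cancel hM.ne', rpow_one]

/-- the nested functional is a limit of positive mixtures of flat functionals -/
theorem cascade (hR : 1 ≤ R) {w : List Ω → ℝ} (hm : Ok R m w) :
    ∃ (J : ℕ → Type) (_ : ∀ n, Fintype (J n)) (c : ∀ n, J n → ℝ) (wt : ∀ n, J n → (Fin R → Ω) → ℝ),
      (∀ n j, 0 ≤ c n j) ∧ (∀ n j p, 0 < wt n j p) ∧ (∀ n j, ∑ p, wt n j p = 1) ∧
      (∃ C, ∀ n, ∑ j, c n j ≤ C) ∧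
      ∀ Y : List Ω → ℝ, (∀ p, 0 < Y p) →
        Tendsto (fun n => ∑ j, c n j * log (∑ p, wt n j p * Y (List.ofFn p))) atTop
          (𝓝 (log (nest m w Y R []))) := by
  obtain ⟨hCB, hcont, hnn, hhom⟩ := key_Z (Ω := Ω) hm.pos hm.mono hm.top R [] (by simp)
  set M := m 1 with hMd
  have hM : 0 < M := hm.pos 1 le_rfl hR
  have hf := (hCB M hM (by simp [min_eq_left hR, hMd])).2 1 zero_le_one
  simp only [one_mul] at hf
  have hc : Continuous fun y : Orth (Fin R → Ω) => exp (-(Z m (leaf y.1) R [] ^ M)) :=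
    continuous_exp.comp (hcont.rpow_const fun _ => Or.inr hM.le).neg
  have h0 : exp (-(Z m (leaf (0 : (Fin R → Ω) → ℝ)) R [] ^ M)) = 1 := by
    have := hhom 0 le_rfl (fun _ => 1) fun _ => zero_le_one
    simp only [zero_mul] at this
    rw [show (0 : (Fin R → Ω) → ℝ) = fun _ => 0 from rfl, this, zero_rpow hM.ne', neg_zero, exp_zero]
  obtain ⟨J, inst, c, a, hc0, ha, hC, hlim⟩ := mixture hf hc h0 hM
    (F := fun u => log (Z m (leaf u) R [])) fun u hu τ => by
      have hp : 0 < Z m (leaf u) R [] := Vale.Agent.P168.MP.Z_pos (fun p => hu _) _ _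
      simp only [pt, G, hhom _ (exp_pos τ).le u fun i => (hu i).le]
      rw [mul_rpow (exp_pos τ).le hp.le, ← exp_mul, rpow_def_of_pos hp, ← exp_add]
      congr 3
      ring
  have hpi : ∀ n j, 0 < ∑ p, a n j p * w (List.ofFn p) := fun n j =>
    sum_pos (fun p _ => mul_pos (ha n j p) (hm.wpos _)) univ_nonempty
  refine ⟨J, inst, c, fun n j p => a n j p * w (List.ofFn p) / ∑ q, a n j q * w (List.ofFn q), hc0,
    fun n j p => div_pos (mul_pos (ha n j p) (hm.wpos _)) (hpi n j),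
    fun n j => by rw [← sum_div, div_self (hpi n j).ne'], hC, fun Y hY => ?_⟩
  have hfin := hlim (fun p => w (List.ofFn p)) (fun p => w (List.ofFn p) * Y (List.ofFn p))
    (fun p => hm.wpos _) fun p => mul_pos (hm.wpos _) (hY _)
  have e : ∀ u : List Ω → ℝ, Z m (leaf fun p : Fin R → Ω => u (List.ofFn p)) R [] = Z m u R [] := fun u =>
    Vale.Agent.P168.MP.Upper.Z_congr R [] fun suf hs => leaf_ofFn u (by simpa using hs)
  rw [e w, e fun p => w p * Y p, show log (Z m (fun p => w p * Y p) R []) - log (Z m w R []) =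
    log (nest m w Y R []) from logZ0_mul hm.wpos hY] at hfin
  refine hfin.congr fun n => sum_congr rfl fun j _ => ?_
  have h1 : 0 < ∑ p, a n j p * (w (List.ofFn p) * Y (List.ofFn p)) :=
    sum_pos (fun p _ => mul_pos (ha n j p) (mul_pos (hm.wpos _) (hY _))) univ_nonempty
  rw [← log_div h1.ne' (hpi n j).ne', sum_div]
  simp only [div_mul_eq_mul_div, mul_assoc]

end nested

end Vale.Agent.P166.Par
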