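import Vale.Agent.P166.Par.QuadCut
import Vale.Agent.P157.Par.Close
import Vale.Agent.P157.Par.Lip

/-! The functional of a trial for the cut potential converges to the one of the quadratic potential,
uniformly in the trial. -/

open MeasureTheory ProbabilityTheory Real Finset
open Vale.Agent.P157.Par (Phi Gamma Ex Prof Fval)
open Vale.Agent.P168.MP (lin)

namespace Vale.Agent.P166.Par

variable {c : ℝ} {R : ℕ} {m q : ℕ → ℝ}

/-- the correlations of the quadratic potential form a profile -/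
lemma gamma_quad_prof (h : Dat c R m q) :
    Prof R (fun l => Gamma (fun y => exp (qf c y)) (deriv (qf c)) R m q l) 1 := by
  rw [deriv_qf]
  refine ⟨?_, fun l hl => ?_, ?_⟩
  · show 0 ≤ Gamma (eQ c) (fun u => c * u) R m q 0
    rw [Gamma_quad h (Nat.zero_le R)]
    exact mul_nonneg (sq_nonneg _) (tot_mem h (by omega)).1
  · show Gamma (eQ c) (fun u => c * u) R m q l ≤ Gamma (eQ c) (fun u => c * u) R m q (l + 1)
    rw [Gamma_quad_sum h hl.le, Gamma_quad_sum h hl, sum_range_succ' _ l]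
    refine mul_le_mul_of_nonneg_left (add_le_add le_rfl ?_) (sq_nonneg c)
    refine le_add_of_le_of_nonneg (le_of_eq (sum_congr rfl fun i _ => ?_)) ?_
    · rw [show R - (l + 1) + (i + 1) = R - l + i by omega]
    · exact div_nonneg (dn_nonneg h (by omega))
        (mul_nonneg (bn_pos h (by omega)).le (bn_pos h (by omega)).le)
  · show Gamma (eQ c) (fun u => c * u) R m q R ≤ 1
    rw [Gamma_quad h le_rfl, Nat.sub_self, bn_zero, div_one]
    obtain ⟨t0, t1⟩ := tot_mem h (Nat.zero_le R)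
    have hc2 : c ^ 2 ≤ (1 / 10) ^ 2 := sq_le_sq' (abs_le.1 h.hc).1 (abs_le.1 h.hc).2
    nlinarith [mul_le_mul hc2 t1 t0 (by norm_num)]

/-- the weight of a level of the linear exponents -/
lemma coef_abs {l : ℕ} (hl : l < R) :
    |(if l = 0 then 0 else lin R l) - lin R (l + 1)| = 1 / R := by
  have h := Vale.Agent.P157.Par.coef_lt hl
  rw [show (if l = 0 then 0 else lin R l) - lin R (l + 1) = -(1 / (R : ℝ)) from h, abs_neg,
    abs_of_nonneg (by positivity)]

/-- **`Fval (fL) → Fval (qf)` uniformly over the trials** -/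
theorem fval_cut (hc : |c| ≤ 1 / 10) {α : ℝ} (hα : 0 ≤ α) {ε : ℝ} (hε : 0 < ε) :
    ∃ L₀ : ℝ, 1 ≤ L₀ ∧ ∀ L, L₀ ≤ L → ∀ (R : ℕ) (q : ℕ → ℝ), 1 ≤ R → Prof R q 1 →
      |Fval α (fL c L) R (lin R) q - Fval α (qf c) R (lin R) q| ≤ ε := by
  obtain ⟨K, hK, hlip⟩ := Vale.Agent.P157.Par.Phi_lip Vale.Agent.P157.Par.sm_logcosh (2 * α)
  set δ := min (1 / 2) (ε / (α * (2 * K + 2) + 1))
  have hδ : 0 < δ := lt_min (by norm_num) (by positivity)
  have hδε : α * (2 * K + 2) * δ ≤ ε := by
    have h1 : δ * (α * (2 * K + 2) + 1) ≤ ε := (le_div_iff₀ (by positivity)).1 (min_le_right _ _)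
    nlinarith
  obtain ⟨L₀, hL₀, hcut⟩ := cut_uniform hc hδ
  refine ⟨L₀, hL₀, fun L hL R q hR hq => ?_⟩
  obtain ⟨hPhi, hGam⟩ := hcut L hL R (lin R) q (Vale.Agent.P157.Par.ex_lin R) hq
  set A := fun l => Gamma (fun y => exp (fL c L y)) (deriv (fL c L)) R (lin R) q l
  set B := fun l => Gamma (fun y => exp (qf c y)) (deriv (qf c)) R (lin R) q l
  have hB := gamma_quad_prof (h := (⟨hc, Vale.Agent.P157.Par.ex_lin R, hq⟩ : Dat c R (lin R) q))
  have hA : Prof R A (2 : ℝ) := by
    have hS := cut_sm c (show 1 ≤ L by linarith)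
    have h1 := Vale.Agent.P157.Par.Gamma_prof hS hR hq (m := lin R)
      fun w hw => Vale.Agent.P157.Par.ok_linW hR hw
    rw [← (funext fun x => (hS.d0 x).deriv : deriv (fL c L) = fL1 c L)] at h1
    exact ⟨h1.zero, h1.mono, by linarith [(abs_le.1 (hGam R le_rfl)).2, hB.top, min_le_left (1 / 2 : ℝ) (ε / (α * (2 * K + 2) + 1))]⟩
  have hA' : Prof R (fun l => α * A l) (2 * α) := by
    have := hA.scale hα
    rwa [mul_comm α 2] at this
  have hB' : Prof R (fun l => α * B l) (2 * α) := by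
    refine (hB.scale hα).weaken ?_
    linarith
  have hd : ∀ l ≤ R, |α * A l - α * B l| ≤ α * δ := fun l hl => by
    rw [← mul_sub, abs_mul, abs_of_nonneg hα]
    exact mul_le_mul_of_nonneg_left (hGam l hl) hα
  have hR0 : (0:ℝ) < R := Nat.cast_pos.2 (by omega)
  have hcosh : |Phi cosh R (lin R) (fun l => α * A l) - Phi cosh R (lin R) (fun l => α * B l)| ≤
      K * (2 * (α * δ)) := by
    have := (hlip R _ _ hR hA' hB').1
    rw [Vale.Agent.P157.Par.cosh_eq_exp] at this
    refine this.trans (mul_le_mul_of_nonneg_left ?_ hK)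
    have hs : (∑ l ∈ range R, |α * A l - α * B l|) / R ≤ α * δ := by
      rw [div_le_iff₀ hR0]
      refine (sum_le_sum fun l hl => hd l (mem_range.1 hl).le).trans (le_of_eq ?_)
      rw [sum_const, card_range, nsmul_eq_mul, mul_comm]
    linarith [hd R le_rfl]
  have hq1 : ∀ l ≤ R, |q l| ≤ 1 := fun l hl => by
    obtain ⟨a, b⟩ := hq.bd hl
    rw [abs_of_nonneg a]; exact b
  set k := fun l => (if l = 0 then 0 else lin R l) - lin R (l + 1)
  have hsum : |(A R + ∑ l ∈ range R, k l * (A l * q l)) - (B R + ∑ l ∈ range R, k l * (B l * q l))| ≤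
      2 * δ := by
    rw [show (A R + ∑ l ∈ range R, k l * (A l * q l)) - (B R + ∑ l ∈ range R, k l * (B l * q l)) =
      (A R - B R) + ∑ l ∈ range R, k l * ((A l - B l) * q l) by
        rw [add_sub_add_comm, ← sum_sub_distrib]
        congr 1
        exact sum_congr rfl fun l _ => by ring]
    refine (abs_add_le _ _).trans ?_
    have h2 : |∑ l ∈ range R, k l * ((A l - B l) * q l)| ≤ δ := by
      refine (abs_sum_le_sum_abs _ _).trans ((sum_le_sum fun l hl => ?_).trans_eq
        (show ∑ _l ∈ range R, 1 / (R : ℝ) * δ = δ by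
          rw [sum_const, card_range, nsmul_eq_mul]; field_simp))
      rw [mem_range] at hl
      rw [abs_mul, abs_mul, show |k l| = 1 / (R : ℝ) from coef_abs hl]
      refine mul_le_mul_of_nonneg_left ?_ (by positivity)
      exact (mul_le_mul (hGam l hl.le) (hq1 l hl.le) (abs_nonneg _) hδ.le).trans_eq (mul_one _)
    linarith [hGam R le_rfl]
  unfold Fval
  show |α * Phi (fun y => exp (fL c L y)) R (lin R) q + Phi cosh R (lin R) (fun l => α * A l) -
      α / 2 * (A R + ∑ l ∈ range R, k l * (A l * q l)) -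
    (α * Phi (fun y => exp (qf c y)) R (lin R) q + Phi cosh R (lin R) (fun l => α * B l) -
      α / 2 * (B R + ∑ l ∈ range R, k l * (B l * q l)))| ≤ ε
  have e1 := abs_le.1 hcosh
  have e2 := abs_le.1 hPhi
  have e3 := abs_le.1 hsum
  rw [abs_le]
  constructor <;> nlinarith [mul_nonneg hα hδ.le]

end Vale.Agent.P166.Par
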