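import Vale.Agent.P166.Par.Slope
import Vale.Agent.P166.Par.QuadFval
import Vale.Agent.P157.Par.Upper
import Vale.Agent.P157.Par.Bridge
import Vale.Agent.P157.Par.Main

/-! The Parisi formula for the quadratic potential `c u²/2`, `|c| ≤ 1/10`, on the cube: the upper bound
from nested concavity, the lower bound from the bounded case. -/

open MeasureTheory Filter Finset
open scoped Topology
open Vale.Agent.P157 (pressure isingUniform)
open Vale.Agent.P157.Par (Fval Prof Sm)
open Vale.Agent.P168.MP (Ok lin)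

namespace Vale.Agent.P166.Par

/-- the values of the functional over trials with exponents `l / R` -/
def quadValues (c α : ℝ) : Set ℝ :=
  {v | ∃ (R : ℕ) (q : ℕ → ℝ), 1 ≤ R ∧ Prof R q 1 ∧ q R = 1 ∧ v = Fval α (qf c) R (lin R) q}

/-- the Parisi value of the quadratic potential -/
noncomputable def quadValue (c α : ℝ) : ℝ := sInf (quadValues c α)

lemma quadValues_nonempty (c α : ℝ) : (quadValues c α).Nonempty :=
  ⟨_, 1, fun _ => 1, le_rfl, ⟨zero_le_one, fun _ _ => le_rfl, le_rfl⟩, rfl, rfl⟩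

variable {c α : ℝ}

lemma quadValues_bddBelow (hc : |c| ≤ 1 / 10) (hα : 0 < α) : BddBelow (quadValues c α) := by
  obtain ⟨L₀, h1, h⟩ := fval_cut hc hα.le one_pos
  have hS := cut_sm c h1
  obtain ⟨b, hb⟩ := Vale.Agent.P157.Par.values_bddBelow hS (fun x => fL_le (by linarith) x) hα.le
  refine ⟨b - 1, ?_⟩
  rintro v ⟨R, q, hR, hq, hqR, rfl⟩
  have := hb (Vale.Agent.P157.Par.fval_mem hS (fun x => fL_le (by linarith) x) hα.le hR hq hqR)
  linarith [(abs_le.1 (h L₀ le_rfl R q hR hq)).2]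

/-- the cut potential has the slope inequality of one pattern -/
lemma cut_slope_pattern {L : ℝ} (hc : |c| ≤ 1 / 10) (hL : 1 ≤ L) (hε : cutErr L ≤ 1) {R : ℕ}
    (hR : 1 ≤ R) (m : ℕ → ℝ) :
    Vale.Agent.P157.Par.Slope (fL c L) (fL1 c L) R m (slopeErr c L) := by
  refine Vale.Agent.P157.Par.slope_of_tangent (Vale.Agent.P157.Par.Sm.sd (cut_sm c hL)) hR
    fun w hw a b ha hb => ?_
  exact cut_slope hc hL hε hR hw a b ha hb

lemma cutErr_tendsto : Tendsto cutErr atTop (𝓝 0) := by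
  have h : Tendsto (fun L : ℝ => 4 * Real.exp (-(2 / 5) * L ^ 2)) atTop (𝓝 (4 * 0)) :=
    (Real.tendsto_exp_atBot.comp
      ((tendsto_pow_atTop two_ne_zero).const_mul_atTop_of_neg (show -(2 / 5 : ℝ) < 0 by norm_num))).const_mul 4
  rw [mul_zero] at h
  exact h

lemma slopeErr_nonneg {L : ℝ} (hL : 1 ≤ L) : 0 ≤ slopeErr c L := by
  have hD : 0 ≤ cutD c L := (abs_nonneg _).trans ((cut_sm c hL).b1 0)
  refine mul_nonneg ?_ (Real.sqrt_nonneg _)
  simp only [semiK]
  positivity

lemma err_tendsto {α K : ℝ} (hα : 0 < α) :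
    Tendsto (fun N : ℕ => K * (√((⌊α * N⌋₊ : ℕ) : ℝ) + 1 + |((⌊α * N⌋₊ : ℕ) : ℝ) - α * N|) / N) atTop (𝓝 0) := by
  have hs : Tendsto (fun N : ℕ => |K| * (√α / √(N : ℝ) + 2 / N)) atTop (𝓝 0) := by
    have h1 : Tendsto (fun N : ℕ => √α / √(N : ℝ)) atTop (𝓝 0) :=
      tendsto_const_nhds.div_atTop (Real.tendsto_sqrt_atTop.comp tendsto_natCast_atTop_atTop)
    simpa using (h1.add (tendsto_const_nhds.div_atTop tendsto_natCast_atTop_atTop)).const_mul |K|
  refine squeeze_zero_norm (fun N => ?_) hs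
  have hN : (0:ℝ) ≤ N := Nat.cast_nonneg N
  have hx : 0 ≤ α * N := mul_nonneg hα.le hN
  have h1 := Nat.floor_le hx
  have h2 := Nat.lt_floor_add_one (α * N)
  have hd : |((⌊α * N⌋₊ : ℕ) : ℝ) - α * N| ≤ 1 := abs_le.2 ⟨by linarith, by linarith⟩
  rw [Real.norm_eq_abs, abs_div, abs_mul, Nat.abs_cast, mul_div_assoc,
    abs_of_nonneg (show (0:ℝ) ≤ √((⌊α * N⌋₊ : ℕ) : ℝ) + 1 + |((⌊α * N⌋₊ : ℕ) : ℝ) - α * N| by positivity)]
  refine mul_le_mul_of_nonneg_left ?_ (abs_nonneg K)
  have e : √α / √(N : ℝ) = √(α * N) / N := by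
    rcases hN.eq_or_lt with h | h
    · simp [← h]
    rw [Real.sqrt_mul hα.le, div_eq_div_iff (Real.sqrt_pos.2 h).ne' h.ne', mul_assoc, Real.mul_self_sqrt h.le]
  rw [e, ← add_div]
  exact div_le_div_of_nonneg_right (by linarith [Real.sqrt_le_sqrt h1]) hN

/-- **upper bound**: the pressure is eventually below the value of every trial -/
theorem quad_upper (hc : |c| ≤ 1 / 10) (hα : 0 < α) {v : ℝ} (hv : v ∈ quadValues c α) {ε : ℝ} (hε : 0 < ε) :
    ∀ᶠ N : ℕ in atTop, pressure (isingUniform N) (qf c) ⌊α * N⌋₊ ≤ v + ε := by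
  obtain ⟨R, q, hR, hq, hqR, rfl⟩ := hv
  obtain ⟨L₀, hL₀, hF⟩ := fval_cut hc hα.le (show 0 < ε / 4 by linarith)
  obtain ⟨L, ⟨⟨hs, he⟩, hL0⟩⟩ := ((((slopeErr_tendsto c).const_mul α).eventually (eventually_lt_nhds
    (show α * 0 < ε / 4 by simpa using by linarith))).and ((cutErr_tendsto.eventually (eventually_lt_nhds
      (show (0:ℝ) < min 1 (ε / (4 * α)) by positivity))))).and (eventually_ge_atTop L₀) |>.exists
  have hL1 : 1 ≤ L := hL₀.trans hL0
  have hS := cut_sm c hL1
  set qe : ℕ → ℝ := fun l => q (min l R)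
  have hmono : Monotone qe := by
    have key : ∀ i j, i ≤ j → j ≤ R → q i ≤ q j := by
      intro i j hij
      induction hij with
      | refl => exact fun _ => le_rfl
      | @step k _ ih => exact fun hk => (ih (by omega)).trans (hq.mono k (by omega))
    exact fun i j hij => key _ _ (min_le_min hij le_rfl) (min_le_right _ _)
  obtain ⟨K, hK⟩ := Vale.Agent.P157.Par.upper_bound_of_slope hS (fun x => fL_le (by linarith) x) hR
    (m := lin R) (q := qe) (fun {Ω} w hw => Vale.Agent.P168.MP.ok_lin hR hw) hmono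
    (by simpa [qe] using hq.zero) (by simpa [qe] using hqR) (slopeErr_nonneg hL1)
    (cut_slope_pattern hc hL1 (he.le.trans (min_le_left _ _)) hR _) hα
  have hF' := (abs_le.1 (hF L hL0 R q hR hq)).2
  obtain ⟨r, rfl⟩ : ∃ r, R = r + 1 := ⟨R - 1, by omega⟩
  have hpos : ∀ l, 1 ≤ l → l ≤ r + 1 → 0 < lin (r + 1) l := fun l h1 h2 => by
    simp only [lin, if_pos h2]; positivity
  have hFq : Fval α (fL c L) (r + 1) (lin (r + 1)) qe = Fval α (fL c L) (r + 1) (lin (r + 1)) q := by
    have htop : lin (r + 1) (r + 1) = 1 := by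
      simp only [lin, le_refl, if_true]; exact div_self (by positivity)
    rw [Vale.Agent.P157.Par.fval_eq hS (fun x => fL_le (by linarith) x) hα.le hpos htop (by simpa [qe] using hqR),
      Vale.Agent.P157.Par.fval_eq hS (fun x => fL_le (by linarith) x) hα.le hpos htop hqR]
    congr 1
    funext l
    simp only [qe]
    congr 1
    exact min_eq_left (by omega)
  filter_upwards [(err_tendsto (K := K) hα).eventually (eventually_lt_nhds (show (0:ℝ) < ε / 4 by linarith)),
    eventually_ge_atTop 1] with N hN hN1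
  have : NeZero N := ⟨by omega⟩
  have h1 := (abs_le.1 (pressure_stab (N := N) hc (show 0 < L by linarith) ⌊α * N⌋₊)).2
  have h2 := hK N ⌊α * N⌋₊ hN1
  have h3 : ((⌊α * N⌋₊ : ℕ) : ℝ) / N * cutErr L ≤ ε / 4 := by
    refine (mul_le_mul ((div_le_iff₀ (by positivity)).2 (Nat.floor_le (by positivity)))
      (he.le.trans (min_le_right _ _)) (cutErr_pos L).le hα.le).trans (le_of_eq ?_)
    field_simp
  linarith

/-- **the Parisi formula** for the quadratic potential -/
theorem quad_formula (hc : |c| ≤ 1 / 10) (hα : 0 < α) :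
    Tendsto (fun N : ℕ => pressure (isingUniform N) (qf c) ⌊α * N⌋₊) atTop (𝓝 (quadValue c α)) := by
  have hne := quadValues_nonempty c α
  have hbd := quadValues_bddBelow hc hα
  rw [Metric.tendsto_nhds]
  intro ε hε
  obtain ⟨v, hv, hvlt⟩ := exists_lt_of_csInf_lt hne (show quadValue c α < quadValue c α + ε / 2 by linarith)
  obtain ⟨L₀, hL₀, hF⟩ := fval_cut hc hα.le (show 0 < ε / 4 by linarith)
  obtain ⟨L, he, hL0⟩ := ((cutErr_tendsto.eventually (eventually_lt_nhds
      (show (0:ℝ) < ε / (4 * α) by positivity))).and (eventually_ge_atTop L₀)).exists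
  have hL1 : 1 ≤ L := hL₀.trans hL0
  filter_upwards [quad_upper hc hα hv (show 0 < ε / 4 by linarith),
    Vale.Agent.P157.Par.lower_bound_lin (cut_sm c hL1) (fun x => fL_le (by linarith) x) hα (ε / 4) (by linarith),
    eventually_ge_atTop 1] with N hup ⟨R, q, hR, hq, hqR, hlo⟩ hN1
  have : NeZero N := ⟨by omega⟩
  have h1 := (abs_le.1 (pressure_stab (N := N) hc (show 0 < L by linarith) ⌊α * N⌋₊)).1
  have h3 : ((⌊α * N⌋₊ : ℕ) : ℝ) / N * cutErr L ≤ ε / 4 := by
    refine (mul_le_mul ((div_le_iff₀ (by positivity)).2 (Nat.floor_le (by positivity)))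
      he.le (cutErr_pos L).le hα.le).trans (le_of_eq ?_)
    field_simp
  have h4 := (abs_le.1 (hF L hL0 R q hR hq)).1
  have h5 : quadValue c α ≤ Fval α (qf c) R (lin R) q := csInf_le hbd ⟨R, q, hR, hq, hqR, rfl⟩
  rw [Real.dist_eq, abs_lt]
  constructor <;> linarith

end Vale.Agent.P166.Par
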