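import Vale.Agent.P166.Par.QuadVal

/-! The cut potential gives, uniformly in the profile, the nested functional and the correlations of
the quadratic potential. The comparison of the two tilted laws uses only that their relative entropy
is a telescoping sum controlled by the mean distance of the potentials. -/

open MeasureTheory ProbabilityTheory Real Finset Filter
open scoped Topology
open Vale.Agent.P157.Par (Vn tl tlN Phi Gamma Ex Prof Adm)

namespace Vale.Agent.P166.Par


/-- exponential of the cut potential -/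
noncomputable def eH (c L y : ℝ) : ℝ := exp (fL c L y)

/-- distance of the cut to the quadratic potential, in logarithmic and in exponential form -/
noncomputable def phf (c L u : ℝ) : ℝ :=
  |fL c L u - qf c u| + |exp (fL c L u - qf c u) - 1|

/-- size of the cut -/
noncomputable def eta (L : ℝ) : ℝ := 3 * exp (-(L ^ 2) / 5)

/-- the weights of the bounds -/
noncomputable def g4 (u : ℝ) : ℝ := exp (1 / 4 * u ^ 2)

/-- the weights of the bounds for products -/
noncomputable def g3 (u : ℝ) : ℝ := exp (3 / 10 * u ^ 2)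

/-- deviation of the log nested mean from the quadratic one -/
noncomputable def psi (c L : ℝ) (R : ℕ) (m q : ℕ → ℝ) (k : ℕ) (y : ℝ) : ℝ :=
  log (Vn (eH c L) R m q k y) - (lA c R m q k + c * y ^ 2 / (2 * bn c R m q k))

variable {c L : ℝ} {R : ℕ} {m q : ℕ → ℝ}

lemma eta_nonneg (L : ℝ) : 0 ≤ eta L := by unfold eta; positivity

lemma qG_g4 : QG g4 :=
  QG.of_le (by unfold g4; fun_prop) (θ := 1 / 4) (C := 1) (by norm_num) fun u => by
    rw [g4, abs_exp, one_mul]

lemma qG_g3 : QG g3 :=
  QG.of_le (by unfold g3; fun_prop) (θ := 3 / 10) (C := 1) (by norm_num) fun u => by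
    rw [g3, abs_exp, one_mul]

lemma qG_bdd {F : ℝ → ℝ} (hc : Continuous F) {B : ℝ} (hb : ∀ u, |F u| ≤ B) : QG F :=
  QG.of_le hc (θ := 0) (C := B) (by norm_num) fun u => by simpa using hb u

/-- out of the window everything is small -/
lemma out_le {u : ℝ} (hL : 0 ≤ L) (hu : ¬|u| ≤ L) {a : ℝ} :
    exp (a * u ^ 2) ≤ exp (-(L ^ 2) / 5) * exp ((a + 1 / 5) * u ^ 2) := by
  rw [← exp_add]
  refine exp_le_exp.2 ?_
  have : L ^ 2 ≤ u ^ 2 := by rw [← sq_abs u]; exact pow_le_pow_left₀ hL (lt_of_not_ge hu).le 2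
  nlinarith

lemma phf_le (hc : |c| ≤ 1 / 10) (hL : 0 < L) (u : ℝ) : phf c L u ≤ eta L * g4 u := by
  by_cases hu : |u| ≤ L
  · rw [phf, fL_eq hL hu]
    simp only [sub_self, abs_zero, exp_zero, add_zero]
    exact mul_nonneg (eta_nonneg L) (exp_pos _).le
  have hd : |fL c L u - qf c u| ≤ 1 / 20 * u ^ 2 := by
    have hq : |qf c u| ≤ 1 / 20 * u ^ 2 := by
      rw [qf, abs_div, abs_mul, abs_two, abs_of_nonneg (sq_nonneg u)]
      nlinarith [mul_le_mul_of_nonneg_right hc (sq_nonneg u)]
    rcases le_total 0 c with h | h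
    · obtain ⟨a, b⟩ := (fL_sign (L := L) hL u).1 h
      rw [abs_le]; exact ⟨by linarith [le_abs_self (qf c u)], by linarith [sq_nonneg u]⟩
    · obtain ⟨a, b⟩ := (fL_sign (L := L) hL u).2 h
      rw [abs_le]; exact ⟨by linarith [sq_nonneg u], by linarith [neg_abs_le (qf c u)]⟩
  set e := exp (1 / 20 * u ^ 2)
  have h1 : 1 ≤ e := one_le_exp (by positivity)
  have h2 : exp (fL c L u - qf c u) ≤ e := exp_le_exp.2 ((le_abs_self _).trans hd)
  have h3 : |exp (fL c L u - qf c u) - 1| ≤ e := by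
    rw [abs_le]; exact ⟨by linarith [exp_pos (fL c L u - qf c u)], by linarith⟩
  have h4 : 1 / 20 * u ^ 2 ≤ e := by linarith [add_one_le_exp (1 / 20 * u ^ 2)]
  have h5 := out_le (a := 1 / 20) hL.le hu
  rw [show (1 / 20 + 1 / 5 : ℝ) = 1 / 4 by norm_num] at h5
  simp only [phf, eta, g4]
  have h6 : (0:ℝ) ≤ exp (-(L ^ 2) / 5) * exp (1 / 4 * u ^ 2) := by positivity
  linarith

lemma deriv_le (hc : |c| ≤ 1 / 10) (hL : 0 < L) (u : ℝ) :
    |fL1 c L u - c * u| ≤ eta L * g4 u := by
  by_cases hu : |u| ≤ L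
  · rw [fL1, kk_eq_one (by
      rw [sub_nonpos, div_le_one (by positivity)]; exact sq_le_sq' (abs_le.1 hu).1 (abs_le.1 hu).2)]
    simp only [mul_one, sub_self, abs_zero]
    exact mul_nonneg (eta_nonneg L) (exp_pos _).le
  have hk := kk_mem (u ^ 2 / L ^ 2 - 1)
  have h1 : |fL1 c L u - c * u| ≤ 1 / 10 * |u| := by
    rw [fL1, show c * u * kk (u ^ 2 / L ^ 2 - 1) - c * u = c * u * (kk (u ^ 2 / L ^ 2 - 1) - 1) by ring,
      abs_mul, abs_mul]
    refine (mul_le_of_le_one_right (by positivity) (abs_le.2 ⟨by linarith, by linarith⟩)).trans ?_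
    exact mul_le_mul_of_nonneg_right hc (abs_nonneg u)
  have h2 : |u| ≤ 5 * exp (1 / 20 * u ^ 2) := by
    nlinarith [add_one_le_exp (1 / 20 * u ^ 2), sq_nonneg (|u| - 2), sq_abs u, abs_nonneg u]
  have h5 := out_le (a := 1 / 20) hL.le hu
  rw [show (1 / 20 + 1 / 5 : ℝ) = 1 / 4 by norm_num] at h5
  simp only [eta, g4]
  have h6 : (0:ℝ) ≤ exp (-(L ^ 2) / 5) * exp (1 / 4 * u ^ 2) := by positivity
  linarith

lemma exp_sq_mean {v a : ℝ} (hv0 : 0 ≤ v) (hv : v ≤ 100 / 81) (_ha0 : 0 ≤ a) (ha : a ≤ 3 / 10) :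
    ∫ w, exp (a * (√v * w) ^ 2) ∂(gaussianReal 0 1) ≤ 2 := by
  simp only [mul_pow, sq_sqrt hv0, ← mul_assoc]
  have h := mul_le_mul ha hv hv0 (by norm_num)
  rw [(Vale.Agent.P150.integral_exp_mul_sq (s := a * v) (by linarith)).2,
    inv_le_comm₀ (sqrt_pos.2 (by linarith)) (by norm_num), le_sqrt (by norm_num) (by linarith)]
  linarith

section
variable (h : Dat c R m q) (hL : 1 ≤ L)
include h

lemma up_step {k : ℕ} (hk : k < R) {F : ℝ → ℝ} (hF : QG F) (y : ℝ) :
    tlN (eQ c) R m q 0 (k + 1) F y = ∫ w, tlN (eQ c) R m q 0 k F (bn c R m q k / bn c R m q (k + 1) * y +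
        √(dn R q k * (bn c R m q k / bn c R m q (k + 1))) * w) ∂(gaussianReal 0 1) ∧
    Integrable (fun w => tlN (eQ c) R m q 0 k F (bn c R m q k / bn c R m q (k + 1) * y +
        √(dn R q k * (bn c R m q k / bn c R m q (k + 1))) * w)) (gaussianReal 0 1) := by
  have hc := compose h (k := 0) (j := k) (by omega) hF y
  simp only [Nat.zero_add] at hc
  constructor
  · simp only [tlN, Nat.zero_add, tl_quad h hk]
  · simp only [tlN_quad h 0 hF k (by omega), Nat.zero_add]
    exact hc.2

lemma root_step {F : ℝ → ℝ} (hF : QG F) :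
    (∫ z, tlN (eQ c) R m q 0 R F (√(q 0) * z) ∂(gaussianReal 0 1) = ∫ w, F (√(tot c R m q 0) * w) ∂(gaussianReal 0 1)) ∧
    Integrable (fun z => tlN (eQ c) R m q 0 R F (√(q 0) * z)) (gaussianReal 0 1) := by
  have hc := compose_root h (Nat.zero_le R) hF
  simp only [Nat.sub_zero] at hc
  simp only [tlN_quad h 0 hF R (by omega), Nat.zero_add]
  exact hc

omit h in
lemma qG_delta (hc : |c| ≤ 1 / 10) (hL : 0 < L) :
    QG (fun u => fL c L u - qf c u) ∧ QG (fun u => exp (fL c L u - qf c u)) ∧ QG (phf c L) := by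
  have := continuous_fL c L
  have := continuous_qf c
  have hb := phf_le (c := c) hc hL
  refine ⟨QG.of_le (by fun_prop) (C := eta L) (θ := 1 / 4) (by norm_num) fun u => ?_,
    QG.of_le (by fun_prop) (C := eta L + 1) (θ := 1 / 4) (by norm_num) fun u => ?_,
    QG.of_le (by unfold phf; fun_prop) (C := eta L) (θ := 1 / 4) (by norm_num) fun u => ?_⟩
  · have := hb u
    simp only [phf, g4] at this
    linarith [abs_nonneg (exp (fL c L u - qf c u) - 1)]
  · have := hb u
    simp only [phf, g4] at this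
    rw [abs_exp, add_mul, one_mul]
    linarith [abs_nonneg (fL c L u - qf c u), le_abs_self (exp (fL c L u - qf c u) - 1),
      one_le_exp (show 0 ≤ 1 / 4 * u ^ 2 by positivity)]
  · rw [abs_of_nonneg (by unfold phf; positivity)]; exact hb u

include hL

omit h in
lemma adm_eH : ∃ a A D, Adm (eH c L) a A D :=
  ⟨_, _, _, Vale.Agent.P157.Par.adm_exp (cut_sm c hL)⟩

lemma psi_bound {k : ℕ} (hk : k ≤ R) :
    Continuous (psi c L R m q k) ∧ ∃ C, 0 ≤ C ∧ ∀ y, |psi c L R m q k y| ≤ C + 1 / 5 * y ^ 2 := by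
  obtain ⟨a, A, D, he⟩ := adm_eH (c := c) hL
  obtain ⟨A', hV⟩ := Vale.Agent.P157.Par.Vn_adm he h.hm q k hk
  have hb := bn_mem h hk
  refine ⟨?_, |log a| + |log A'| + 3 * D ^ 2 + |lA c R m q k|, by positivity, fun y => ?_⟩
  · unfold psi
    exact (hV.cont.log fun y => (hV.a_pos.trans_le (hV.lb y)).ne').sub (by fun_prop)
  have h1 : |c * y ^ 2 / (2 * bn c R m q k)| ≤ 1 / 10 * y ^ 2 := by
    rw [abs_div, abs_mul, abs_of_nonneg (sq_nonneg y), abs_of_pos (show 0 < 2 * bn c R m q k by linarith),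
      div_le_iff₀ (by linarith)]
    nlinarith [mul_le_mul_of_nonneg_right h.hc (sq_nonneg y), sq_nonneg y]
  have h2 : log a ≤ log (Vn (eH c L) R m q k y) := log_le_log hV.a_pos (hV.lb y)
  have h3 : log (Vn (eH c L) R m q k y) ≤ log A' + D * |y| := by
    rw [← log_exp (D * |y|), ← log_mul (zero_lt_one.trans_le hV.A_ge).ne' (exp_pos _).ne']
    exact log_le_log (hV.a_pos.trans_le (hV.lb y)) (hV.ub y)
  have h4 : D * |y| ≤ 3 * D ^ 2 + 1 / 10 * y ^ 2 := by
    nlinarith [sq_nonneg (|y| - 5 * D), sq_abs y, sq_nonneg D]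
  have h5 := abs_le.1 h1
  rw [psi, abs_le]
  constructor <;> linarith [neg_abs_le (log a), le_abs_self (log A'), neg_abs_le (lA c R m q k),
    le_abs_self (lA c R m q k), abs_nonneg (log a), abs_nonneg (log A'), sq_nonneg D, h.hq.zero,
    mul_nonneg hV.D_nonneg (abs_nonneg y)]

lemma psi_qG {k : ℕ} (hk : k ≤ R) {μ : ℝ} (h0 : 0 ≤ μ) (h1 : μ ≤ 1) :
    QG (fun y => exp (μ * psi c L R m q k y)) ∧ QG (psi c L R m q k) := by
  obtain ⟨hc, C, hC, hb⟩ := psi_bound h hL hk
  have key : ∀ y, |psi c L R m q k y| ≤ exp C * exp (1 / 5 * y ^ 2) := fun y => by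
    rw [← exp_add]; linarith [hb y, add_one_le_exp (C + 1 / 5 * y ^ 2)]
  refine ⟨QG.of_le (by fun_prop) (C := exp C) (θ := 1 / 5) (by norm_num) fun y => ?_,
    QG.of_le hc (by norm_num) key⟩
  rw [abs_exp, ← exp_add]
  refine exp_le_exp.2 ((le_abs_self _).trans ?_)
  rw [abs_mul, abs_of_nonneg h0]
  exact (mul_le_of_le_one_left (abs_nonneg _) h1).trans (hb y)

omit h hL in
lemma step_var (h : Dat c R m q) {k : ℕ} (hk : k < R) :
    (√(dn R q k * (bn c R m q k / bn c R m q (k + 1)))) ^ 2 ≤ 100 / 81 := by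
  have hb1 := bn_pos h (k := k + 1) hk
  have hr : bn c R m q k / bn c R m q (k + 1) ≤ 10 / 9 :=
    (div_le_iff₀ hb1).2 (by linarith [bn_ratio h (Nat.le_succ k) hk])
  have hd0 := dn_nonneg h hk
  have hd1 : dn R q k ≤ 1 := by
    have h2 := single_le_sum (f := dn R q) (fun i hi => dn_nonneg h (by rw [mem_range] at hi; omega))
      (mem_range.2 (Nat.lt_succ_self k))
    rw [sum_dn (k + 1) hk] at h2
    linarith [q_nonneg h (l := R - (k + 1)) (by omega), h.hq.top]
  have h0 : 0 ≤ bn c R m q k / bn c R m q (k + 1) := (div_pos (bn_pos h hk.le) hb1).le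
  rw [sq_sqrt (mul_nonneg hd0 h0)]
  exact (mul_le_mul hd1 hr h0 zero_le_one).trans (by norm_num)

lemma psi_step {k : ℕ} (hk : k < R) (G : ℝ → ℝ) (y : ℝ) :
    (∫ w, exp (m (R - k) * psi c L R m q k (bn c R m q k / bn c R m q (k + 1) * y +
        √(dn R q k * (bn c R m q k / bn c R m q (k + 1))) * w)) *
      G (bn c R m q k / bn c R m q (k + 1) * y +
        √(dn R q k * (bn c R m q k / bn c R m q (k + 1))) * w) ∂(gaussianReal 0 1)) =
      exp (m (R - k) * psi c L R m q (k + 1) y) * tl (eH c L) R m q k G y ∧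
    exp (m (R - k) * psi c L R m q (k + 1) y) =
      ∫ w, exp (m (R - k) * psi c L R m q k (bn c R m q k / bn c R m q (k + 1) * y +
        √(dn R q k * (bn c R m q k / bn c R m q (k + 1))) * w)) ∂(gaussianReal 0 1) := by
  obtain ⟨a, A, D, he⟩ := adm_eH (c := c) hL
  obtain ⟨A₁, hV⟩ := Vale.Agent.P157.Par.Vn_adm he h.hm q k hk.le
  obtain ⟨A₂, hV'⟩ := Vale.Agent.P157.Par.Vn_adm he h.hm q (k + 1) hk
  set μ := m (R - k)
  have hμ : 0 < μ := (h.hm.mem hk).1
  have e : ∀ x, exp (lA c R m q k + c * x ^ 2 / (2 * bn c R m q k)) ^ μ *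
      exp (μ * psi c L R m q k x) = Vn (eH c L) R m q k x ^ μ := fun x => by
    rw [← exp_mul, ← exp_add, rpow_def_of_pos (hV.a_pos.trans_le (hV.lb x))]
    congr 1
    simp only [psi]; ring
  set P := exp (lA c R m q (k + 1) + c * y ^ 2 / (2 * bn c R m q (k + 1))) ^ μ with hP
  have hs : ∀ G' : ℝ → ℝ, ∫ w, exp (μ * psi c L R m q k (bn c R m q k / bn c R m q (k + 1) * y +
        √(dn R q k * (bn c R m q k / bn c R m q (k + 1))) * w)) *
      G' (bn c R m q k / bn c R m q (k + 1) * y +
        √(dn R q k * (bn c R m q k / bn c R m q (k + 1))) * w) ∂(gaussianReal 0 1) =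
      (∫ z, Vn (eH c L) R m q k (y + √(dn R q k) * z) ^ μ * G' (y + √(dn R q k) * z) ∂(gaussianReal 0 1)) / P := by
    intro G'
    have h1 := step_eq h hk (fun x => exp (μ * psi c L R m q k x) * G' x) y
    simp only [← mul_assoc, show m (R - k) = μ from rfl, e] at h1
    rw [eq_div_iff (rpow_pos_of_pos (exp_pos _) _).ne', mul_comm, h1]
  have hN : 0 < ∫ z, Vn (eH c L) R m q k (y + √(dn R q k) * z) ^ μ ∂(gaussianReal 0 1) :=
    he.a_pos.trans_le ((hV.rpow hμ.le (h.hm.mem hk).2).int_pos _ _)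
  have h1 : exp (μ * psi c L R m q (k + 1) y) =
      (∫ z, Vn (eH c L) R m q k (y + √(dn R q k) * z) ^ μ ∂(gaussianReal 0 1)) / P := by
    have e1 : Vn (eH c L) R m q (k + 1) y =
        (∫ z, Vn (eH c L) R m q k (y + √(dn R q k) * z) ^ μ ∂(gaussianReal 0 1)) ^ (1 / μ) := rfl
    rw [psi, mul_sub, exp_sub, e1, log_rpow hN, ← mul_assoc, mul_one_div_cancel hμ.ne', one_mul,
      exp_log hN, hP, ← exp_mul, mul_comm μ]
  constructor
  · rw [hs G, h1]
    show _ = _ / P * (_ / ∫ z, Vn (eH c L) R m q k (y + √(dn R q k) * z) ^ μ ∂(gaussianReal 0 1))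
    field_simp
    rfl
  · rw [h1]
    have h2 := hs fun _ => 1
    simp only [mul_one] at h2
    exact h2.symm

/-- the deviation is between two tilted means -/
theorem psi_between : ∀ k, k ≤ R → ∀ y,
    tlN (eQ c) R m q 0 k (fun u => fL c L u - qf c u) y ≤ psi c L R m q k y ∧
    exp (psi c L R m q k y) ≤ tlN (eQ c) R m q 0 k (fun u => exp (fL c L u - qf c u)) y
  | 0, _, y => by
    have e : psi c L R m q 0 y = fL c L y - qf c y := by
      simp [psi, Vn, eH, lA, bn_zero, qf]
    simp [tlN, e]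
  | k + 1, hk, y => by
    obtain ⟨f1, f2, -⟩ := qG_delta (c := c) (L := L) h.hc (by linarith)
    set μ := m (R - k)
    obtain ⟨hμ, hμ1⟩ := h.hm.mem (k := k) (by omega)
    obtain ⟨u1, i1⟩ := up_step h (k := k) (by omega) f1 y
    obtain ⟨u2, i2⟩ := up_step h (k := k) (by omega) f2 y
    set r := bn c R m q k / bn c R m q (k + 1)
    set τ := √(dn R q k * r)
    have hτ : τ ^ 2 ≤ 100 / 81 := step_var h (k := k) (by omega)
    obtain ⟨g1, g2⟩ := psi_qG h hL (k := k) (by omega) hμ.le hμ1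
    have j1 := g1.int (r * y) τ hτ
    have j2 := g2.int (r * y) τ hτ
    have hp := (psi_step h hL (k := k) (by omega) (fun _ => 1) y).2
    rw [u1, u2]
    constructor
    · refine le_of_mul_le_mul_left (exp_le_exp.1 ?_) hμ
      calc exp (μ * ∫ w, tlN (eQ c) R m q 0 k (fun u => fL c L u - qf c u) (r * y + τ * w) ∂(gaussianReal 0 1))
          ≤ exp (∫ w, μ * psi c L R m q k (r * y + τ * w) ∂(gaussianReal 0 1)) := by
            rw [integral_const_mul]
            exact exp_le_exp.2 (mul_le_mul_of_nonneg_left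
              (integral_mono i1 j2 fun w => (psi_between k (by omega) _).1) hμ.le)
        _ ≤ ∫ w, exp (μ * psi c L R m q k (r * y + τ * w)) ∂(gaussianReal 0 1) :=
            convexOn_exp.map_integral_le continuous_exp.continuousOn isClosed_univ
              (.of_forall fun _ => Set.mem_univ _) (j2.const_mul μ) j1
        _ = _ := hp.symm
    · set I := ∫ w, tlN (eQ c) R m q 0 k (fun u => exp (fL c L u - qf c u)) (r * y + τ * w) ∂(gaussianReal 0 1)
      have k1 := (psi_qG h hL (k := k) (by omega) zero_le_one le_rfl).1.int (r * y) τ hτ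
      simp only [one_mul] at k1
      set J := ∫ w, exp (psi c L R m q k (r * y + τ * w)) ∂(gaussianReal 0 1)
      have hJ : J ≤ I := integral_mono k1 i2 fun w => (psi_between k (by omega) _).2
      have hJ0 : 0 < J := integral_exp_pos k1
      refine le_trans ?_ hJ
      rw [← exp_log hJ0]
      refine exp_le_exp.2 (le_of_mul_le_mul_left (exp_le_exp.1 ?_) hμ)
      rw [hp]
      have hpt : ∀ w, exp (μ * psi c L R m q k (r * y + τ * w)) ≤ exp (μ * log J) *
          (μ * (exp (psi c L R m q k (r * y + τ * w)) / J) + (1 - μ)) := fun w => by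
        set x := psi c L R m q k (r * y + τ * w)
        have hx := convexOn_exp.2 (Set.mem_univ (x - log J)) (Set.mem_univ (0:ℝ)) hμ.le
          (show 0 ≤ 1 - μ by linarith) (by ring)
        simp only [smul_eq_mul, mul_zero, add_zero, exp_zero, mul_one] at hx
        rw [show μ * x = μ * log J + μ * (x - log J) by ring, exp_add]
        refine mul_le_mul_of_nonneg_left (hx.trans (le_of_eq ?_)) (exp_pos _).le
        rw [exp_sub, exp_log hJ0]
      have i3 : Integrable (fun w => exp (μ * log J) *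
          (μ * (exp (psi c L R m q k (r * y + τ * w)) / J) + (1 - μ))) (gaussianReal 0 1) :=
        (((k1.div_const J).const_mul μ).add (integrable_const _)).const_mul _
      refine (integral_mono j1 i3 hpt).trans (le_of_eq ?_)
      rw [integral_const_mul, integral_add ((k1.div_const J).const_mul μ) (integrable_const _),
        integral_const_mul, integral_div, div_self hJ0.ne']
      simp [μ]

lemma psi_abs {k : ℕ} (hk : k ≤ R) (y : ℝ) :
    |psi c L R m q k y| ≤ eta L * tlN (eQ c) R m q 0 k g4 y := by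
  obtain ⟨f1, f2, f3⟩ := qG_delta (c := c) (L := L) h.hc (by linarith)
  obtain ⟨b1, b2⟩ := psi_between h hL k hk y
  rw [tlN_quad h 0 f1 k (by omega)] at b1
  rw [tlN_quad h 0 f2 k (by omega)] at b2
  rw [tlN_quad h 0 qG_g4 k (by omega), ← integral_const_mul]
  set p := bn c R m q 0 / bn c R m q (0 + k) * y
  set σ := √(Sv c R m q 0 k)
  have hσ : σ ^ 2 ≤ 100 / 81 := by
    simp only [σ]; rw [sq_sqrt (Sv_nonneg h 0 k (by omega))]; exact Sv_le' h 0 k (by omega)
  have i3 := f3.int p σ hσ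
  have i4 := (qG_g4.int p σ hσ).const_mul (eta L)
  refine le_trans ?_ (integral_mono i3 i4 fun w => phf_le h.hc (by linarith) _)
  rw [abs_le]
  constructor
  · refine le_trans ?_ b1
    rw [← integral_neg]
    refine integral_mono i3.neg (f1.int p σ hσ) fun w => ?_
    simp only [phf]
    linarith [neg_abs_le (fL c L (p + σ * w) - qf c (p + σ * w)),
      abs_nonneg (exp (fL c L (p + σ * w) - qf c (p + σ * w)) - 1)]
  · have h1 : psi c L R m q k y ≤ exp (psi c L R m q k y) - 1 := by
      linarith [add_one_le_exp (psi c L R m q k y)]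
    refine h1.trans (le_trans (sub_le_sub_right b2 1) ?_)
    have e : (∫ w, exp (fL c L (p + σ * w) - qf c (p + σ * w)) ∂(gaussianReal 0 1)) - 1 =
        ∫ w, (exp (fL c L (p + σ * w) - qf c (p + σ * w)) - 1) ∂(gaussianReal 0 1) := by
      rw [integral_sub (f2.int p σ hσ) (integrable_const _)]; simp
    rw [e]
    refine integral_mono ((f2.int p σ hσ).sub (integrable_const _)) i3 fun w => ?_
    simp only [phf]
    linarith [le_abs_self (exp (fL c L (p + σ * w) - qf c (p + σ * w)) - 1),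
      abs_nonneg (fL c L (p + σ * w) - qf c (p + σ * w))]

omit h hL in
lemma tl_affine {e : ℝ → ℝ} {a A D : ℝ} (he : Adm e a A D) (hm : Ex R m) {k : ℕ} (hk : k < R)
    {F : ℝ → ℝ} (hc : Continuous F) {B : ℝ} (hb : ∀ y, |F y| ≤ B) (u v : ℝ) (y : ℝ) :
    tl e R m q k (fun x => u + v * F x) y = u + v * tl e R m q k F y := by
  obtain ⟨A', hV⟩ := Vale.Agent.P157.Par.Vn_adm he hm q k hk.le
  have hV := hV.rpow (hm.mem hk).1.le (hm.mem hk).2
  set s := √(q (R - k) - q (R - (k + 1)))
  have i1 := hV.eg.int s y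
  have i2 := (hV.eg.mul_bdd hc hb).int s y
  have hpos : (∫ z, Vn e R m q k (y + s * z) ^ m (R - k) ∂(gaussianReal 0 1)) ≠ 0 :=
    (hV.a_pos.trans_le (hV.int_pos s y)).ne'
  show (∫ z, Vn e R m q k (y + s * z) ^ m (R - k) * (u + v * F (y + s * z)) ∂(gaussianReal 0 1)) / _ = _
  have e1 : ∀ z, Vn e R m q k (y + s * z) ^ m (R - k) * (u + v * F (y + s * z)) =
      u * Vn e R m q k (y + s * z) ^ m (R - k) +
        v * (Vn e R m q k (y + s * z) ^ m (R - k) * F (y + s * z)) := fun z => by ring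
  simp only [e1]
  rw [integral_add (i1.const_mul u) (i2.const_mul v), integral_const_mul, integral_const_mul, add_div,
    mul_div_cancel_right₀ _ hpos, mul_div_assoc]
  rfl

omit h hL in
/-- affine domination passes through the tilted steps -/
lemma tlN_affine_le {e : ℝ → ℝ} {a A D : ℝ} (he : Adm e a A D) (hm : Ex R m) (k : ℕ)
    {F G : ℝ → ℝ} (hF : Continuous F) (hG : Continuous G) {B B' : ℝ} (hb : ∀ y, |F y| ≤ B)
    (hb' : ∀ y, |G y| ≤ B') (u v : ℝ) (hle : ∀ y, G y ≤ u + v * F y) : ∀ j, k + j ≤ R → ∀ y,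
      tlN e R m q k j G y ≤ u + v * tlN e R m q k j F y
  | 0, _, y => hle y
  | j + 1, hj, y => by
    obtain ⟨cF, bF⟩ := Vale.Agent.P157.Par.tlN_prop he hm q k hF hb j (by omega)
    obtain ⟨cG, bG⟩ := Vale.Agent.P157.Par.tlN_prop he hm q k hG hb' j (by omega)
    simp only [tlN]
    rw [← tl_affine (q := q) he hm (show k + j < R by omega) cF bF u v y]
    obtain ⟨A', hV⟩ := Vale.Agent.P157.Par.Vn_adm he hm q (k + j) (by omega)
    have hV := hV.rpow (hm.mem (k := k + j) (by omega)).1.le (hm.mem (k := k + j) (by omega)).2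
    set s := √(q (R - (k + j)) - q (R - (k + j + 1)))
    refine div_le_div_of_nonneg_right (integral_mono ((hV.eg.mul_bdd cG bG).int s y)
      (((hV.eg.mul_bdd (k := fun x => u + v * tlN e R m q k j F x) (by fun_prop)
        (C := |u| + |v| * B) fun x => (abs_add_le _ _).trans ?_)).int s y) fun z => ?_)
      (hV.a_pos.le.trans (hV.int_pos s y))
    · rw [abs_mul]; exact add_le_add le_rfl (mul_le_mul_of_nonneg_left (bF x) (abs_nonneg v))
    · exact mul_le_mul_of_nonneg_left (tlN_affine_le he hm k hF hG hb hb' u v hle j (by omega) _)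
        (hV.a_pos.le.trans (hV.lb _))

omit h hL in
/-- the exponent above the level `R - (k + j)` -/
noncomputable def nu (R : ℕ) (m : ℕ → ℝ) (k : ℕ) : ℕ → ℝ
  | 0 => 1
  | j + 1 => m (R - (k + j))

omit hL in
lemma nu_mem (k j : ℕ) (hj : k + j ≤ R) : 0 ≤ nu R m k j ∧ nu R m k j ≤ 1 ∧
    (k + j < R → m (R - (k + j)) ≤ nu R m k j) := by
  rcases j with _ | j
  · exact ⟨zero_le_one, le_rfl, fun hlt => (h.hm.mem (k := k) (by omega)).2⟩
  · refine ⟨(h.hm.mem (k := k + j) (by omega)).1.le, (h.hm.mem (k := k + j) (by omega)).2, fun hlt => ?_⟩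
    have := h.hm.mono (R - (k + (j + 1))) (by omega) (by omega)
    rwa [show R - (k + (j + 1)) + 1 = R - (k + j) by omega] at this

/-- **the variational bound**: the entropy of the quadratic law against the cut law telescopes -/
theorem dv_bound (k : ℕ) {F : ℝ → ℝ} (hF : Continuous F) {B : ℝ} (hb : ∀ u, |F u| ≤ B) (t : ℝ) :
    ∀ j, k + j ≤ R → ∀ y, t * tlN (eQ c) R m q k j F y ≤
      log (tlN (eH c L) R m q k j (fun u => exp (t * F u)) y) +
        nu R m k j * psi c L R m q (k + j) y +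
        (2 - nu R m k j) * (eta L * tlN (eQ c) R m q 0 (k + j) g4 y)
  | 0, hj, y => by
    simp only [tlN, log_exp, nu, Nat.add_zero]
    linarith [(abs_le.1 (psi_abs h hL (k := k) (by omega) y)).1]
  | j + 1, hj, y => by
    have hlt : k + j < R := by omega
    obtain ⟨a, A, D, he⟩ := adm_eH (c := c) hL
    set μ := m (R - (k + j))
    obtain ⟨hμ, hμ1⟩ := h.hm.mem hlt
    obtain ⟨hn0, hn1, hn2⟩ := nu_mem h k j (by omega)
    have hn := hn2 hlt
    have hB : 0 ≤ B := (abs_nonneg _).trans (hb 0)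
    set E := fun u => exp (t * F u)
    have hEc : Continuous E := by fun_prop
    have hEb : ∀ u, exp (-(|t| * B)) ≤ E u ∧ E u ≤ exp (|t| * B) := fun u => by
      have := abs_le.1 ((abs_mul t (F u)).trans_le (mul_le_mul_of_nonneg_left (hb u) (abs_nonneg t)))
      exact ⟨exp_le_exp.2 (by linarith [this.1]), exp_le_exp.2 this.2⟩
    have hEa : ∀ u, |E u| ≤ exp (|t| * B) := fun u => by rw [abs_exp]; exact (hEb u).2
    set Z := tlN (eH c L) R m q k j E
    obtain ⟨hZc, hZa⟩ := Vale.Agent.P157.Par.tlN_prop he h.hm q k hEc hEa j (by omega)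
    have hZlo : ∀ x, exp (-(|t| * B)) ≤ Z x := fun x => by
      have := tlN_affine_le (q := q) he h.hm k hEc (G := fun _ => exp (-(|t| * B))) (by fun_prop) hEa
        (B' := exp (-(|t| * B))) (fun _ => (abs_exp _).le) 0 1
        (fun u => by linarith [(hEb u).1]) j (by omega) x
      rw [zero_add, one_mul] at this
      refine le_trans (le_of_eq ?_) this
      have hconst : ∀ i, k + i ≤ R → ∀ z, tlN (eH c L) R m q k i (fun _ => exp (-(|t| * B))) z =
          exp (-(|t| * B)) := by
        intro i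
        induction i with
        | zero => intro _ z; rfl
        | succ i ih =>
          intro hi z
          simp only [tlN]
          rw [show tlN (eH c L) R m q k i (fun _ => exp (-(|t| * B))) =
            fun _ => exp (-(|t| * B)) + 0 * 0 from funext fun x => by rw [ih (by omega) x]; simp]
          rw [tl_affine (F := fun _ => (0:ℝ)) he h.hm (by omega) continuous_const (B := 0) (by simp)]
          simp
      exact (hconst j (by omega) x).symm
    have hZ0 : ∀ x, 0 < Z x := fun x => (exp_pos _).trans_le (hZlo x)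
    have hlogb : ∀ x, |log (Z x)| ≤ |t| * B := fun x => by
      rw [abs_le]
      exact ⟨(le_log_iff_exp_le (hZ0 x)).2 (hZlo x),
        (log_le_iff_le_exp (hZ0 x)).2 ((le_abs_self _).trans (hZa x))⟩
    set r := bn c R m q (k + j) / bn c R m q (k + j + 1)
    set τ := √(dn R q (k + j) * r)
    have hτ : τ ^ 2 ≤ 100 / 81 := step_var h hlt
    set P := fun w => r * y + τ * w
    obtain ⟨g1, g2⟩ := psi_qG h hL (k := k + j) hlt.le hμ.le hμ1
    have j1 : Integrable (fun w => exp (μ * psi c L R m q (k + j) (P w))) (gaussianReal 0 1) := g1.int (r * y) τ hτ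
    have j2 : Integrable (fun w => psi c L R m q (k + j) (P w)) (gaussianReal 0 1) := g2.int (r * y) τ hτ
    have hPc : Continuous P := by fun_prop
    have j3 : Integrable (fun w => log (Z (P w))) (gaussianReal 0 1) :=
      Integrable.of_bound ((hZc.comp hPc).log fun w => (hZ0 _).ne').aestronglyMeasurable (|t| * B)
        (.of_forall fun w => hlogb _)
    have j4 : Integrable (fun w => exp (μ * psi c L R m q (k + j) (P w)) * Z (P w)) (gaussianReal 0 1) :=
      j1.mul_bdd (c := exp (|t| * B)) (hZc.comp hPc).aestronglyMeasurable (.of_forall fun w => hZa _)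
    have hM : QG F := qG_bdd hF hb
    have j5 : Integrable (fun w => tlN (eQ c) R m q k j F (P w)) (gaussianReal 0 1) := by
      simp only [tlN_quad h k hM j (by omega)]
      exact (compose h (k := k) (j := j) hlt hM y).2
    obtain ⟨u4, j6⟩ := up_step h hlt qG_g4 y
    obtain ⟨p1, p2⟩ := psi_step h hL hlt Z y
    have j7 : Integrable (fun w => μ * psi c L R m q (k + j) (P w) + log (Z (P w))) (gaussianReal 0 1) :=
      (j2.const_mul μ).add j3
    have low : ∀ w, t * tlN (eQ c) R m q k j F (P w) -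
        (2 - μ) * (eta L * tlN (eQ c) R m q 0 (k + j) g4 (P w)) ≤
          μ * psi c L R m q (k + j) (P w) + log (Z (P w)) := fun w => by
      have ih := dv_bound k hF hb t j (by omega) (P w)
      have hψ := (abs_le.1 (psi_abs h hL (k := k + j) hlt.le (P w))).2
      nlinarith [mul_le_mul_of_nonneg_left hψ (sub_nonneg.2 hn)]
    have jens : ∫ w, (μ * psi c L R m q (k + j) (P w) + log (Z (P w))) ∂(gaussianReal 0 1) ≤
        log (∫ w, exp (μ * psi c L R m q (k + j) (P w)) * Z (P w) ∂(gaussianReal 0 1)) := by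
      have hee : ∀ w, exp (μ * psi c L R m q (k + j) (P w) + log (Z (P w))) =
          exp (μ * psi c L R m q (k + j) (P w)) * Z (P w) := fun w => by rw [exp_add, exp_log (hZ0 _)]
      have hpos : 0 < ∫ w, exp (μ * psi c L R m q (k + j) (P w)) * Z (P w) ∂(gaussianReal 0 1) := by
        simp only [← hee]; exact integral_exp_pos (by simp only [hee]; exact j4)
      rw [le_log_iff_exp_le hpos]
      simp only [← hee]
      exact convexOn_exp.map_integral_le continuous_exp.continuousOn isClosed_univ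
        (.of_forall fun _ => Set.mem_univ _) j7 (by simp only [Function.comp_def, hee]; exact j4)
    have jl : Integrable (fun w => t * tlN (eQ c) R m q k j F (P w) -
        (2 - μ) * (eta L * tlN (eQ c) R m q 0 (k + j) g4 (P w))) (gaussianReal 0 1) :=
      (j5.const_mul t).sub ((j6.const_mul (eta L)).const_mul (2 - μ))
    have key := (integral_mono jl j7 low).trans jens
    rw [integral_sub (j5.const_mul t) ((j6.const_mul (eta L)).const_mul (2 - μ))] at key
    simp only [integral_const_mul] at key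
    have e : log (∫ w, exp (μ * psi c L R m q (k + j) (P w)) * Z (P w) ∂(gaussianReal 0 1)) =
        μ * psi c L R m q (k + j + 1) y + log (tlN (eH c L) R m q k (j + 1) E y) := by
      have hZ1 : 0 < tl (eH c L) R m q (k + j) Z y := by
        obtain ⟨A', hV⟩ := Vale.Agent.P157.Par.Vn_adm he h.hm q (k + j) hlt.le
        have hV := hV.rpow hμ.le hμ1
        have := tlN_affine_le (q := q) he h.hm (k + j) hZc (G := fun _ => exp (-(|t| * B)))
          (by fun_prop) hZa (B' := exp (-(|t| * B))) (fun _ => (abs_exp _).le) 0 1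
          (fun u => by linarith [hZlo u]) 1 (by omega) y
        rw [zero_add, one_mul] at this
        simp only [tlN, Nat.add_zero] at this
        have hcst := tl_affine (q := q) (F := fun _ => (0:ℝ)) he h.hm hlt continuous_const (B := 0)
          (by simp) (exp (-(|t| * B))) 0 y
        simp only [zero_mul, add_zero] at hcst
        rw [hcst] at this
        exact (exp_pos _).trans_le this
      rw [p1, log_mul (exp_pos _).ne' hZ1.ne', log_exp]
      rfl
    rw [e] at key
    have e2 : tlN (eQ c) R m q k (j + 1) F y = ∫ w, tlN (eQ c) R m q k j F (P w) ∂(gaussianReal 0 1) :=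
      tl_quad h hlt _ y
    rw [show k + (j + 1) = k + j + 1 from rfl, u4, e2]
    show _ ≤ _ + μ * _ + (2 - μ) * _
    linarith

/-- the two tilted means of a bounded function -/
theorem dist_le (k : ℕ) {F : ℝ → ℝ} (hF : Continuous F) {B : ℝ} (hb : ∀ u, |F u| ≤ B) {t : ℝ}
    (ht : 0 < t) (htB : t * B ≤ 1) {j : ℕ} (hj : k + j ≤ R) (y : ℝ) :
    |tlN (eQ c) R m q k j F y - tlN (eH c L) R m q k j F y| ≤
      t * B ^ 2 + 2 * (eta L * tlN (eQ c) R m q 0 (k + j) g4 y) / t := by
  obtain ⟨a, A, D, he⟩ := adm_eH (c := c) hL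
  have hB : 0 ≤ B := (abs_nonneg _).trans (hb 0)
  set T := eta L * tlN (eQ c) R m q 0 (k + j) g4 y
  have one : ∀ s : ℝ, |s| = t → s * (tlN (eQ c) R m q k j F y - tlN (eH c L) R m q k j F y) ≤
      t ^ 2 * B ^ 2 + 2 * T := by
    intro s hs
    have h1 := dv_bound h hL k hF hb s j hj y
    have hψ := (abs_le.1 (psi_abs h hL (k := k + j) hj y)).2
    obtain ⟨n0, -, -⟩ := nu_mem h k j hj
    have h2 : log (tlN (eH c L) R m q k j (fun u => exp (s * F u)) y) ≤
        s * tlN (eH c L) R m q k j F y + t ^ 2 * B ^ 2 := by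
      have hx : ∀ u, |s * F u| ≤ t * B := fun u => by
        rw [abs_mul, hs]; exact mul_le_mul_of_nonneg_left (hb u) ht.le
      have hpt : ∀ u, exp (s * F u) ≤ (1 + t ^ 2 * B ^ 2) + s * F u := fun u => by
        have h3 := abs_le.1 (abs_exp_sub_one_sub_id_le ((hx u).trans htB))
        have h4 : (s * F u) ^ 2 ≤ (t * B) ^ 2 := by
          rw [← sq_abs (s * F u)]; exact pow_le_pow_left₀ (abs_nonneg _) (hx u) 2
        nlinarith [h3.2]
      have hexp : ∀ u, |exp (s * F u)| ≤ exp (t * B) := fun u => by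
        rw [abs_exp]; exact exp_le_exp.2 ((le_abs_self _).trans (hx u))
      have h5 := tlN_affine_le (q := q) he h.hm k hF (G := fun u => exp (s * F u)) (by fun_prop) hb hexp
        _ s hpt j hj y
      rcases le_or_gt (tlN (eH c L) R m q k j (fun u => exp (s * F u)) y) 0 with h6 | h6
      · exfalso
        have h7 := tlN_affine_le (q := q) he h.hm k (F := fun u => exp (s * F u)) (G := fun _ => exp (-(t * B)))
          (by fun_prop) (by fun_prop) hexp (B' := exp (-(t * B))) (fun _ => (abs_exp _).le) 0 1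
          (fun u => by
            rw [zero_add, one_mul]; exact exp_le_exp.2 (by linarith [(abs_le.1 (hx u)).1])) j hj y
        rw [zero_add, one_mul] at h7
        have hconst : ∀ i, k + i ≤ R → ∀ z, tlN (eH c L) R m q k i (fun _ => exp (-(t * B))) z =
            exp (-(t * B)) := by
          intro i
          induction i with
          | zero => intro _ z; rfl
          | succ i ih =>
            intro hi z
            simp only [tlN]
            rw [show tlN (eH c L) R m q k i (fun _ => exp (-(t * B))) =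
              fun _ => exp (-(t * B)) + 0 * 0 from funext fun x => by rw [ih (by omega) x]; simp]
            rw [tl_affine (F := fun _ => (0:ℝ)) he h.hm (by omega) continuous_const (B := 0) (by simp)]
            simp
        rw [hconst j hj y] at h7
        linarith [exp_pos (-(t * B))]
      linarith [log_le_sub_one_of_pos h6]
    have := mul_le_mul_of_nonneg_left hψ n0
    simp only [T]
    nlinarith
  have a1 := one t (abs_of_pos ht)
  have a2 := one (-t) (by rw [abs_neg, abs_of_pos ht])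
  rw [← mul_le_mul_iff_of_pos_left ht, ← abs_of_pos ht, ← abs_mul, abs_of_pos ht,
    mul_add, mul_div_cancel₀ _ ht.ne', abs_le]
  constructor <;> nlinarith

/-- **the nested functional of the cut** -/
theorem phi_dist : |Phi (eH c L) R m q - Phi (eQ c) R m q| ≤ 2 * eta L := by
  obtain ⟨-, g2⟩ := psi_qG h hL le_rfl zero_le_one (le_refl (1:ℝ))
  have hs : (√(q 0)) ^ 2 ≤ 100 / 81 := by
    rw [sq_sqrt h.hq.zero]; linarith [q_nonneg h (l := 0) (by omega), (Vale.Agent.P157.Par.Prof.bd h.hq (l := 0) (by omega)).2]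
  have i1 : Integrable (fun z => psi c L R m q R (√(q 0) * z)) (gaussianReal 0 1) := by
    simpa using g2.int 0 (√(q 0)) hs
  have i2 : Integrable (fun z : ℝ => lA c R m q R + c * (√(q 0) * z) ^ 2 / (2 * bn c R m q R)) (gaussianReal 0 1) := by
    exact (integrable_const _).add ((integrable_sq.const_mul (c * q 0 / (2 * bn c R m q R))).congr
      (.of_forall fun z => by simp only [mul_pow, sq_sqrt h.hq.zero]; ring))
  have e : ∀ z, log (Vn (eH c L) R m q R (√(q 0) * z)) =
      psi c L R m q R (√(q 0) * z) + (lA c R m q R + c * (√(q 0) * z) ^ 2 / (2 * bn c R m q R)) :=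
    fun z => by simp only [psi]; ring
  have e' : ∀ z, log (Vn (eQ c) R m q R (√(q 0) * z)) =
      lA c R m q R + c * (√(q 0) * z) ^ 2 / (2 * bn c R m q R) :=
    fun z => by rw [Vn_quad h R le_rfl, log_exp]
  simp only [Phi, e, e']
  rw [integral_add i1 i2, add_sub_cancel_right]
  obtain ⟨r1, r2⟩ := root_step h qG_g4
  refine (abs_integral_le_integral_abs.trans (integral_mono i1.abs (r2.const_mul (eta L))
    fun z => psi_abs h hL le_rfl _)).trans ?_
  rw [integral_const_mul, r1, mul_comm 2]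
  refine mul_le_mul_of_nonneg_left ?_ (eta_nonneg L)
  exact exp_sq_mean (tot_mem h (Nat.zero_le R)).1 (tot_mem h (Nat.zero_le R)).2 (by norm_num) (by norm_num)

/-- **the correlations of the cut** -/
theorem gamma_dist {t : ℝ} (ht : 0 < t) (htD : t * cutD c L ≤ 1) (htD2 : t * cutD c L ^ 2 ≤ 1)
    {l : ℕ} (hl : l ≤ R) :
    |Gamma (eH c L) (fL1 c L) R m q l - Gamma (eQ c) (fun u => c * u) R m q l| ≤
      t * cutD c L ^ 4 + 4 * eta L / t + 2 * t * cutD c L ^ 2 * (cutD c L + 5) +
        4 * (2 / t + 1) * eta L * (cutD c L + 5) := by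
  obtain ⟨a, A, D', he⟩ := adm_eH (c := c) hL
  have hS := cut_sm c hL
  set D := cutD c L
  have hD : 0 ≤ D := (abs_nonneg _).trans (hS.b1 0)
  set k := R - l
  have hk : k + l = R := by omega
  have hf1 : Continuous (fL1 c L) := continuous_iff_continuousAt.2 fun x => (hS.d1 x).continuousAt
  set Mh := tlN (eH c L) R m q 0 k (fL1 c L)
  obtain ⟨hMc, hMb⟩ := Vale.Agent.P157.Par.tlN_prop he h.hm q 0 hf1 hS.b1 k (by omega)
  have hMc2 : Continuous fun y => Mh y ^ 2 := hMc.pow 2
  have hMb2 : ∀ y, |Mh y ^ 2| ≤ D ^ 2 := fun y => by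
    rw [abs_pow]; exact pow_le_pow_left₀ (abs_nonneg _) (hMb y) 2
  set a' := c / bn c R m q k
  have ha' : |a'| ≤ 1 := by
    have := (bn_mem h (k := k) (by omega)).1
    rw [abs_div, abs_of_pos (bn_pos h (k := k) (by omega)), div_le_one (bn_pos h (k := k) (by omega))]
    linarith [h.hc]
  set Q2 := fun y => (a' * y) ^ 2
  have hQ : QG Q2 := by
    refine ⟨by fun_prop, 3, fun u => ?_⟩
    simp only [Q2]
    rw [abs_of_nonneg (sq_nonneg _), mul_pow]
    have : a' ^ 2 ≤ 1 := by rw [← sq_abs]; exact pow_le_one₀ (abs_nonneg _) ha'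
    nlinarith [add_one_le_exp (3 / 8 * u ^ 2), mul_le_of_le_one_left (sq_nonneg u) this]
  have hH : QG fun y => Mh y ^ 2 := qG_bdd hMc2 hMb2
  -- pointwise distance of the two conditional means
  have hpt : ∀ y, |Mh y ^ 2 - Q2 y| ≤ t * D ^ 2 * (D + 5) * g3 y +
      (2 / t + 1) * eta L * (D + 5) * (tlN (eQ c) R m q 0 k g3 y + g3 y) := by
    intro y
    have d1 := dist_le h hL 0 hf1 hS.b1 ht htD (j := k) (by omega) y
    simp only [Nat.zero_add] at d1
    have hlin : QG fun u => fL1 c L u - c * u :=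
      QG.of_le (hf1.sub (by fun_prop)) (θ := 1 / 4) (C := eta L) (by norm_num)
        fun u => deriv_le h.hc (by linarith) u
    set p := bn c R m q 0 / bn c R m q (0 + k) * y
    set σ := √(Sv c R m q 0 k)
    have hσ : σ ^ 2 ≤ 100 / 81 := by
      simp only [σ]; rw [sq_sqrt (Sv_nonneg h 0 k (by omega))]; exact Sv_le' h 0 k (by omega)
    have d2 : |tlN (eQ c) R m q 0 k (fL1 c L) y - a' * y| ≤ eta L * tlN (eQ c) R m q 0 k g4 y := by
      rw [← mean_quad h (k := k) (by omega) y, tlN_quad h 0 (qG_bdd hf1 hS.b1) k (by omega),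
        tlN_quad h 0 (qG_lin c) k (by omega), tlN_quad h 0 qG_g4 k (by omega),
        ← integral_sub ((qG_bdd hf1 hS.b1).int p σ hσ) ((qG_lin c).int p σ hσ), ← integral_const_mul]
      exact abs_integral_le_integral_abs.trans (integral_mono (hlin.int p σ hσ).abs
        ((qG_g4.int p σ hσ).const_mul _) fun w => deriv_le h.hc (by linarith) _)
    have d3 : |Mh y - a' * y| ≤ t * D ^ 2 + (2 / t + 1) * eta L * tlN (eQ c) R m q 0 k g4 y := by
      rw [abs_sub_comm] at d1
      have := abs_sub_le (Mh y) (tlN (eQ c) R m q 0 k (fL1 c L) y) (a' * y)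
      have e : 2 * (eta L * tlN (eQ c) R m q 0 k g4 y) / t =
          2 / t * eta L * tlN (eQ c) R m q 0 k g4 y := by ring
      linarith
    have d4 : |Mh y + a' * y| ≤ (D + 5) * exp (1 / 20 * y ^ 2) := by
      have h1 := one_le_exp (show 0 ≤ 1 / 20 * y ^ 2 by positivity)
      have h2 : |y| ≤ 5 * exp (1 / 20 * y ^ 2) := by
        nlinarith [add_one_le_exp (1 / 20 * y ^ 2), sq_nonneg (|y| - 2), sq_abs y, abs_nonneg y]
      have h3 : |a' * y| ≤ |y| := by rw [abs_mul]; exact mul_le_of_le_one_left (abs_nonneg _) ha'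
      calc |Mh y + a' * y| ≤ |Mh y| + |a' * y| := abs_add_le _ _
        _ ≤ D * exp (1 / 20 * y ^ 2) + 5 * exp (1 / 20 * y ^ 2) := by nlinarith [hMb y]
        _ = _ := by ring
    have d5 : exp (1 / 20 * y ^ 2) * tlN (eQ c) R m q 0 k g4 y ≤ tlN (eQ c) R m q 0 k g3 y + g3 y := by
      rw [tlN_quad h 0 qG_g4 k (by omega), tlN_quad h 0 qG_g3 k (by omega), ← integral_const_mul]
      have i4 := (qG_g4.int p σ hσ).const_mul (exp (1 / 20 * y ^ 2))
      refine (integral_mono i4 ((qG_g3.int p σ hσ).add (integrable_const (g3 y))) fun w => ?_).trans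
        (le_of_eq ?_)
      · simp only [g4, g3, Pi.add_apply, ← exp_add]
        rcases le_total ((p + σ * w) ^ 2) (y ^ 2) with hh | hh
        · refine le_add_of_nonneg_of_le (exp_pos _).le (exp_le_exp.2 ?_); linarith
        · refine le_add_of_le_of_nonneg (exp_le_exp.2 ?_) (exp_pos _).le; linarith
      · rw [integral_add' (qG_g3.int p σ hσ) (integrable_const _)]; simp [p, σ]
    have h0 : 0 ≤ tlN (eQ c) R m q 0 k g4 y := by
      rw [tlN_quad h 0 qG_g4 k (by omega)]; exact integral_nonneg fun w => (exp_pos _).le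
    have h20 : exp (1 / 20 * y ^ 2) ≤ g3 y := exp_le_exp.2 (by nlinarith [sq_nonneg y])
    have hc1 : 0 ≤ (2 / t + 1) * eta L * (D + 5) := by have := eta_nonneg L; positivity
    calc |Mh y ^ 2 - Q2 y| = |Mh y - a' * y| * |Mh y + a' * y| := by
          rw [← abs_mul]; congr 1; simp only [Q2]; ring
      _ ≤ (t * D ^ 2 + (2 / t + 1) * eta L * tlN (eQ c) R m q 0 k g4 y) *
            ((D + 5) * exp (1 / 20 * y ^ 2)) := mul_le_mul d3 d4 (abs_nonneg _) ((abs_nonneg _).trans d3)
      _ = t * D ^ 2 * (D + 5) * exp (1 / 20 * y ^ 2) + (2 / t + 1) * eta L * (D + 5) *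
            (exp (1 / 20 * y ^ 2) * tlN (eQ c) R m q 0 k g4 y) := by ring
      _ ≤ _ := add_le_add (mul_le_mul_of_nonneg_left h20 (by positivity)) (mul_le_mul_of_nonneg_left d5 hc1)
  -- the cut law
  set GQ := ∫ z, tlN (eQ c) R m q k l (fun y => Mh y ^ 2) (√(q 0) * z) ∂(gaussianReal 0 1)
  have gQ : GQ = ∫ w, Mh (√(tot c R m q k) * w) ^ 2 ∂(gaussianReal 0 1) ∧
      Integrable (fun z => tlN (eQ c) R m q k l (fun y => Mh y ^ 2) (√(q 0) * z)) (gaussianReal 0 1) := by
    have hc := compose_root h (k := k) (by omega) hH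
    simp only [show R - k = l by omega] at hc
    simp only [GQ, tlN_quad h k hH l (by omega), hk]
    exact hc
  have hv := tot_mem h (k := k) (by omega)
  have eG : Gamma (eQ c) (fun u => c * u) R m q l = ∫ w, Q2 (√(tot c R m q k) * w) ∂(gaussianReal 0 1) := by
    rw [Gamma_quad h hl]
    simp only [Q2, mul_pow, sq_sqrt hv.1, integral_const_mul, integral_sq_std, mul_one]
    rfl
  have jH : Integrable (fun w => Mh (√(tot c R m q k) * w) ^ 2) (gaussianReal 0 1) := by
    simpa using hH.int 0 (√(tot c R m q k)) (by rw [sq_sqrt hv.1]; exact hv.2)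
  have jQ : Integrable (fun w => Q2 (√(tot c R m q k) * w)) (gaussianReal 0 1) := by
    simpa using hQ.int 0 (√(tot c R m q k)) (by rw [sq_sqrt hv.1]; exact hv.2)
  have j3 : Integrable (fun w => g3 (√(tot c R m q k) * w)) (gaussianReal 0 1) := by
    simpa using qG_g3.int 0 (√(tot c R m q k)) (by rw [sq_sqrt hv.1]; exact hv.2)
  have comb : Integrable (fun w => tlN (eQ c) R m q 0 k g3 (√(tot c R m q k) * w)) (gaussianReal 0 1) ∧
      ∫ w, tlN (eQ c) R m q 0 k g3 (√(tot c R m q k) * w) ∂(gaussianReal 0 1) ≤ 2 := by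
    simp only [tlN_quad h 0 qG_g3 k (by omega), Nat.zero_add]
    set σ := √(Sv c R m q 0 k)
    have e0 : (bn c R m q 0 / bn c R m q k * √(tot c R m q k)) ^ 2 + σ ^ 2 = tot c R m q 0 := by
      simp only [σ]
      rw [mul_pow, sq_sqrt hv.1, sq_sqrt (Sv_nonneg h 0 k (by omega)), tot, tot, bn_zero, Sv, Sv, Sv,
        bn_zero, Nat.sub_zero]
      have hsum := sum_range_add (fun i => dn R q i / (bn c R m q i * bn c R m q (i + 1))) k (R - k)
      rw [Nat.add_sub_cancel' (show k ≤ R by omega)] at hsum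
      simp only [Nat.zero_add]
      rw [hsum]
      have := (bn_pos h (k := k) (by omega)).ne'
      have := (bn_pos h (k := R) le_rfl).ne'
      field_simp
      ring
    have h00 := tot_mem h (Nat.zero_le R)
    have hi : Integrable (fun u => g3 (√(tot c R m q 0) * u)) (gaussianReal 0 1) := by
      simpa using qG_g3.int 0 (√(tot c R m q 0)) (by rw [sq_sqrt h00.1]; exact h00.2)
    obtain ⟨p1, p2⟩ := gauss_comb e0 qG_g3.1 hi
    simp only [← mul_assoc]
    refine ⟨p1.integral_prod_left, ?_⟩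
    rw [p2]
    exact exp_sq_mean h00.1 h00.2 (by norm_num) le_rfl
  have partB : |GQ - Gamma (eQ c) (fun u => c * u) R m q l| ≤
      2 * t * D ^ 2 * (D + 5) + 4 * (2 / t + 1) * eta L * (D + 5) := by
    rw [gQ.1, eG, ← integral_sub jH jQ]
    set K1 := t * D ^ 2 * (D + 5)
    set K2 := (2 / t + 1) * eta L * (D + 5)
    have hK1 : 0 ≤ K1 := by positivity
    have hK2 : 0 ≤ K2 := by have := eta_nonneg L; positivity
    refine (abs_integral_le_integral_abs.trans (integral_mono (jH.sub jQ).abs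
      ((j3.const_mul K1).add ((comb.1.add j3).const_mul K2)) fun w => hpt _)).trans ?_
    rw [integral_add' (j3.const_mul K1) ((comb.1.add j3).const_mul K2), integral_const_mul,
      integral_const_mul, integral_add' comb.1 j3]
    have h3 : ∫ w, g3 (√(tot c R m q k) * w) ∂(gaussianReal 0 1) ≤ 2 := exp_sq_mean hv.1 hv.2 (by norm_num) le_rfl
    calc _ ≤ K1 * 2 + K2 * (2 + 2) :=
          add_le_add (mul_le_mul_of_nonneg_left h3 hK1)
            (mul_le_mul_of_nonneg_left (add_le_add comb.2 h3) hK2)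
      _ = _ := by simp only [K1, K2]; ring
  have partA : |Gamma (eH c L) (fL1 c L) R m q l - GQ| ≤ t * D ^ 4 + 4 * eta L / t := by
    obtain ⟨cA, bA⟩ := Vale.Agent.P157.Par.tlN_prop he h.hm q k hMc2 hMb2 l (by omega)
    have i1 : Integrable (fun z => tlN (eH c L) R m q k l (fun y => Mh y ^ 2) (√(q 0) * z)) (gaussianReal 0 1) :=
      Integrable.of_bound (cA.comp (by fun_prop)).aestronglyMeasurable (D ^ 2) (.of_forall fun z => bA _)
    obtain ⟨r1, r2⟩ := root_step h qG_g4
    show |(∫ z, tlN (eH c L) R m q k l (fun y => Mh y ^ 2) (√(q 0) * z) ∂(gaussianReal 0 1)) - GQ| ≤ _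
    rw [← integral_sub i1 gQ.2]
    refine (abs_integral_le_integral_abs.trans (integral_mono (i1.sub gQ.2).abs
      ((integrable_const (t * (D ^ 2) ^ 2)).add (((r2.const_mul (eta L)).const_mul 2).div_const t))
      fun z => ?_)).trans ?_
    · simp only [Pi.add_apply, Pi.sub_apply]
      rw [abs_sub_comm]
      have := dist_le h hL k hMc2 hMb2 ht htD2 (j := l) (by omega) (√(q 0) * z)
      rwa [hk] at this
    rw [integral_add' (integrable_const _) (((r2.const_mul (eta L)).const_mul 2).div_const t)]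
    simp only [integral_const, probReal_univ, one_smul, integral_div, integral_const_mul, r1]
    have h00 := tot_mem h (Nat.zero_le R)
    have h4 : ∫ w, g4 (√(tot c R m q 0) * w) ∂(gaussianReal 0 1) ≤ 2 :=
      exp_sq_mean h00.1 h00.2 (by norm_num) (by norm_num)
    refine add_le_add (le_of_eq (by ring)) (div_le_div_of_nonneg_right ?_ ht.le)
    nlinarith [eta_nonneg L]
  have := abs_sub_le (Gamma (eH c L) (fL1 c L) R m q l) GQ (Gamma (eQ c) (fun u => c * u) R m q l)
  linarith

end

/-- **uniform convergence of the cut functionals** -/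
theorem cut_uniform (hc : |c| ≤ 1 / 10) {ε : ℝ} (hε : 0 < ε) : ∃ L₀ : ℝ, 1 ≤ L₀ ∧
    ∀ L, L₀ ≤ L → ∀ (R : ℕ) (m q : ℕ → ℝ), Ex R m → Prof R q 1 →
      |Phi (fun y => exp (fL c L y)) R m q - Phi (fun y => exp (qf c y)) R m q| ≤ ε ∧
      ∀ l ≤ R, |Gamma (fun y => exp (fL c L y)) (deriv (fL c L)) R m q l -
        Gamma (fun y => exp (qf c y)) (deriv (qf c)) R m q l| ≤ ε := by
  have hlim : Tendsto (fun L : ℝ => 100 * 210 ^ 4 * (L ^ 4 * exp (-L))) atTop (𝓝 0) := by
    simpa using (tendsto_pow_mul_exp_neg_atTop_nhds_zero 4).const_mul (100 * 210 ^ 4 : ℝ)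
  obtain ⟨L₁, hL₁⟩ := eventually_atTop.1 (hlim.eventually (eventually_le_nhds (lt_min hε one_pos)))
  refine ⟨max L₁ 10, le_trans (by norm_num) (le_max_right _ _), fun L hL R m q hm hq => ?_⟩
  have hL10 : 10 ≤ L := le_trans (le_max_right _ _) hL
  have hL1 : 1 ≤ L := by linarith
  set B := 100 * 210 ^ 4 * (L ^ 4 * exp (-L))
  have hB : B ≤ min ε 1 := hL₁ L (le_trans (le_max_left _ _) hL)
  set t := exp (-(L ^ 2) / 10)
  have ht : 0 < t := exp_pos _
  have ht1 : t ≤ exp (-L) := exp_le_exp.2 (by nlinarith)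
  set D := cutD c L
  have hD0 : 0 ≤ D := (abs_nonneg _).trans ((cut_sm c hL1).b1 0)
  have hD : D + 5 ≤ 210 * L := by
    simp only [D, cutD]
    nlinarith [mul_le_mul_of_nonneg_right hc (show (0:ℝ) ≤ 3 / 2 * L + 2000 by linarith)]
  have hη : eta L = 3 * t * t := by
    simp only [eta, t]; rw [mul_assoc, ← exp_add]; congr 2; ring
  have hmain : ∀ x, 0 ≤ x → x ≤ 100 * (D + 5) ^ 4 → t * x ≤ min ε 1 := fun x hx0 hx => by
    refine le_trans ?_ hB
    calc t * x ≤ exp (-L) * (100 * (210 * L) ^ 4) :=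
          mul_le_mul ht1 (hx.trans (mul_le_mul_of_nonneg_left (pow_le_pow_left₀ (by linarith) hD 4)
            (by norm_num))) hx0 (exp_pos _).le
      _ = B := by simp only [B]; ring
  have p4 : ∀ i : ℕ, i ≤ 4 → D ^ i ≤ (D + 5) ^ 4 := fun i hi =>
    (pow_le_pow_left₀ hD0 (show D ≤ D + 5 by linarith) i).trans (pow_le_pow_right₀ (by linarith) hi)
  have q1 : (D + 5) ≤ (D + 5) ^ 4 := le_self_pow₀ (by linarith) (by norm_num)
  have h1 := hmain D hD0 (by linarith [p4 1 (by norm_num), pow_one D])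
  have h2 := hmain (D ^ 2) (sq_nonneg D) (by linarith [p4 2 (by norm_num)])
  have ht1' : t ≤ 1 := ht1.trans (exp_le_one_iff.2 (by linarith))
  have h := (⟨hc, hm, hq⟩ : Dat c R m q)
  refine ⟨(phi_dist h hL1).trans ?_, fun l hl => ?_⟩
  · have := (hmain 6 (by norm_num) (by nlinarith [one_le_pow₀ (show (1:ℝ) ≤ D + 5 by linarith) (n := 4)])).trans
      (min_le_left _ _)
    rw [hη]
    nlinarith
  rw [(funext fun x => ((cut_sm c hL1).d0 x).deriv : deriv (fL c L) = fL1 c L), deriv_qf]
  refine (gamma_dist h hL1 ht (h1.trans (min_le_right _ _)) (h2.trans (min_le_right _ _)) hl).trans ?_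
  rw [hη]
  have e : t * D ^ 4 + 4 * (3 * t * t) / t + 2 * t * D ^ 2 * (D + 5) +
      4 * (2 / t + 1) * (3 * t * t) * (D + 5) =
        t * (D ^ 4 + 12 + 2 * (D ^ 2 * (D + 5)) + (24 + 12 * t) * (D + 5)) := by field_simp; ring
  rw [e]
  refine (hmain _ (by positivity) ?_).trans (min_le_left _ _)
  have h12 : (1:ℝ) ≤ (D + 5) ^ 4 := one_le_pow₀ (by linarith)
  have h23 : D ^ 2 * (D + 5) ≤ (D + 5) ^ 4 :=
    calc D ^ 2 * (D + 5) ≤ (D + 5) ^ 2 * (D + 5) :=
          mul_le_mul_of_nonneg_right (pow_le_pow_left₀ hD0 (by linarith) 2) (by linarith)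
      _ = (D + 5) ^ 3 := by ring
      _ ≤ _ := pow_le_pow_right₀ (by linarith) (by norm_num)
  nlinarith [p4 4 le_rfl, mul_le_mul_of_nonneg_right (show 24 + 12 * t ≤ 36 by linarith) (show (0:ℝ) ≤ D + 5 by linarith)]

end Vale.Agent.P166.Par
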