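import Vale.Agent.P166.Par.Cut
import Vale.Agent.P157.Par.NodeLim

/-! Closed forms of the hierarchical functional for the quadratic potential `c u²/2`, `|c| ≤ 1/10`:
a tilted step is a Gaussian step, so all the nested means are Gaussian integrals. -/

open MeasureTheory ProbabilityTheory Real Finset
open scoped NNReal
open Vale.Agent.P157.Par (Vn tl tlN Phi Gamma Ex Prof)

namespace Vale.Agent.P166.Par

/-! ### Gaussian integrals -/

lemma pdf_std (x : ℝ) : gaussianPDFReal 0 1 x = (√(2 * π))⁻¹ * exp (-(x ^ 2) / 2) := by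
  rw [gaussianPDFReal_def]
  simp

/-- completing the square -/
lemma gauss_tilt {δ : ℝ} (hδ : δ < 1) (β : ℝ) (G : ℝ → ℝ) :
    ∫ z, exp (δ * z ^ 2 / 2 + β * z) * G z ∂(gaussianReal 0 1) =
      (√(1 - δ))⁻¹ * exp (β ^ 2 / (2 * (1 - δ))) *
        ∫ w, G (β / (1 - δ) + (√(1 - δ))⁻¹ * w) ∂(gaussianReal 0 1) := by
  set s := (√(1 - δ))⁻¹
  set b := β / (1 - δ)
  have hd : (0:ℝ) < 1 - δ := by linarith
  have hs : 0 < s := inv_pos.2 (sqrt_pos.2 hd)
  have hs2 : s ^ 2 = 1 / (1 - δ) := by simp only [s]; rw [inv_pow, sq_sqrt hd.le, one_div]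
  set Φ := fun z => gaussianPDFReal 0 1 z * (exp (δ * z ^ 2 / 2 + β * z) * G z)
  have key : ∀ w, Φ (b + s * w) =
      exp (β ^ 2 / (2 * (1 - δ))) * (gaussianPDFReal 0 1 w * G (b + s * w)) := fun w => by
    have e : -((b + s * w) ^ 2) / 2 + (δ * (b + s * w) ^ 2 / 2 + β * (b + s * w)) =
        β ^ 2 / (2 * (1 - δ)) + -(w ^ 2) / 2 := by
      have h2 : (b + s * w) ^ 2 = b ^ 2 + 2 * b * s * w + s ^ 2 * w ^ 2 := by ring
      rw [h2, hs2]
      simp only [b]
      field_simp
      ring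
    simp only [Φ, pdf_std]
    calc (√(2 * π))⁻¹ * exp (-((b + s * w) ^ 2) / 2) *
          (exp (δ * (b + s * w) ^ 2 / 2 + β * (b + s * w)) * G (b + s * w))
        = (√(2 * π))⁻¹ * exp (-((b + s * w) ^ 2) / 2 + (δ * (b + s * w) ^ 2 / 2 + β * (b + s * w))) *
            G (b + s * w) := by simp only [exp_add]; ring
      _ = _ := by rw [e, exp_add]; ring
  have sub : ∫ w, Φ (b + s * w) = s⁻¹ * ∫ z, Φ z := by
    rw [Measure.integral_comp_mul_left (fun x => Φ (b + x)) s, integral_add_left_eq_self Φ b,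
      abs_of_pos (inv_pos.2 hs), smul_eq_mul]
  rw [integral_gaussianReal_eq_integral_smul one_ne_zero,
    integral_gaussianReal_eq_integral_smul one_ne_zero]
  simp only [smul_eq_mul]
  show ∫ z, Φ z = _
  simp only [key, integral_const_mul] at sub
  rw [mul_assoc, sub]
  field_simp

/-- a combination of two independent standard variables -/
lemma map_comb (a b : ℝ) :
    ((gaussianReal 0 1).prod (gaussianReal 0 1)).map (fun p : ℝ × ℝ => a * p.1 + b * p.2) =
      (gaussianReal 0 1).map (fun u => √(a ^ 2 + b ^ 2) * u) := by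
  rw [gaussianReal_map_const_mul,
    show (fun p : ℝ × ℝ => a * p.1 + b * p.2) =
      (fun p : ℝ × ℝ => p.1 + p.2) ∘ Prod.map (a * ·) (b * ·) from rfl,
    ← Measure.map_map (by fun_prop) (by fun_prop),
    ← Measure.map_prod_map _ _ (by fun_prop) (by fun_prop),
    gaussianReal_map_const_mul, gaussianReal_map_const_mul]
  show (gaussianReal _ _) ∗ (gaussianReal _ _) = _
  rw [gaussianReal_conv_gaussianReal]
  congr 1
  · simp
  · ext; simp [sq_sqrt (add_nonneg (sq_nonneg a) (sq_nonneg b))]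

lemma gauss_comb {a b v : ℝ} (hv : a ^ 2 + b ^ 2 = v) {G : ℝ → ℝ} (hG : Continuous G)
    (hi : Integrable (fun u => G (√v * u)) (gaussianReal 0 1)) :
    Integrable (fun p : ℝ × ℝ => G (a * p.1 + b * p.2)) ((gaussianReal 0 1).prod (gaussianReal 0 1)) ∧
      ∫ z, ∫ w, G (a * z + b * w) ∂(gaussianReal 0 1) ∂(gaussianReal 0 1) = ∫ u, G (√v * u) ∂(gaussianReal 0 1) := by
  subst hv
  have hm : Measurable fun p : ℝ × ℝ => a * p.1 + b * p.2 := by fun_prop
  have hu : Measurable fun u : ℝ => √(a ^ 2 + b ^ 2) * u := by fun_prop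
  have h1 : Integrable G (((gaussianReal 0 1).prod (gaussianReal 0 1)).map fun p : ℝ × ℝ => a * p.1 + b * p.2) := by
    rw [map_comb]
    exact (integrable_map_measure hG.aestronglyMeasurable hu.aemeasurable).2 hi
  have h2 := (integrable_map_measure hG.aestronglyMeasurable hm.aemeasurable).1 h1
  refine ⟨h2, ?_⟩
  rw [← integral_prod (fun p : ℝ × ℝ => G (a * p.1 + b * p.2)) h2,
    ← integral_map hm.aemeasurable hG.aestronglyMeasurable, map_comb,
    integral_map hu.aemeasurable hG.aestronglyMeasurable]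

lemma integral_id_std : ∫ z, z ∂(gaussianReal 0 1) = 0 := by simp

lemma integral_sq_std : ∫ z, z ^ 2 ∂(gaussianReal 0 1) = 1 := by
  have h := variance_id_gaussianReal (μ := 0) (v := 1)
  rw [variance_eq_sub (memLp_id_gaussianReal 2)] at h
  simpa using h

lemma integrable_id_std : Integrable (fun z : ℝ => z) (gaussianReal 0 1) := by
  have h : MemLp id (1:ℝ≥0) (gaussianReal 0 1) := memLp_id_gaussianReal 1
  exact h.integrable (by simp)

/-- continuous, below a Gaussian growth -/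
def QG (G : ℝ → ℝ) : Prop := Continuous G ∧ ∃ C, ∀ u, |G u| ≤ C * exp (3 / 8 * u ^ 2)

lemma QG.int {G : ℝ → ℝ} (hG : QG G) (p σ : ℝ) (hσ : σ ^ 2 ≤ 100 / 81) :
    Integrable (fun z => G (p + σ * z)) (gaussianReal 0 1) := by
  obtain ⟨hc, C, hb⟩ := hG
  have hC : 0 ≤ C := nonneg_of_mul_nonneg_left ((abs_nonneg _).trans (hb 0)) (exp_pos _)
  refine ((Vale.Agent.P150.integral_exp_mul_sq (s := 49 / 100) (by norm_num)).1.const_mul
    (C * exp (21 * (3 / 8) * p ^ 2))).mono' (hc.comp (by fun_prop)).aestronglyMeasurable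
    (.of_forall fun z => ?_)
  rw [norm_eq_abs, mul_assoc, ← exp_add]
  refine (hb _).trans (mul_le_mul_of_nonneg_left (exp_le_exp.2 ?_) hC)
  nlinarith [sq_nonneg (σ * z / 20 - p), mul_le_mul_of_nonneg_right hσ (sq_nonneg z), sq_nonneg p,
    sq_nonneg z]

lemma QG.of_le {G : ℝ → ℝ} (hc : Continuous G) {C θ : ℝ} (hθ : θ ≤ 3 / 8)
    (hb : ∀ u, |G u| ≤ C * exp (θ * u ^ 2)) : QG G := by
  refine ⟨hc, C, fun u => (hb u).trans (mul_le_mul_of_nonneg_left (exp_le_exp.2 ?_) ?_)⟩
  · exact mul_le_mul_of_nonneg_right hθ (sq_nonneg u)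
  · exact nonneg_of_mul_nonneg_left ((abs_nonneg _).trans (hb 0)) (exp_pos _)

lemma abs_le_two_exp (u : ℝ) : |u| ≤ 2 * exp (3 / 8 * u ^ 2) := by
  nlinarith [add_one_le_exp (3 / 8 * u ^ 2), sq_nonneg (|u| - 1), sq_abs u, abs_nonneg u]

/-! ### the coefficients -/

/-- exponential of the quadratic potential -/
noncomputable def eQ (c y : ℝ) : ℝ := exp (qf c y)

/-- increment `k` levels below the top -/
def dn (R : ℕ) (q : ℕ → ℝ) (k : ℕ) : ℝ := q (R - k) - q (R - (k + 1))

/-- weighted increments above -/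
noncomputable def Dn (R : ℕ) (m q : ℕ → ℝ) (k : ℕ) : ℝ := ∑ i ∈ range k, m (R - i) * dn R q i

/-- the denominator `k` levels below the top -/
noncomputable def bn (c : ℝ) (R : ℕ) (m q : ℕ → ℝ) (k : ℕ) : ℝ := 1 - c * Dn R m q k

/-- the constant of the nested mean -/
noncomputable def lA (c : ℝ) (R : ℕ) (m q : ℕ → ℝ) (k : ℕ) : ℝ :=
  ∑ i ∈ range k, (log (bn c R m q i) - log (bn c R m q (i + 1))) / (2 * m (R - i))

/-- variance gathered by `j` tilted steps ending at `R - k` -/
noncomputable def Sv (c : ℝ) (R : ℕ) (m q : ℕ → ℝ) (k j : ℕ) : ℝ :=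
  bn c R m q k ^ 2 * ∑ i ∈ range j, dn R q (k + i) / (bn c R m q (k + i) * bn c R m q (k + i + 1))

/-- variance of the tilted field at the level `R - k` -/
noncomputable def tot (c : ℝ) (R : ℕ) (m q : ℕ → ℝ) (k : ℕ) : ℝ :=
  (bn c R m q k / bn c R m q R) ^ 2 * q 0 + Sv c R m q k (R - k)

/-- standing hypotheses -/
structure Dat (c : ℝ) (R : ℕ) (m q : ℕ → ℝ) : Prop where
  hc : |c| ≤ 1 / 10
  hm : Ex R m
  hq : Prof R q 1

variable {c : ℝ} {R : ℕ} {m q : ℕ → ℝ}

section coefficients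
variable (h : Dat c R m q)
include h

lemma dn_nonneg {k : ℕ} (hk : k < R) : 0 ≤ dn R q k := by
  have := h.hq.mono (R - (k + 1)) (by omega)
  rw [show R - (k + 1) + 1 = R - k by omega] at this
  exact sub_nonneg.2 this

omit h in
lemma sum_dn : ∀ k, k ≤ R → ∑ i ∈ range k, dn R q i = q R - q (R - k)
  | 0, _ => by simp
  | k + 1, hk => by rw [sum_range_succ, sum_dn k (by omega), dn]; ring

lemma q_nonneg : ∀ {l : ℕ}, l ≤ R → 0 ≤ q l
  | 0, _ => h.hq.zero
  | l + 1, hl => (q_nonneg (l := l) (by omega)).trans (h.hq.mono l (by omega))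

lemma Dn_mono {k i : ℕ} (hki : k ≤ i) (hi : i ≤ R) : Dn R m q k ≤ Dn R m q i :=
  sum_le_sum_of_subset_of_nonneg (range_mono hki) fun j hj _ =>
    mul_nonneg (h.hm.mem (k := j) (by rw [mem_range] at hj; omega)).1.le
      (dn_nonneg h (by rw [mem_range] at hj; omega))

lemma Dn_mem {k : ℕ} (hk : k ≤ R) : 0 ≤ Dn R m q k ∧ Dn R m q k ≤ 1 := by
  refine ⟨sum_nonneg fun i hi => mul_nonneg (h.hm.mem (k := i) (by rw [mem_range] at hi; omega)).1.le
      (dn_nonneg h (by rw [mem_range] at hi; omega)), le_trans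
    (sum_le_sum fun i hi => mul_le_of_le_one_left (dn_nonneg h (by rw [mem_range] at hi; omega))
      (h.hm.mem (k := i) (by rw [mem_range] at hi; omega)).2) ?_⟩
  rw [sum_dn k hk]
  linarith [q_nonneg h (l := R - k) (by omega), h.hq.top]

lemma bn_mem {k : ℕ} (hk : k ≤ R) : 9 / 10 ≤ bn c R m q k ∧ bn c R m q k ≤ 11 / 10 := by
  obtain ⟨d0, d1⟩ := Dn_mem h hk
  obtain ⟨c0, c1⟩ := abs_le.1 h.hc
  simp only [bn]
  constructor <;> nlinarith

lemma bn_pos {k : ℕ} (hk : k ≤ R) : 0 < bn c R m q k := by linarith [(bn_mem h hk).1]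

lemma bn_ratio {k i : ℕ} (hki : k ≤ i) (hi : i ≤ R) : bn c R m q k ≤ 10 / 9 * bn c R m q i := by
  obtain ⟨d0, d1⟩ := Dn_mem h hi
  obtain ⟨e0, -⟩ := Dn_mem h (hki.trans hi)
  have := Dn_mono h hki hi
  obtain ⟨c0, c1⟩ := abs_le.1 h.hc
  simp only [bn]
  nlinarith

omit h in
lemma bn_zero : bn c R m q 0 = 1 := by simp [bn, Dn]

omit h in
lemma bn_succ (k : ℕ) : bn c R m q (k + 1) = bn c R m q k - c * (m (R - k) * dn R q k) := by
  simp only [bn, Dn, sum_range_succ]; ring

lemma Sv_nonneg (k j : ℕ) (hj : k + j ≤ R) : 0 ≤ Sv c R m q k j :=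
  mul_nonneg (sq_nonneg _) (sum_nonneg fun i hi => by
    rw [mem_range] at hi
    exact div_nonneg (dn_nonneg h (by omega))
      (mul_nonneg (bn_pos h (by omega)).le (bn_pos h (by omega)).le))

lemma Sv_le (k j : ℕ) (hj : k + j ≤ R) :
    Sv c R m q k j ≤ 100 / 81 * (q (R - k) - q (R - (k + j))) := by
  have e : ∑ i ∈ range j, dn R q (k + i) = q (R - k) - q (R - (k + j)) := by
    have := sum_range_add (dn R q) k j
    rw [sum_dn _ hj, sum_dn k (by omega)] at this
    linarith
  rw [← e, Sv, mul_sum, mul_sum]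
  refine sum_le_sum fun i hi => ?_
  rw [mem_range] at hi
  have p0 := bn_pos h (k := k) (by omega)
  have p1 := bn_pos h (k := k + i) (by omega)
  have p2 := bn_pos h (k := k + i + 1) (by omega)
  have r1 := bn_ratio h (k := k) (i := k + i) (by omega) (by omega)
  have r2 := bn_ratio h (k := k) (i := k + i + 1) (by omega) (by omega)
  rw [mul_div_assoc', div_le_iff₀ (mul_pos p1 p2), sq]
  have := mul_le_mul_of_nonneg_left (mul_le_mul r1 r2 p0.le (by positivity))
    (dn_nonneg h (k := k + i) (by omega))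
  linarith

lemma Sv_le' (k j : ℕ) (hj : k + j ≤ R) : Sv c R m q k j ≤ 100 / 81 := by
  refine (Sv_le h k j hj).trans ?_
  have := q_nonneg h (l := R - (k + j)) (by omega)
  have h2 := sum_dn (q := q) k (by omega : k ≤ R)
  have h3 : 0 ≤ ∑ i ∈ range k, dn R q i := sum_nonneg fun i hi =>
    dn_nonneg h (by rw [mem_range] at hi; omega)
  linarith [h.hq.top]

lemma tot_mem {k : ℕ} (hk : k ≤ R) : 0 ≤ tot c R m q k ∧ tot c R m q k ≤ 100 / 81 := by
  have hs := Sv_le h k (R - k) (by omega)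
  have hs0 := Sv_nonneg h k (R - k) (by omega)
  rw [Nat.add_sub_cancel' hk, Nat.sub_self] at hs
  have hr : (bn c R m q k / bn c R m q R) ^ 2 ≤ 100 / 81 := by
    have := bn_ratio h hk le_rfl
    rw [show (100 / 81 : ℝ) = (10 / 9) ^ 2 by norm_num]
    exact pow_le_pow_left₀ (div_nonneg (bn_pos h hk).le (bn_pos h le_rfl).le)
      ((div_le_iff₀ (bn_pos h le_rfl)).2 (by linarith)) 2
  have h2 := sum_dn (q := q) k hk
  have h3 : 0 ≤ ∑ i ∈ range k, dn R q i := sum_nonneg fun i hi =>
    dn_nonneg h (by rw [mem_range] at hi; omega)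
  have := h.hq.zero
  refine ⟨add_nonneg (mul_nonneg (sq_nonneg _) this) hs0, ?_⟩
  have := mul_le_mul_of_nonneg_right hr this
  simp only [tot]
  linarith [h.hq.top]

omit h in
lemma Sv_succ (k j : ℕ) :
    Sv c R m q k (j + 1) = Sv c R m q k j + bn c R m q k ^ 2 *
      (dn R q (k + j) / (bn c R m q (k + j) * bn c R m q (k + j + 1))) := by
  simp only [Sv, sum_range_succ, mul_add]

/-! ### the nested means -/

omit h in
lemma qf_zero_lA (y : ℝ) : eQ c y = exp (lA c R m q 0 + c * y ^ 2 / (2 * bn c R m q 0)) := by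
  simp [eQ, qf, lA, bn_zero]

/-- one step -/
lemma step_eq {k : ℕ} (hk : k < R) (G : ℝ → ℝ) (y : ℝ) :
    ∫ z, exp (lA c R m q k + c * (y + √(dn R q k) * z) ^ 2 / (2 * bn c R m q k)) ^ m (R - k) *
        G (y + √(dn R q k) * z) ∂(gaussianReal 0 1) =
      exp (lA c R m q (k + 1) + c * y ^ 2 / (2 * bn c R m q (k + 1))) ^ m (R - k) *
        ∫ w, G (bn c R m q k / bn c R m q (k + 1) * y +
          √(dn R q k * (bn c R m q k / bn c R m q (k + 1))) * w) ∂(gaussianReal 0 1) := by
  set b := bn c R m q k with hb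
  set b' := bn c R m q (k + 1) with hb'
  set μ := m (R - k) with hμ
  set d := dn R q k with hd
  set s := √d
  have hb0 : 0 < b := bn_pos h hk.le
  have hb1 : 0 < b' := bn_pos h hk
  have hμ0 : 0 < μ := (h.hm.mem hk).1
  have hd0 : 0 ≤ d := dn_nonneg h hk
  have hss : s * s = d := mul_self_sqrt hd0
  set a := μ * c / b
  have h1 : 1 - a * d = b' / b := by
    simp only [a, hb', bn_succ, ← hb, ← hμ, ← hd]; field_simp
  have hlt : a * d < 1 := by have := div_pos hb1 hb0; linarith
  have e1 : ∀ z, exp (lA c R m q k + c * (y + s * z) ^ 2 / (2 * b)) ^ μ =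
      exp (μ * lA c R m q k + a * y ^ 2 / 2) * exp (a * d * z ^ 2 / 2 + a * y * s * z) := fun z => by
    rw [← exp_mul, ← exp_add]
    congr 1
    rw [show (y + s * z) ^ 2 = y ^ 2 + 2 * y * s * z + (s * s) * z ^ 2 by ring, hss]
    simp only [a]
    field_simp
    ring
  simp only [e1, mul_assoc, integral_const_mul]
  simp only [← mul_assoc]
  rw [gauss_tilt hlt, h1]
  have e2 : ∀ w, y + s * (a * y * s / (b' / b) + (√(b' / b))⁻¹ * w) =
      b / b' * y + √(d * (b / b')) * w := fun w => by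
    rw [sqrt_mul hd0, show b / b' = (b' / b)⁻¹ by rw [inv_div], sqrt_inv]
    have ha : a * d = 1 - b' / b := by linarith
    have : y + s * (a * y * s / (b' / b) + (√(b' / b))⁻¹ * w) =
        y + (a * d) * y / (b' / b) + s * (√(b' / b))⁻¹ * w := by rw [← hss]; ring
    rw [this, ha]
    field_simp
    ring
  simp only [e2, ← mul_assoc]
  congr 1
  have e3 : (√(b' / b))⁻¹ = exp ((log b - log b') / 2) := by
    rw [← log_div hb0.ne' hb1.ne', ← log_sqrt (by positivity), exp_log (sqrt_pos.2 (by positivity)),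
      ← sqrt_inv, inv_div]
  rw [e3, ← exp_add, ← exp_add, ← exp_mul]
  congr 1
  have ha : a * d = 1 - b' / b := by linarith
  rw [show (a * y * s) ^ 2 = a * (a * d) * y ^ 2 by rw [← hss]; ring, ha]
  simp only [lA, sum_range_succ, ← hb, ← hb', ← hμ, a]
  field_simp
  ring

/-- the nested mean of the quadratic potential -/
theorem Vn_quad : ∀ k, k ≤ R → ∀ y,
    Vn (eQ c) R m q k y = exp (lA c R m q k + c * y ^ 2 / (2 * bn c R m q k))
  | 0, _, y => by simpa [Vn] using qf_zero_lA y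
  | k + 1, hk, y => by
    have hμ : 0 < m (R - k) := (h.hm.mem (k := k) (by omega)).1
    have hs := step_eq h (k := k) (by omega) (fun _ => 1) y
    simp only [mul_one, integral_const, probReal_univ, one_smul] at hs
    simp only [Vn, Vn_quad k (by omega)]
    show (∫ z, exp (lA c R m q k + c * (y + √(dn R q k) * z) ^ 2 / (2 * bn c R m q k)) ^ m (R - k) ∂(gaussianReal 0 1)) ^
      (1 / m (R - k)) = _
    rw [hs, one_div, rpow_rpow_inv (exp_pos _).le hμ.ne']

/-- a tilted step of the quadratic potential -/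
theorem tl_quad {k : ℕ} (hk : k < R) (F : ℝ → ℝ) (y : ℝ) :
    tl (eQ c) R m q k F y = ∫ w, F (bn c R m q k / bn c R m q (k + 1) * y +
      √(dn R q k * (bn c R m q k / bn c R m q (k + 1))) * w) ∂(gaussianReal 0 1) := by
  have hs := step_eq h hk F y
  have hs1 := step_eq h hk (fun _ => 1) y
  simp only [mul_one, integral_const, probReal_univ, one_smul] at hs1
  simp only [tl, Vn_quad h k hk.le]
  show (∫ z, exp (lA c R m q k + c * (y + √(dn R q k) * z) ^ 2 / (2 * bn c R m q k)) ^ m (R - k) *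
      F (y + √(dn R q k) * z) ∂(gaussianReal 0 1)) / (∫ z, exp (lA c R m q k + c * (y + √(dn R q k) * z) ^ 2 /
        (2 * bn c R m q k)) ^ m (R - k) ∂(gaussianReal 0 1)) = _
  rw [hs, hs1, mul_div_cancel_left₀ _ (rpow_pos_of_pos (exp_pos _) _).ne']

/-- composing one step with the steps above -/
lemma compose {k j : ℕ} (hj : k + j < R) {F : ℝ → ℝ} (hF : QG F) (y : ℝ) :
    (∫ z, ∫ w, F (bn c R m q k / bn c R m q (k + j) *
        (bn c R m q (k + j) / bn c R m q (k + j + 1) * y +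
          √(dn R q (k + j) * (bn c R m q (k + j) / bn c R m q (k + j + 1))) * z) +
        √(Sv c R m q k j) * w) ∂(gaussianReal 0 1) ∂(gaussianReal 0 1) =
      ∫ w, F (bn c R m q k / bn c R m q (k + j + 1) * y + √(Sv c R m q k (j + 1)) * w) ∂(gaussianReal 0 1)) ∧
    Integrable (fun z => ∫ w, F (bn c R m q k / bn c R m q (k + j) *
        (bn c R m q (k + j) / bn c R m q (k + j + 1) * y +
          √(dn R q (k + j) * (bn c R m q (k + j) / bn c R m q (k + j + 1))) * z) +
        √(Sv c R m q k j) * w) ∂(gaussianReal 0 1)) (gaussianReal 0 1) := by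
  set b := bn c R m q k
  set b₁ := bn c R m q (k + j)
  set b₂ := bn c R m q (k + j + 1)
  have h1 : 0 < b₁ := bn_pos h hj.le
  have h2 : 0 < b₂ := bn_pos h hj
  have hd : 0 ≤ dn R q (k + j) := dn_nonneg h hj
  set a' := b / b₁ * √(dn R q (k + j) * (b₁ / b₂))
  set σ := √(Sv c R m q k j)
  have hv : a' ^ 2 + σ ^ 2 = Sv c R m q k (j + 1) := by
    rw [show Sv c R m q k (j + 1) = Sv c R m q k j + b ^ 2 * (dn R q (k + j) / (b₁ * b₂)) from
      Sv_succ k j, mul_pow, sq_sqrt (by positivity), sq_sqrt (Sv_nonneg h k j hj.le)]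
    field_simp
    ring
  have e : ∀ z w, b / b₁ * (b₁ / b₂ * y + √(dn R q (k + j) * (b₁ / b₂)) * z) + σ * w =
      b / b₂ * y + (a' * z + σ * w) := fun z w => by simp only [a']; field_simp; ring
  simp only [e]
  have hi : Integrable (fun u => F (b / b₂ * y + √(Sv c R m q k (j + 1)) * u)) (gaussianReal 0 1) :=
    hF.int _ _ (by rw [sq_sqrt (Sv_nonneg h k (j + 1) (by omega))]; exact Sv_le' h k (j + 1) (by omega))
  obtain ⟨p1, p2⟩ := gauss_comb (G := fun x => F (b / b₂ * y + x)) hv (hF.1.comp (by fun_prop)) hi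
  exact ⟨p2, p1.integral_prod_left⟩

/-- several tilted steps of the quadratic potential -/
theorem tlN_quad (k : ℕ) {F : ℝ → ℝ} (hF : QG F) : ∀ j, k + j ≤ R → ∀ y,
    tlN (eQ c) R m q k j F y =
      ∫ w, F (bn c R m q k / bn c R m q (k + j) * y + √(Sv c R m q k j) * w) ∂(gaussianReal 0 1)
  | 0, hk, y => by simp [tlN, Sv, (bn_pos h (k := k) (by omega)).ne']
  | j + 1, hj, y => by
    simp only [tlN, tl_quad h (show k + j < R by omega), tlN_quad k hF j (by omega)]
    exact (compose h (by omega) hF y).1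

/-- the field at the bottom combined with the root -/
lemma compose_root {k : ℕ} (hk : k ≤ R) {F : ℝ → ℝ} (hF : QG F) :
    (∫ z, ∫ w, F (bn c R m q k / bn c R m q R * (√(q 0) * z) + √(Sv c R m q k (R - k)) * w) ∂(gaussianReal 0 1) ∂(gaussianReal 0 1) =
      ∫ w, F (√(tot c R m q k) * w) ∂(gaussianReal 0 1)) ∧
    Integrable (fun z => ∫ w, F (bn c R m q k / bn c R m q R * (√(q 0) * z) +
      √(Sv c R m q k (R - k)) * w) ∂(gaussianReal 0 1)) (gaussianReal 0 1) := by
  set r := bn c R m q k / bn c R m q R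
  set σ := √(Sv c R m q k (R - k))
  have hv : (r * √(q 0)) ^ 2 + σ ^ 2 = tot c R m q k := by
    rw [mul_pow, sq_sqrt h.hq.zero, sq_sqrt (Sv_nonneg h k _ (by omega))]
    rfl
  have hi : Integrable (fun u => F (√(tot c R m q k) * u)) (gaussianReal 0 1) := by
    simpa using hF.int 0 (√(tot c R m q k)) (by rw [sq_sqrt (tot_mem h hk).1]; exact (tot_mem h hk).2)
  obtain ⟨p1, p2⟩ := gauss_comb hv hF.1 hi
  simp only [← mul_assoc]
  exact ⟨p2, p1.integral_prod_left⟩

/-- **closed form of the nested functional** -/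
theorem Phi_quad : Phi (eQ c) R m q = lA c R m q R + c * q 0 / (2 * bn c R m q R) := by
  have e : ∀ z : ℝ, log (Vn (eQ c) R m q R (√(q 0) * z)) =
      lA c R m q R + c * q 0 / (2 * bn c R m q R) * z ^ 2 := fun z => by
    rw [Vn_quad h R le_rfl, log_exp, mul_pow, sq_sqrt h.hq.zero]; ring
  have hi : Integrable (fun z : ℝ => c * q 0 / (2 * bn c R m q R) * z ^ 2) (gaussianReal 0 1) :=
    integrable_sq.const_mul _
  simp only [Phi, e]
  rw [integral_add (integrable_const _) hi, integral_const_mul, integral_sq_std]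
  simp

omit h in
lemma qG_lin (a : ℝ) : QG fun u => a * u := by
  refine ⟨by fun_prop, |a| * 2, fun u => ?_⟩
  rw [abs_mul, mul_assoc]
  exact mul_le_mul_of_nonneg_left (abs_le_two_exp u) (abs_nonneg a)

/-- the mean of the derivative -/
lemma mean_quad {k : ℕ} (hk : k ≤ R) (y : ℝ) :
    tlN (eQ c) R m q 0 k (fun u => c * u) y = c / bn c R m q k * y := by
  rw [tlN_quad h 0 (qG_lin c) k (by omega), Nat.zero_add, bn_zero]
  have e : ∀ w : ℝ, c * (1 / bn c R m q k * y + √(Sv c R m q 0 k) * w) =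
      c / bn c R m q k * y + c * √(Sv c R m q 0 k) * w := fun w => by ring
  simp only [e]
  rw [integral_add (integrable_const _) (integrable_id_std.const_mul _), integral_const,
    integral_const_mul, integral_id_std]
  simp

/-- **closed form of the correlation of the derivatives** -/
theorem Gamma_quad {l : ℕ} (hl : l ≤ R) :
    Gamma (eQ c) (fun u => c * u) R m q l =
      (c / bn c R m q (R - l)) ^ 2 * tot c R m q (R - l) := by
  set k := R - l
  have hF : QG fun u => (c / bn c R m q k * u) ^ 2 := by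
    refine ⟨by fun_prop, (c / bn c R m q k) ^ 2 * 3, fun u => ?_⟩
    show |(c / bn c R m q k * u) ^ 2| ≤ _
    rw [abs_of_nonneg (sq_nonneg _), mul_pow, mul_assoc]
    refine mul_le_mul_of_nonneg_left ?_ (sq_nonneg _)
    nlinarith [add_one_le_exp (3 / 8 * u ^ 2)]
  have e : ∀ y, tlN (eQ c) R m q k l (fun y => tlN (eQ c) R m q 0 k (fun u => c * u) y ^ 2) y =
      ∫ w, (c / bn c R m q k * (bn c R m q k / bn c R m q (k + l) * y +
        √(Sv c R m q k l) * w)) ^ 2 ∂(gaussianReal 0 1) := fun y => by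
    rw [show (fun y => tlN (eQ c) R m q 0 k (fun u => c * u) y ^ 2) =
      fun u => (c / bn c R m q k * u) ^ 2 from funext fun u => by rw [mean_quad h (by omega)]]
    exact tlN_quad h k hF l (by omega) y
  show ∫ z, tlN (eQ c) R m q k l (fun y => tlN (eQ c) R m q 0 k (fun u => c * u) y ^ 2) (√(q 0) * z) ∂(gaussianReal 0 1) = _
  simp only [e, show k + l = R by omega]
  have hl' : l = R - k := by omega
  rw [hl']
  rw [(compose_root h (show k ≤ R by omega) hF).1]
  have e2 : ∀ w : ℝ, (c / bn c R m q k * (√(tot c R m q k) * w)) ^ 2 =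
      (c / bn c R m q k) ^ 2 * tot c R m q k * w ^ 2 := fun w => by
    rw [mul_pow, mul_pow, sq_sqrt (tot_mem h (show k ≤ R by omega)).1]; ring
  simp only [e2, integral_const_mul, integral_sq_std, mul_one]

/-- the correlations are `c²` times the explicit sums -/
lemma Gamma_quad_sum {l : ℕ} (hl : l ≤ R) :
    Gamma (eQ c) (fun u => c * u) R m q l =
      c ^ 2 * (q 0 / bn c R m q R ^ 2 +
        ∑ i ∈ range l, dn R q (R - l + i) / (bn c R m q (R - l + i) * bn c R m q (R - l + i + 1))) := by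
  rw [Gamma_quad h hl, tot, Sv, show R - (R - l) = l by omega]
  have := (bn_pos h (k := R - l) (by omega)).ne'
  have := (bn_pos h (k := R) le_rfl).ne'
  field_simp

end coefficients

lemma deriv_qf (c : ℝ) : deriv (qf c) = fun u => c * u := by
  funext u
  exact (((hasDerivAt_pow 2 u).const_mul c).div_const 2).deriv.trans (by push_cast; ring)

end Vale.Agent.P166.Par
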