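import Vale.Agent.P166.Par.NestConcave
import Vale.Agent.P166.Par.Cut
import Vale.Agent.P157.Par.Interp

/-! The slope inequality of the upper bound for the cut of a small quadratic potential: the chord
inequality holds up to twice the cut error, and the second derivative is bounded by a polynomial in
the derivative bound of the cut. -/

open MeasureTheory Filter Finset
open scoped Topology
open Vale.Agent.P150 (gauss dot)
open Vale.Agent.P168.MP (Ok nest ET att)
open Vale.Agent.P157.Lim (cvec)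
open Vale.Agent.P157.Par (fac cv dd Sm Sd)

namespace Vale.Agent.P166.Pattern.Pot

variable (P : Pot) {S : Type*} [Fintype S] (w : S → ℝ)

/-- a lower bound on the two-point quantity from bounds on the derivatives -/
lemma pair_ge (hw : ∀ σ, 0 < w σ) [Nonempty S] {D : ℝ} (h1 : ∀ x, |P.f1 x| ≤ D) (h2 : ∀ x, |P.f2 x| ≤ D)
    (σ τ : S) (y : S → ℝ) :
    -(2 * (D + D ^ 2) ^ 2 + 8 * (D + D ^ 2) * D ^ 2) * (P.p w σ y * P.p w τ y) ≤ P.pair w σ τ y := by
  have hA : ∀ x, |P.A x| ≤ D + D ^ 2 := fun x => (abs_add_le _ _).trans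
    (add_le_add (h2 x) (by rw [abs_pow]; exact pow_le_pow_left₀ (abs_nonneg _) (h1 x) 2))
  have hs : ∀ x, P.f1 x ^ 2 ≤ D ^ 2 := fun x => by
    rw [← sq_abs]; exact pow_le_pow_left₀ (abs_nonneg _) (h1 x) 2
  have e1 : -(D + D ^ 2) ^ 2 ≤ P.A (y σ) * P.A (y τ) := by
    have := mul_le_mul (hA (y σ)) (hA (y τ)) (abs_nonneg _) ((abs_nonneg _).trans (hA (y σ)))
    rw [← abs_mul, ← sq] at this
    linarith [(abs_le.1 this).1]
  have e2 := mul_le_mul (hA (y σ)) (hs (y τ)) (sq_nonneg _) ((abs_nonneg _).trans (hA (y σ)))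
  have e3 := mul_le_mul (hA (y τ)) (hs (y σ)) (sq_nonneg _) ((abs_nonneg _).trans (hA (y τ)))
  rw [pair, mul_comm _ (P.p w σ y * P.p w τ y)]
  exact mul_le_mul_of_nonneg_left (by linarith) (mul_nonneg (P.p_pos w hw σ y).le (P.p_pos w hw τ y).le)

/-- `E log ∑ w exp f(X)` is concave up to a quadratic term between covariances with equal diagonal -/
theorem semiconcave (hw : ∀ σ, 0 < w σ) [Nonempty S] {κ : Type*} [Fintype κ] (hw1 : ∑ σ, w σ = 1)
    {C Δ : ℝ} (hC : 0 ≤ C) (hlow : ∀ σ τ y, -C * (P.p w σ y * P.p w τ y) ≤ P.pair w σ τ y)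
    (c0 c1 : S → κ → ℝ) (hdiag : ∀ σ, cov c1 σ σ = cov c0 σ σ)
    (hΔ : ∀ σ τ, (cov c1 σ τ - cov c0 σ τ) ^ 2 ≤ Δ)
    {κ' : Type*} [Fintype κ'] (cm : S → κ' → ℝ) {t : ℝ} (ht : t ∈ Set.Icc (0:ℝ) 1)
    (hcm : ∀ σ τ, cov cm σ τ = (1 - t) * cov c0 σ τ + t * cov c1 σ τ) :
    (1 - t) * (∫ x, P.H w (lin c0 x) ∂gauss κ) + t * (∫ x, P.H w (lin c1 x) ∂gauss κ) - C * Δ / 8 * t ≤
      ∫ x, P.H w (lin cm x) ∂gauss κ' := by
  classical
  have hH := P.smooth_H w hw hw1
  set d : S → S → ℝ := fun σ τ => cov c1 σ τ - cov c0 σ τ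
  have hd : ∀ σ τ, d σ τ = d τ σ := fun σ τ => by simp only [d, cov, mul_comm]
  have hd0 : ∀ σ, d σ σ = 0 := fun σ => by simp [d, hdiag]
  have hG := P.smooth_G w hw hd
  have e1 : ∀ (s : ℝ), (1 / 2) * ∑ σ, ∑ τ, (cov c1 σ τ - cov c0 σ τ) *
      ∫ x, P.H2 w σ τ (lin (ct c0 c1 s) x) ∂gauss (κ ⊕ κ) = -(1 / 2) * phi (P.G w d) c0 c1 s := by
    intro s
    have hi : ∀ σ τ, Integrable (fun x => d σ τ * P.H2 w σ τ (lin (ct c0 c1 s) x)) (gauss (κ ⊕ κ)) :=
      fun σ τ => (integrable_lin _ (P.cont_H2 w hw σ τ) (P.poly_H2 w hw σ τ)).const_mul _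
    simp only [show ∀ σ τ, cov c1 σ τ - cov c0 σ τ = d σ τ from fun _ _ => rfl]
    simp only [phi, ← integral_const_mul, ← integral_finsetSum _ fun τ _ => hi _ τ]
    rw [← integral_finsetSum _ fun σ _ => integrable_finsetSum _ fun τ _ => hi σ τ]
    rw [← integral_const_mul]
    refine integral_congr_ae (.of_forall fun x => ?_)
    simp only [G, r, Finset.mul_sum]
    refine Finset.sum_congr rfl fun σ _ => Finset.sum_congr rfl fun τ _ => ?_
    simp only [H2]
    split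
    next h => subst h; simp [hd0]
    next h => ring
  have e2 : ∀ s : ℝ, -(C * Δ) ≤ ∑ σ, ∑ τ, (cov c1 σ τ - cov c0 σ τ) *
      ∫ x, P.G2 w d σ τ (lin (ct c0 c1 s) x) ∂gauss (κ ⊕ κ) := by
    intro s
    have hi : ∀ σ τ, Integrable (fun x => d σ τ * P.G2 w d σ τ (lin (ct c0 c1 s) x)) (gauss (κ ⊕ κ)) :=
      fun σ τ => (integrable_lin _ (P.cont_G2 w hw d σ τ) (P.poly_G2 w hw d σ τ)).const_mul _
    simp only [show ∀ σ τ, cov c1 σ τ - cov c0 σ τ = d σ τ from fun _ _ => rfl]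
    simp only [← integral_const_mul, ← integral_finsetSum _ fun τ _ => hi _ τ]
    rw [← integral_finsetSum _ fun σ _ => integrable_finsetSum _ fun τ _ => hi σ τ]
    have hpt : ∀ x : κ ⊕ κ → ℝ, -(C * Δ) ≤ ∑ σ, ∑ τ, d σ τ * P.G2 w d σ τ (lin (ct c0 c1 s) x) := by
      intro x
      set y := lin (ct c0 c1 s) x
      refine le_trans ?_ (P.hessian_lower w hw hd hd0 y)
      calc -(C * Δ) = ∑ σ, ∑ τ, Δ * (-C * (P.p w σ y * P.p w τ y)) := by
            simp only [← Finset.mul_sum, ← Finset.sum_mul, P.sum_p w hw y]; ring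
        _ ≤ ∑ σ, ∑ τ, d σ τ ^ 2 * (-C * (P.p w σ y * P.p w τ y)) := by
            refine sum_le_sum fun σ _ => sum_le_sum fun τ _ => mul_le_mul_of_nonpos_right (hΔ σ τ) ?_
            exact mul_nonpos_of_nonpos_of_nonneg (by linarith)
              (mul_nonneg (P.p_pos w hw σ y).le (P.p_pos w hw τ y).le)
        _ ≤ _ := sum_le_sum fun σ _ => sum_le_sum fun τ _ => mul_le_mul_of_nonneg_left (hlow σ τ y) (sq_nonneg _)
    simpa using integral_mono (μ := gauss (κ ⊕ κ)) (integrable_const (-(C * Δ)))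
      (integrable_finsetSum _ fun σ _ => integrable_finsetSum _ fun τ _ => hi σ τ) hpt
  have hconc : ConcaveOn ℝ (Set.Icc (0:ℝ) 1) fun s => phi (P.H w) c0 c1 s - C * Δ / 8 * s ^ 2 := by
    refine concaveOn_of_hasDerivWithinAt2_nonpos (convex_Icc 0 1)
      ((continuousOn_phi hH).sub (by fun_prop))
      (f' := fun s => -(1 / 2) * phi (P.G w d) c0 c1 s - C * Δ / 8 * (2 * s))
      (f'' := fun s => -(1 / 2) * ((1 / 2) * ∑ σ, ∑ τ, (cov c1 σ τ - cov c0 σ τ) *
        ∫ x, P.G2 w d σ τ (lin (ct c0 c1 s) x) ∂gauss (κ ⊕ κ)) - C * Δ / 8 * 2) ?_ ?_ ?_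
    · intro s hs
      rw [interior_Icc] at hs
      exact (((hasDerivAt_phi hH hs).congr_deriv (e1 s)).fun_sub
        (((hasDerivAt_pow 2 s).const_mul (C * Δ / 8)).congr_deriv (by push_cast; ring))).hasDerivWithinAt
    · intro s hs
      rw [interior_Icc] at hs
      exact (((hasDerivAt_phi hG hs).const_mul (-(1 / 2))).fun_sub
        ((((hasDerivAt_id' s).const_mul 2).const_mul (C * Δ / 8)).congr_deriv (by ring))).hasDerivWithinAt
    · intro s hs
      nlinarith [e2 s]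
  have key := hconc.2 (Set.left_mem_Icc.2 zero_le_one) (Set.right_mem_Icc.2 zero_le_one)
    (show 0 ≤ 1 - t by linarith [ht.2]) ht.1 (by ring)
  simp only [smul_eq_mul, mul_zero, mul_one, zero_add, phi_zero hH, phi_one hH] at key
  have e : phi (P.H w) c0 c1 t = ∫ x, P.H w (lin cm x) ∂gauss κ' := eq_of_cov hH (ct c0 c1 t) cm fun σ τ => by
    rw [hcm]
    have a0 := Real.mul_self_sqrt (show 0 ≤ 1 - t by linarith [ht.2])
    have a1 := Real.mul_self_sqrt ht.1
    simp only [cov, ct, Fintype.sum_sum_type, Sum.elim_inl, Sum.elim_inr, Finset.mul_sum]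
    congr 1 <;> refine Finset.sum_congr rfl fun k _ => ?_
    · linear_combination (c0 σ k * c0 τ k) * a0
    · linear_combination (c1 σ k * c1 τ k) * a1
  rw [e] at key
  nlinarith [mul_nonneg (mul_nonneg hC ((sq_nonneg _).trans (hΔ (Classical.arbitrary S) (Classical.arbitrary S))))
    (sq_nonneg t)]

end Vale.Agent.P166.Pattern.Pot

namespace Vale.Agent.P166.Par

/-- a potential with bounded derivatives as a potential of polynomial growth -/
noncomputable def potOf {f f1 f2 f3 : ℝ → ℝ} {D : ℝ} (hS : Sd f f1 f2 f3 D) : Pattern.Pot where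
  f := f
  f1 := f1
  f2 := f2
  f3 := f3
  h1 := hS.d0
  h2 := hS.d1
  h3 := hS.d2
  c3 := hS.cont3
  p0 := ⟨|f 0| + D, 1, fun x => by
    have h := (convex_univ).norm_image_sub_le_of_norm_hasDerivWithin_le (f := f) (f' := f1)
      (fun y _ => (hS.d0 y).hasDerivWithinAt) (fun y _ => by simpa using hS.b1 y) (Set.mem_univ 0) (Set.mem_univ x)
    simp only [Real.norm_eq_abs, sub_zero] at h
    have hD : 0 ≤ D := (abs_nonneg _).trans (hS.b1 0)
    rw [pow_one, Real.norm_eq_abs]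
    linarith [abs_sub_abs_le_abs_sub (f x) (f 0), mul_nonneg (abs_nonneg (f 0)) (abs_nonneg x)]⟩
  p1 := Pattern.Poly.of_bound D hS.b1
  p2 := Pattern.Poly.of_bound D hS.b2
  p3 := Pattern.Poly.of_bound D hS.b3

/-- bound on the second derivative along the interpolation -/
noncomputable def semiK (D : ℝ) : ℝ := (2 * (D + D ^ 2) ^ 2 + 8 * (D + D ^ 2) * D ^ 2) / 2

variable {Ω : Type} [Fintype Ω] [Nonempty Ω] {R : ℕ} {m : ℕ → ℝ} {w : List Ω → ℝ}

lemma abs_cv_le_one {ι : Type} [Fintype ι] {a : List Ω → ι → ℝ} {p q : List Ω}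
    (hp : cv a p p = 1) (hq : cv a q q = 1) : |cv a p q| ≤ 1 := by
  refine abs_le_of_sq_le_sq ?_ zero_le_one
  refine (sum_mul_sq_le_sq_mul_sq univ (a p) (a q)).trans_eq ?_
  rw [one_pow, show ∑ i, a p i ^ 2 = 1 from (sum_congr rfl fun _ _ => sq _).trans hp,
    show ∑ i, a q i ^ 2 = 1 from (sum_congr rfl fun _ _ => sq _).trans hq, one_mul]

/-- nested semiconcavity between `0` and `t` -/
lemma nest_semiconcave {f f1 f2 f3 : ℝ → ℝ} {D : ℝ} (hS : Sd f f1 f2 f3 D) (hR : 1 ≤ R) (hm : Ok R m w)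
    {ι κ : Type} [Fintype ι] [Fintype κ] (a : List Ω → ι → ℝ) (b : List Ω → κ → ℝ)
    (ha : ∀ p : List Ω, p.length = R → cv a p p = 1) (hb : ∀ p : List Ω, p.length = R → cv b p p = 1)
    {t s : ℝ} (h0 : 0 ≤ t) (h1 : t ≤ 1) (s0 : 0 ≤ s) (s1 : s ≤ 1) :
    s * Gn f R m w a b t + (1 - s) * Gn f R m w a b 0 - semiK D * t ^ 2 * s ≤ Gn f R m w a b (s * t) := by
  set P := potOf hS
  obtain ⟨J, inst, c, wt, hc, hwt, hwt1, hs, hlim⟩ := nest_lim hR hm
  have hi : ∀ u p, Integrable (fun g => f (dot (cvec a b u p) g)) (gauss (ι ⊕ κ)) := fun u p =>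
    Pattern.integrable_lin (F := fun y => P.f (y ())) (fun _ : Unit => cvec a b u p)
      (P.c0.comp (continuous_apply _)) (Pattern.Pot.poly_eval P.p0 ())
  have L := fun u => hlim f (fun p => cvec a b u p) P.c0 (hi u)
  refine le_of_tendsto_of_tendsto' ((((L t).const_mul s).add ((L 0).const_mul (1 - s))).sub
    (show Tendsto (fun n => (∑ j, c n j) * (semiK D * t ^ 2 * s)) atTop (𝓝 (semiK D * t ^ 2 * s)) by
      simpa using hs.mul_const (semiK D * t ^ 2 * s))) (L (s * t)) fun n => ?_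
  simp only [mul_sum, sum_mul, ← sum_add_distrib, ← sum_sub_distrib]
  refine sum_le_sum fun j _ => ?_
  rw [mul_left_comm s, mul_left_comm (1 - s), ← mul_add, ← mul_sub]
  refine mul_le_mul_of_nonneg_left ?_ (hc n j)
  set e : ℝ → (Fin R → Ω) → ι ⊕ κ → ℝ := fun u p => cvec a b u (List.ofFn p)
  have cov_e : ∀ u, 0 ≤ u → u ≤ 1 → ∀ p q, Pattern.cov (e u) p q =
      u * cv a (List.ofFn p) (List.ofFn q) + (1 - u) * cv b (List.ofFn p) (List.ofFn q) :=
    fun u hu hu' p q => cv_cvec a b hu hu' _ _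
  have la : ∀ p : Fin R → Ω, cv a (List.ofFn p) (List.ofFn p) = 1 := fun p => ha _ (by simp)
  have lb : ∀ p : Fin R → Ω, cv b (List.ofFn p) (List.ofFn p) = 1 := fun p => hb _ (by simp)
  have hD : 0 ≤ D := (abs_nonneg _).trans (hS.b1 0)
  have hK : 0 ≤ 2 * (D + D ^ 2) ^ 2 + 8 * (D + D ^ 2) * D ^ 2 := by positivity
  have h := P.semiconcave (wt n j) (hwt n j) (hwt1 n j) hK (Δ := 4 * t ^ 2)
    (fun σ τ y => P.pair_ge (wt n j) (hwt n j) hS.b1 hS.b2 σ τ y) (e 0) (e t)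
    (fun p => by rw [cov_e t h0 h1, cov_e 0 le_rfl zero_le_one, la, lb]; ring)
    (fun p q => by
      rw [cov_e t h0 h1, cov_e 0 le_rfl zero_le_one]
      have := abs_le.1 (abs_cv_le_one (la p) (la q))
      have := abs_le.1 (abs_cv_le_one (lb p) (lb q))
      calc _ = t ^ 2 * (cv a (List.ofFn p) (List.ofFn q) - cv b (List.ofFn p) (List.ofFn q)) ^ 2 := by ring
        _ ≤ t ^ 2 * 4 := by gcongr; nlinarith
        _ = 4 * t ^ 2 := by ring)
    (e (s * t)) (show s ∈ Set.Icc (0:ℝ) 1 from ⟨s0, s1⟩)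
    (fun p q => by
      rw [cov_e _ (mul_nonneg s0 h0) (mul_le_one₀ s1 h0 h1), cov_e 0 le_rfl zero_le_one, cov_e t h0 h1]
      ring)
  refine le_of_eq_of_le ?_ h
  show s * (∫ x, P.H (wt n j) (Pattern.lin (e t) x) ∂Pattern.gauss _) +
    (1 - s) * (∫ x, P.H (wt n j) (Pattern.lin (e 0) x) ∂Pattern.gauss _) - semiK D * t ^ 2 * s = _
  rw [semiK]
  ring

/-- the derivative of `Gn` along the interpolation -/
noncomputable def Gn' {ι κ : Type} [Fintype ι] [Fintype κ] (f f1 f2 : ℝ → ℝ) (R : ℕ) (m : ℕ → ℝ)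
    (w : List Ω → ℝ) (a : List Ω → ι → ℝ) (b : List Ω → κ → ℝ) (t : ℝ) : ℝ :=
  1 / 2 * ∫ g, (ET R m (fun p => w p * fac f (fun p => cvec a b t p) g p) [(0, 0)]
      (fun ps => dd a b (ps.getD 0 []) (ps.getD 0 []) * f2 (dot (cvec a b t (ps.getD 0 [])) g)) +
    ((att R m [(0, 0)]).map fun c => c.2 * ET R m (fun p => w p * fac f (fun p => cvec a b t p) g p)
      [c.1, (0, 0)] fun ps => dd a b (ps.getD 0 []) (ps.getD 1 []) *
        (f1 (dot (cvec a b t (ps.getD 0 [])) g) * f1 (dot (cvec a b t (ps.getD 1 [])) g))).sum) ∂gauss (ι ⊕ κ)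

lemma cutErr_pos (L : ℝ) : 0 < cutErr L := by unfold cutErr; positivity

/-- the slope error of the cut -/
noncomputable def slopeErr (c L : ℝ) : ℝ := (semiK (cutD c L) + 2) * Real.sqrt (cutErr L)

/-- the slope inequality for the cut potential -/
theorem cut_slope {c L : ℝ} (hc : |c| ≤ 1 / 10) (hL : 1 ≤ L) (hε : cutErr L ≤ 1) (hR : 1 ≤ R)
    (hm : Ok R m w) {ι κ : Type} [Fintype ι] [Fintype κ] (a : List Ω → ι → ℝ) (b : List Ω → κ → ℝ)
    (ha : ∀ p : List Ω, p.length = R → cv a p p = 1) (hb : ∀ p : List Ω, p.length = R → cv b p p = 1) :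
    Gn (fL c L) R m w a b 1 - Gn (fL c L) R m w a b 0 ≤
      Gn' (fL c L) (fL1 c L) (fL2 c L) R m w a b 0 + slopeErr c L := by
  have hS := Vale.Agent.P157.Par.Sm.sd (cut_sm c hL)
  set ε := cutErr L
  have ε0 : 0 < ε := cutErr_pos L
  set t := Real.sqrt ε
  have t0 : 0 < t := Real.sqrt_pos.2 ε0
  have t1 : t ≤ 1 := Real.sqrt_le_one.2 hε
  set G := Gn (fL c L) R m w a b
  obtain ⟨hG, hG', hd⟩ := Vale.Agent.P157.Par.hasDerivAt_value hS hR hm a b
  change ContinuousOn G (Set.Icc 0 1) at hG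
  change ContinuousOn (Gn' (fL c L) (fL1 c L) (fL2 c L) R m w a b) (Set.Icc 0 1) at hG'
  change ∀ u ∈ Set.Ioo (0:ℝ) 1, HasDerivAt G (Gn' (fL c L) (fL1 c L) (fL2 c L) R m w a b u) u at hd
  set G' := Gn' (fL c L) (fL1 c L) (fL2 c L) R m w a b
  have stab : ∀ u, 0 ≤ u → u ≤ 1 → |Gn (qf c) R m w a b u - G u| ≤ ε := fun u hu hu' => by
    have hd1 : ∀ p : Fin R → Ω, dot (cvec a b u (List.ofFn p)) (cvec a b u (List.ofFn p)) = 1 := fun p =>
      (cv_cvec a b hu hu' _ _).trans (by rw [ha _ (by simp), hb _ (by simp)]; ring)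
    exact nest_stab hR hm _ (continuous_qf c) (potOf hS).c0
      (fun p => Pattern.integrable_lin (F := fun y => (Pattern.quad c).f (y ())) (fun _ : Unit => cvec a b u p)
        ((Pattern.quad c).c0.comp (continuous_apply _)) (Pattern.Pot.poly_eval (Pattern.quad c).p0 ()))
      (fun p => Pattern.integrable_lin (F := fun y => (potOf hS).f (y ())) (fun _ : Unit => cvec a b u p)
        ((potOf hS).c0.comp (continuous_apply _)) (Pattern.Pot.poly_eval (potOf hS).p0 ()))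
      fun wt hwt _ => flat_stab hc (by linarith) hwt (a := fun p => cvec a b u (List.ofFn p)) hd1
  have chord : t * G 1 + (1 - t) * G 0 ≤ G t + 2 * ε := by
    have h := quad_nest_concave hc hR hm a b ha hb t0.le t1
    have e1 := abs_le.1 (stab 1 zero_le_one le_rfl)
    have e0 := abs_le.1 (stab 0 le_rfl zero_le_one)
    have et := abs_le.1 (stab t t0.le t1)
    change t * Gn (qf c) R m w a b 1 + (1 - t) * Gn (qf c) R m w a b 0 ≤ Gn (qf c) R m w a b t at h
    linarith [mul_le_mul_of_nonneg_left e1.1 t0.le, mul_le_mul_of_nonneg_left e0.1 (sub_nonneg.2 t1), et.2]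
  have hsemi : G t - G 0 ≤ t * G' 0 + semiK (cutD c L) * t ^ 2 := by
    refine le_of_forall_pos_lt_add fun η hη => ?_
    obtain ⟨δ, hδ, hδ'⟩ := Metric.continuousWithinAt_iff.1 (hG' 0 (Set.left_mem_Icc.2 zero_le_one)) (η / t)
      (div_pos hη t0)
    set s := min δ 1 / 2
    have s0 : 0 < s := by positivity
    have hs : s < δ ∧ s < 1 := ⟨by simp only [s]; linarith [min_le_left δ 1], by simp only [s]; linarith [min_le_right δ 1]⟩
    have h := nest_semiconcave hS hR hm a b ha hb t0.le t1 s0.le hs.2.le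
    change s * G t + (1 - s) * G 0 - semiK (cutD c L) * t ^ 2 * s ≤ G (s * t) at h
    have st : s * t ≤ s := mul_le_of_le_one_right s0.le t1
    obtain ⟨ξ, hξ, he⟩ := exists_hasDerivAt_eq_slope G G' (mul_pos s0 t0)
      (hG.mono (Set.Icc_subset_Icc_right (by linarith))) fun x hx => hd x ⟨hx.1, by linarith [hx.2]⟩
    rw [sub_zero, eq_div_iff (mul_pos s0 t0).ne'] at he
    have hξ1 : ξ ∈ Set.Icc (0:ℝ) 1 := ⟨hξ.1.le, by linarith [hξ.2]⟩
    have := hδ' hξ1 (by rw [Real.dist_eq, sub_zero, abs_of_pos hξ.1]; linarith [hξ.2])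
    rw [Real.dist_eq, abs_lt, lt_div_iff₀ t0] at this
    have h2 : G t - G 0 - semiK (cutD c L) * t ^ 2 ≤ G' ξ * t := by
      refine le_of_mul_le_mul_left ?_ s0
      nlinarith
    linarith [this.2]
  have ht : t * t = ε := Real.mul_self_sqrt ε0.le
  have : t * (G 1 - G 0) ≤ t * (G' 0 + slopeErr c L) := by
    rw [slopeErr]
    nlinarith
  exact le_of_mul_le_mul_left this t0

/-- the slope error tends to zero -/
theorem slopeErr_tendsto (c : ℝ) : Tendsto (slopeErr c) atTop (𝓝 0) := by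
  have h1 : Tendsto (fun L : ℝ => L ^ 4 * Real.exp (-(L / 5))) atTop (𝓝 0) := by
    have := ((Real.tendsto_pow_mul_exp_neg_atTop_nhds_zero 4).comp
      (tendsto_id.atTop_div_const (show (0:ℝ) < 5 by norm_num))).const_mul (5 ^ 4 : ℝ)
    simpa [Function.comp_def, div_pow, ← mul_assoc, mul_div_cancel₀] using this
  set d := |c| * 2002 + 1
  refine squeeze_zero' (Eventually.of_forall fun L => ?_) ?_ (by simpa using h1.const_mul (40 * d ^ 4))
  · refine mul_nonneg ?_ (Real.sqrt_nonneg _)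
    simp only [semiK]
    have := sq_nonneg (cutD c L + cutD c L ^ 2)
    rcases le_total 0 (cutD c L) with h | h
    · positivity
    · nlinarith [mul_nonneg (sq_nonneg (cutD c L)) (sq_nonneg (cutD c L)), sq_nonneg (cutD c L + 1)]
  · filter_upwards [eventually_ge_atTop (1:ℝ)] with L hL
    set D := cutD c L
    have D0 : 0 ≤ D := by simp only [D, cutD]; positivity
    have hd1 : 1 ≤ d := le_add_of_nonneg_left (by positivity)
    have hD : D ≤ d * L := by simp only [D, cutD, d]; nlinarith [abs_nonneg c]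
    have dL : 1 ≤ d * L := one_le_mul_of_one_le_of_one_le hd1 hL
    have hK : semiK D + 2 ≤ 20 * (d * L) ^ 4 := by
      have b1 : D + D ^ 2 ≤ 2 * (d * L) ^ 2 := by
        linarith [pow_le_pow_left₀ D0 hD 2, hD.trans (le_self_pow₀ dL two_ne_zero)]
      have b2 := pow_le_pow_left₀ (show 0 ≤ D + D ^ 2 by positivity) b1 2
      have b3 := mul_le_mul b1 (pow_le_pow_left₀ D0 hD 2) (sq_nonneg D) (by positivity)
      have b4 : 1 ≤ (d * L) ^ 4 := one_le_pow₀ dL
      simp only [semiK]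
      nlinarith
    have hε : Real.sqrt (cutErr L) ≤ 2 * Real.exp (-(L / 5)) := by
      refine (Real.sqrt_le_sqrt (show cutErr L ≤ (2 * Real.exp (-(L / 5))) ^ 2 from ?_)).trans_eq
        (Real.sqrt_sq (by positivity))
      rw [mul_pow, ← Real.exp_nat_mul, cutErr]
      norm_num
      nlinarith
    calc slopeErr c L ≤ 20 * (d * L) ^ 4 * (2 * Real.exp (-(L / 5))) :=
          mul_le_mul hK hε (Real.sqrt_nonneg _) (by positivity)
      _ = 40 * d ^ 4 * (L ^ 4 * Real.exp (-(L / 5))) := by ring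

end Vale.Agent.P166.Par
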